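import Vale.Agent.P352.BW.Spec
import Vale.Agent.P352.BW.H266.Strip

/-! # P352 BW, block A (helper266) -/

open Set Filter MeasureTheory Complex Topology

namespace Vale.Agent.P352.BW

theorem a_nh {S : Set ℂ} {z p : ℂ} (h : z ≠ p) : S \ {p} ∈ 𝓝[S] z :=
  inter_mem_nhdsWithin S (isOpen_compl_singleton.mem_nhds h)

theorem ablock : AStmt := by
  intro f g C hf hg hfc hgc hfb hgb hfg hgf s
  have hop : IsOpen StI :=
    (isOpen_lt continuous_const Complex.continuous_im).inter
      (isOpen_lt Complex.continuous_im continuous_const)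
  have hSt : H266.St = St := rfl
  have hF : H266.Dat f C :=
    { dif := fun z h1 h2 => hf.differentiableAt (hop.mem_nhds ⟨h1, h2⟩)
      con := fun z hz h0 h1 => by
        rw [hSt] at hz ⊢
        have hw := hfc z ⟨hz, h1⟩
        refine hw.mono_of_mem_nhdsWithin ?_
        exact a_nh h1
      bd := fun z hz => hfb z hz }
  have hG : H266.Dat g C :=
    { dif := fun z h1 h2 => hg.differentiableAt (hop.mem_nhds ⟨h1, h2⟩)
      con := fun z hz h0 h1 => by
        rw [hSt] at hz ⊢
        have hw := hgc z ⟨hz, h0⟩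
        refine hw.mono_of_mem_nhdsWithin ?_
        exact a_nh h0
      bd := fun z hz => hgb z hz }
  obtain ⟨c, hc⟩ := H266.strip hF hG hfg hgf
  have hr : ∀ s : ℝ, s ≠ 0 → f s = c := by
    intro s hs
    refine (hc s ⟨by simp, by simp⟩ (by exact_mod_cast hs) ?_).1
    intro hh
    have := congrArg Complex.im hh
    simp at this
  have h0 : f (0 : ℝ) = c := by
    have hw := hfc ((0 : ℝ) : ℂ) ⟨⟨by simp, by simp⟩, by
      intro hh
      have := congrArg Complex.im hh
      simp at this⟩
    have hmap : Tendsto (fun x : ℝ => (x : ℂ)) (𝓝[>] 0) (𝓝[St \ {I / 2}] ((0 : ℝ) : ℂ)) := by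
      refine tendsto_nhdsWithin_iff.2 ⟨?_, Eventually.of_forall fun x => ?_⟩
      · exact (Complex.continuous_ofReal.tendsto 0).mono_left nhdsWithin_le_nhds
      · refine ⟨⟨by simp, by simp⟩, ?_⟩
        intro hh
        have := congrArg Complex.im hh
        simp at this
    have ht := hw.tendsto.comp hmap
    have ht2 : Tendsto (f ∘ fun x : ℝ => (x : ℂ)) (𝓝[>] 0) (𝓝 c) := by
      refine tendsto_const_nhds.congr' ?_
      filter_upwards [self_mem_nhdsWithin] with x hx
      exact (hr x (ne_of_gt hx)).symm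
    exact tendsto_nhds_unique ht ht2
  have h0' : f 0 = c := by simpa using h0
  rcases eq_or_ne s 0 with rfl | hs
  · simp
  · rw [hr s hs, h0']

end Vale.Agent.P352.BW
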