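import Vale.Agent.P352.BW.Spec
import Vale.Agent.P352.BW.H266.Ana

/-! # P352 BW, block B (helper266) -/

set_option linter.all false

open Set Filter MeasureTheory Topology Metric
open scoped ComplexConjugate InnerProductSpace BoundedContinuousFunction

namespace Vale.Agent.P352.BW

open Vale.Agent.P132 (ModData expB)

/-- the symbol of `At` -/
noncomputable def b_sy (τ : ℂ) (h : ℝ) : ℂ :=
  Complex.exp (Complex.I * τ * h) / (1 + Real.exp (h / 2) : ℝ)

theorem b_norm (τ : ℂ) (h : ℝ) :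
    ‖b_sy τ h‖ = Real.exp (-τ.im * h) / (1 + Real.exp (h / 2)) := by
  rw [b_sy, norm_div, Complex.norm_exp, Complex.norm_real, Real.norm_of_nonneg (by positivity)]
  congr 2
  simp

theorem b_le {τ : ℂ} (h1 : -(1 / 2) ≤ τ.im) (h2 : τ.im ≤ 0) (h : ℝ) : ‖b_sy τ h‖ ≤ 1 := by
  rw [b_norm, div_le_one (by positivity)]
  rcases le_total 0 h with hh | hh
  · have : Real.exp (-τ.im * h) ≤ Real.exp (h / 2) := Real.exp_le_exp.2 (by nlinarith)
    linarith
  · have : Real.exp (-τ.im * h) ≤ Real.exp 0 := Real.exp_le_exp.2 (by nlinarith)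
    rw [Real.exp_zero] at this
    have := Real.exp_pos (h / 2)
    linarith

theorem b_bd {τ : ℂ} {C : ℝ} (hC : ∀ h, ‖b_sy τ h‖ ≤ C) : -(1 / 2) ≤ τ.im ∧ τ.im ≤ 0 := by
  constructor
  · by_contra hlt
    have hlt : τ.im < -(1 / 2) := not_le.1 hlt
    have ht : Tendsto (fun h : ℝ => Real.exp ((-τ.im - 1 / 2) * h)) atTop atTop :=
      Real.tendsto_exp_atTop.comp (tendsto_id.const_mul_atTop (by linarith))
    obtain ⟨h, hh, hh2⟩ := ((ht.eventually (eventually_gt_atTop (2 * C))).and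
      (eventually_ge_atTop 0)).exists
    have h3 := hC h
    rw [b_norm, div_le_iff₀ (by positivity)] at h3
    have h4 : Real.exp (-τ.im * h) = Real.exp ((-τ.im - 1 / 2) * h) * Real.exp (h / 2) := by
      rw [← Real.exp_add]; congr 1; ring
    have h5 : 1 ≤ Real.exp (h / 2) := Real.one_le_exp (by linarith)
    have hC0 : 0 ≤ C := (norm_nonneg _).trans (hC 0)
    rw [h4] at h3
    nlinarith [Real.exp_pos ((-τ.im - 1 / 2) * h)]
  · by_contra hlt
    have hlt : 0 < τ.im := not_le.1 hlt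
    have ht : Tendsto (fun h : ℝ => Real.exp (-τ.im * h)) atBot atTop :=
      Real.tendsto_exp_atTop.comp (tendsto_id.const_mul_atBot_of_neg (by linarith))
    obtain ⟨h, hh, hh2⟩ := ((ht.eventually (eventually_gt_atTop (2 * C))).and
      (eventually_le_atBot 0)).exists
    have h3 := hC h
    rw [b_norm, div_le_iff₀ (by positivity)] at h3
    have h5 : Real.exp (h / 2) ≤ 1 := Real.exp_le_one_iff.2 (by linarith)
    have hC0 : 0 ≤ C := (norm_nonneg _).trans (hC 0)
    nlinarith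

theorem b_at {τ : ℂ} (h1 : -(1 / 2) ≤ τ.im) (h2 : τ.im ≤ 0) (h : ℝ) : At τ h = b_sy τ h := by
  have hex : ∃ C, ∀ h : ℝ, ‖Complex.exp (Complex.I * τ * h) / (1 + Real.exp (h / 2) : ℝ)‖ ≤ C :=
    ⟨1, fun h => b_le h1 h2 h⟩
  rw [At, dif_pos hex]
  rfl

theorem b_at_norm (τ : ℂ) : ‖At τ‖ ≤ 1 := by
  by_cases hex : ∃ C, ∀ h : ℝ, ‖Complex.exp (Complex.I * τ * h) / (1 + Real.exp (h / 2) : ℝ)‖ ≤ C
  · obtain ⟨C, hC⟩ := hex
    obtain ⟨h1, h2⟩ := b_bd hC
    rw [BoundedContinuousFunction.norm_le zero_le_one]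
    intro h
    rw [b_at h1 h2]
    exact b_le h1 h2 h
  · rw [At, dif_neg hex]
    simp

theorem b_ez (χ : ℝ →ᵇ ℂ) (hχ : HasCompactSupport χ) (z : ℂ) (h : ℝ) :
    ez χ hχ z h = Complex.exp (z * h) * χ h := rfl

theorem b_ez_diff (χ : ℝ →ᵇ ℂ) (hχ : HasCompactSupport χ) : Differentiable ℂ fun z => ez χ hχ z := by
  intro z₀
  obtain ⟨R, hR⟩ := hχ.isCompact.isBounded.subset_closedBall 0
  have hR' : ∀ h : ℝ, χ h ≠ 0 → |h| ≤ |R| := by
    intro h hh
    have := hR (subset_tsupport _ (Function.mem_support.2 hh))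
    rw [mem_closedBall_zero_iff, Real.norm_eq_abs] at this
    exact this.trans (le_abs_self R)
  refine H266.diff_bcf (r := 1) (C := Real.exp ((‖z₀‖ + 1) * |R|) * ‖χ‖) one_pos (fun h => ?_)
    (fun z hz h => ?_)
  · have : Differentiable ℂ fun z : ℂ => Complex.exp (z * h) * χ h := by fun_prop
    exact this.differentiableOn
  · rw [b_ez, norm_mul, Complex.norm_exp]
    by_cases hh : χ h = 0
    · rw [hh]; simp only [norm_zero, mul_zero]; positivity
    · refine mul_le_mul (Real.exp_le_exp.2 ?_) (χ.norm_coe_le_norm h) (norm_nonneg _)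
        (Real.exp_pos _).le
      have h1 : (z * h).re = z.re * h := by simp
      rw [h1]
      have h2 : |z.re| ≤ ‖z₀‖ + 1 := by
        refine (Complex.abs_re_le_norm z).trans ?_
        rw [mem_ball, dist_eq_norm] at hz
        have := norm_sub_norm_le z z₀
        linarith
      calc z.re * h ≤ |z.re * h| := le_abs_self _
        _ = |z.re| * |h| := abs_mul _ _
        _ ≤ (‖z₀‖ + 1) * |R| := mul_le_mul h2 (hR' h hh) (abs_nonneg _) (by positivity)

theorem b_at_diff : DifferentiableOn ℂ (fun τ => At τ) {τ | -(1 / 2) < τ.im ∧ τ.im < 0} := by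
  intro τ hτ
  have hop : IsOpen {τ : ℂ | -(1 / 2) < τ.im ∧ τ.im < 0} :=
    (isOpen_lt continuous_const Complex.continuous_im).inter
      (isOpen_lt Complex.continuous_im continuous_const)
  obtain ⟨r, hr, hsub⟩ := Metric.isOpen_iff.1 hop τ hτ
  refine (H266.diff_bcf (r := r) (C := 1) hr (fun h => ?_) (fun z hz h => ?_)).differentiableWithinAt
  · have h1 : Differentiable ℂ fun τ : ℂ => b_sy τ h := by
      unfold b_sy
      fun_prop
    refine h1.differentiableOn.congr fun z hz => ?_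
    exact b_at (hsub hz).1.le (hsub hz).2.le h
  · exact ((At z).norm_coe_le_norm h).trans (b_at_norm z)

variable {H : Type*} [NormedAddCommGroup H] [InnerProductSpace ℂ H] [CompleteSpace H]
variable {M : VonNeumannAlgebra H} {ξ : H}

/-- `Th` as a continuous linear map -/
noncomputable def b_T (DM : ModData M ξ) : (ℝ →ᵇ ℂ) →L[ℂ] (H →L[ℂ] H) :=
  LinearMap.mkContinuous
    { toFun := fun F => DM.Th F
      map_add' := fun F G => map_add DM.Th F G
      map_smul' := fun c F => map_smul DM.Th c F } 1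
    (fun F => by rw [one_mul]; exact DM.norm_Th_le F)

theorem bblock (DM : ModData M ξ) : BStmt DM where
  at_apply τ h h1 h2 := b_at h1 h2 h
  at_norm := b_at_norm
  ez_diff χ hχ := (b_T DM).differentiable.comp (b_ez_diff χ hχ)
  at_diff := (b_T DM).differentiable.comp_differentiableOn b_at_diff
  at_cont v := by
    intro τ hτ
    refine DM.tendsto_Th v (l := 𝓝[{τ | -(1 / 2) ≤ τ.im ∧ τ.im ≤ 0}] τ) (fun τ => At τ) (At τ) 1
      (Eventually.of_forall fun z x => ((At z).norm_coe_le_norm x).trans (b_at_norm z)) fun x => ?_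
    have h1 : Continuous fun τ : ℂ => b_sy τ x := by
      unfold b_sy
      fun_prop
    have h2 : Tendsto (fun z => b_sy z x) (𝓝[{τ | -(1 / 2) ≤ τ.im ∧ τ.im ≤ 0}] τ) (𝓝 (b_sy τ x)) :=
      (h1.tendsto τ).mono_left nhdsWithin_le_nhds
    rw [b_at hτ.1 hτ.2]
    refine h2.congr' ?_
    filter_upwards [self_mem_nhdsWithin] with z hz
    exact (b_at hz.1 hz.2 x).symm

end Vale.Agent.P352.BW
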