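import Vale.Agent.P352.BW.Spec

/-!
# P352 / BW, block C: `ff` is bounded and analytic in the strip (helper980)
-/

noncomputable section

open MeasureTheory Filter Topology
open scoped ComplexConjugate InnerProductSpace BoundedContinuousFunction

namespace Vale.Agent.P352.BW

open Vale.Agent.P132 (ModData expB)

namespace CB

/-! ### the function `tz` -/

theorem exp_re (z : ℂ) : (Complex.exp (2 * Real.pi * z)).re =
    Real.exp (2 * Real.pi * z.re) * Real.cos (2 * Real.pi * z.im) := by
  rw [Complex.exp_re]; simp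

theorem exp_im (z : ℂ) : (Complex.exp (2 * Real.pi * z)).im =
    Real.exp (2 * Real.pi * z.re) * Real.sin (2 * Real.pi * z.im) := by
  rw [Complex.exp_im]; simp

theorem w_im_nonneg {z : ℂ} (hz : z ∈ St) : 0 ≤ (1 + Complex.exp (2 * Real.pi * z)).im := by
  rw [Complex.add_im, Complex.one_im, zero_add, exp_im]
  have hpi := Real.pi_pos
  have h1 : 0 ≤ Real.sin (2 * Real.pi * z.im) := by
    apply Real.sin_nonneg_of_nonneg_of_le_pi
    · exact mul_nonneg (by positivity) hz.1
    · nlinarith [hz.2]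
  positivity

theorem w_im_pos {z : ℂ} (hz : z ∈ StI) : 0 < (1 + Complex.exp (2 * Real.pi * z)).im := by
  rw [Complex.add_im, Complex.one_im, zero_add, exp_im]
  have hpi := Real.pi_pos
  have h1 : 0 < Real.sin (2 * Real.pi * z.im) := by
    apply Real.sin_pos_of_pos_of_lt_pi
    · exact mul_pos (by positivity) hz.1
    · nlinarith [hz.2]
  positivity

theorem w_ne {z : ℂ} (hz : z ∈ St) (h : 1 + Complex.exp (2 * Real.pi * z) = 0) :
    z = Complex.I / 2 := by
  have hpi := Real.pi_pos
  have h1 : Complex.exp (2 * Real.pi * z) = -1 := by linear_combination h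
  have h2 : Real.exp (2 * Real.pi * z.re) = 1 := by
    have := congrArg norm h1
    rw [Complex.norm_exp] at this
    simpa using this
  have h3 : z.re = 0 := by
    rw [Real.exp_eq_one_iff] at h2
    have : (2 * Real.pi) ≠ 0 := by positivity
    exact (mul_eq_zero.1 h2).resolve_left this
  have h4 : Real.cos (2 * Real.pi * z.im) = Real.cos Real.pi := by
    have := congrArg Complex.re h1
    rw [exp_re, h2, one_mul] at this
    rw [this, Real.cos_pi]; simp
  have h5 : 2 * Real.pi * z.im = Real.pi := by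
    apply Real.injOn_cos _ _ h4
    · exact ⟨mul_nonneg (by positivity) hz.1, by nlinarith [hz.2]⟩
    · exact ⟨hpi.le, le_rfl⟩
  have h6 : z.im = 1 / 2 := by
    have : Real.pi * (2 * z.im - 1) = 0 := by linarith
    rcases mul_eq_zero.1 this with h | h
    · exact absurd h hpi.ne'
    · linarith
  apply Complex.ext
  · rw [h3]; simp
  · rw [h6]; simp

theorem tz_im (z : ℂ) : (tz z).im =
    -(Complex.arg (1 + Complex.exp (2 * Real.pi * z))) / (2 * Real.pi) := by
  have h : (2 * Real.pi : ℂ) = ((2 * Real.pi : ℝ) : ℂ) := by push_cast; ring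
  rw [tz, h, Complex.div_ofReal_im, Complex.neg_im, Complex.log_im, ← h]

theorem tz_mem {z : ℂ} (hz : z ∈ St) : -(1 / 2) ≤ (tz z).im ∧ (tz z).im ≤ 0 := by
  have hpi := Real.pi_pos
  have h1 : 0 ≤ Complex.arg (1 + Complex.exp (2 * Real.pi * z)) :=
    Complex.arg_nonneg_iff.2 (w_im_nonneg hz)
  have h2 := Complex.arg_le_pi (1 + Complex.exp (2 * Real.pi * z))
  rw [tz_im]
  constructor
  · rw [le_div_iff₀ (by positivity)]; linarith
  · rw [div_le_iff₀ (by positivity)]; linarith

theorem tz_mem' {z : ℂ} (hz : z ∈ StI) : -(1 / 2) < (tz z).im ∧ (tz z).im < 0 := by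
  have hpi := Real.pi_pos
  have h0 := w_im_pos hz
  have h1 : 0 ≤ Complex.arg (1 + Complex.exp (2 * Real.pi * z)) :=
    Complex.arg_nonneg_iff.2 h0.le
  have h1' : Complex.arg (1 + Complex.exp (2 * Real.pi * z)) ≠ 0 := by
    intro h
    exact h0.ne' (Complex.arg_eq_zero_iff.1 h).2
  have h1'' := lt_of_le_of_ne h1 (Ne.symm h1')
  have h2 : Complex.arg (1 + Complex.exp (2 * Real.pi * z)) < Real.pi :=
    Complex.arg_lt_pi_iff.2 (Or.inr h0.ne')
  rw [tz_im]
  constructor
  · rw [lt_div_iff₀ (by positivity)]; linarith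
  · rw [div_lt_iff₀ (by positivity)]; linarith

theorem isOpen_StI : IsOpen StI :=
  (isOpen_lt continuous_const Complex.continuous_im).inter
    (isOpen_lt Complex.continuous_im continuous_const)

theorem tz_diff {z : ℂ} (hz : z ∈ StI) : DifferentiableAt ℂ tz z := by
  have h1 : 1 + Complex.exp (2 * Real.pi * z) ∈ Complex.slitPlane :=
    Complex.mem_slitPlane_iff.2 (Or.inr (w_im_pos hz).ne')
  have h2 : DifferentiableAt ℂ (fun z : ℂ => Complex.log (1 + Complex.exp (2 * Real.pi * z))) z :=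
    DifferentiableAt.clog (by fun_prop) h1
  unfold tz
  exact h2.fun_neg.div_const _

theorem tz_cont : ContinuousOn tz (St \ {Complex.I / 2}) := by
  rintro z ⟨hz, hz'⟩
  have hc : Continuous fun z : ℂ => 1 + Complex.exp (2 * Real.pi * z) := by fun_prop
  unfold tz
  refine ContinuousWithinAt.div_const (ContinuousWithinAt.neg ?_) _
  by_cases h1 : 1 + Complex.exp (2 * Real.pi * z) ∈ Complex.slitPlane
  · exact (ContinuousAt.clog hc.continuousAt h1).continuousWithinAt
  · rw [Complex.mem_slitPlane_iff, not_or, not_lt, not_not] at h1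
    have h2 : (1 + Complex.exp (2 * Real.pi * z)).re < 0 := by
      refine lt_of_le_of_ne h1.1 fun h => hz' ?_
      exact w_ne hz (Complex.ext h h1.2)
    have h3 := Complex.continuousWithinAt_log_of_re_neg_of_im_zero h2 h1.2
    refine ContinuousWithinAt.comp (t := {w : ℂ | 0 ≤ w.im})
      (f := fun z : ℂ => 1 + Complex.exp (2 * Real.pi * z)) (g := Complex.log) h3
      hc.continuousWithinAt ?_
    rintro w ⟨hw, -⟩
    exact w_im_nonneg hw

/-! ### norms of the symbols -/

theorem ez_norm (χ : ℝ →ᵇ ℂ) (hχ : HasCompactSupport χ) : ∃ R : ℝ, 0 ≤ R ∧ ∀ (z : ℂ) (r : ℝ),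
    |z.re| ≤ r → ‖ez χ hχ z‖ ≤ Real.exp (r * R) * ‖χ‖ := by
  obtain ⟨R, hR⟩ := hχ.isCompact.isBounded.exists_norm_le
  refine ⟨|R|, abs_nonneg R, fun z r hr => ?_⟩
  rw [BoundedContinuousFunction.norm_le (by positivity)]
  intro h
  have e : ez χ hχ z h = Complex.exp (z * h) * χ h := rfl
  rw [e, norm_mul]
  by_cases hh : h ∈ tsupport χ
  · have h1 : |h| ≤ |R| := by
      have := hR h hh
      rw [Real.norm_eq_abs] at this
      exact this.trans (le_abs_self R)
    refine mul_le_mul ?_ (χ.norm_coe_le_norm h) (norm_nonneg _) (Real.exp_pos _).le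
    rw [Complex.norm_exp, Real.exp_le_exp]
    have h2 : (z * (h : ℂ)).re = z.re * h := by simp
    rw [h2]
    calc z.re * h ≤ |z.re * h| := le_abs_self _
      _ = |z.re| * |h| := abs_mul _ _
      _ ≤ r * |R| := mul_le_mul hr h1 (abs_nonneg _) ((abs_nonneg _).trans hr)
  · have h0 : χ h = 0 := image_eq_zero_of_notMem_tsupport hh
    rw [h0, norm_zero, mul_zero]
    positivity

variable {H : Type*} [NormedAddCommGroup H] [InnerProductSpace ℂ H] [CompleteSpace H]
variable {M N : VonNeumannAlgebra H} {ξ : H}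

/-- `J_M J_N` -/
def JJ (DM : ModData M ξ) (DN : ModData N ξ) : H →L[ℂ] H :=
  (DN.J.trans DM.J : H ≃ₗᵢ[ℂ] H).toContinuousLinearEquiv.toContinuousLinearMap

theorem JJ_apply (DM : ModData M ξ) (DN : ModData N ξ) (v : H) :
    JJ DM DN v = DM.J (DN.J v) := rfl

/-- the vector inside `ff` -/
def GG (DM : ModData M ξ) (DN : ModData N ξ) (χ : ℝ →ᵇ ℂ) (hχ : HasCompactSupport χ) (v : H)
    (z : ℂ) : H :=
  DN.Th (ez χ hχ (-(Complex.I * (tz z + z)))) v +
    JJ DM DN (DN.Th (ez χ hχ (1 / 2 - Complex.I * (tz z + z))) v)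

theorem ff_eq (DM : ModData M ξ) (DN : ModData N ξ) (χ : ℝ →ᵇ ℂ) (hχ : HasCompactSupport χ)
    (u v : H) (z : ℂ) : ff DM DN χ hχ u v z =
      innerSL ℂ u (DN.Th (ez χ hχ (Complex.I * z)) (DM.Th (At (tz z)) (GG DM DN χ hχ v z))) := rfl

theorem re1 {z : ℂ} (hz : z ∈ St) : |(Complex.I * z).re| ≤ 1 := by
  have h1 : (Complex.I * z).re = -z.im := by simp
  rw [h1, abs_neg, abs_of_nonneg hz.1]
  linarith [hz.2]

theorem re2 {z : ℂ} (hz : z ∈ St) : |(-(Complex.I * (tz z + z))).re| ≤ 1 := by
  have h1 : (-(Complex.I * (tz z + z))).re = (tz z).im + z.im := by simp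
  have h2 := tz_mem hz
  rw [h1, abs_le]
  constructor <;> linarith [hz.1, hz.2, h2.1, h2.2]

theorem re3 {z : ℂ} (hz : z ∈ St) : |(1 / 2 - Complex.I * (tz z + z)).re| ≤ 1 := by
  have h1 : (1 / 2 - Complex.I * (tz z + z)).re = 1 / 2 + ((tz z).im + z.im) := by
    simp
    ring
  have h2 := tz_mem hz
  rw [h1, abs_le]
  constructor <;> linarith [hz.1, hz.2, h2.1, h2.2]

theorem Th_le (D : ModData M ξ) (F : ℝ →ᵇ ℂ) (v : H) {C : ℝ} (hC : ‖F‖ ≤ C) :
    ‖D.Th F v‖ ≤ C * ‖v‖ :=
  ((D.Th F).le_opNorm v).trans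
    (mul_le_mul_of_nonneg_right ((D.norm_Th_le F).trans hC) (norm_nonneg _))

theorem norm_JJ (DM : ModData M ξ) (DN : ModData N ξ) (v : H) : ‖JJ DM DN v‖ = ‖v‖ := by
  rw [JJ_apply, DM.J.norm_map, DN.J.norm_map]

end CB

open CB

variable {H : Type*} [NormedAddCommGroup H] [InnerProductSpace ℂ H] [CompleteSpace H]
variable {M N : VonNeumannAlgebra H} {ξ : H}

theorem cblock (DM : ModData M ξ) (DN : ModData N ξ) (BM : BStmt DM) (BN : BStmt DN) :
    CStmt DM DN := by
  intro χ hχ u v
  have hA : Differentiable ℂ fun z => DN.Th (ez χ hχ z) := BN.ez_diff χ hχ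
  refine ⟨?_, ?_, ?_⟩
  · -- analytic inside
    intro z hz
    refine DifferentiableAt.differentiableWithinAt ?_
    have ht := tz_diff hz
    have hB : DifferentiableAt ℂ (fun τ => DM.Th (At τ)) (tz z) := by
      refine (BM.at_diff (tz z) (tz_mem' hz)).differentiableAt ?_
      exact ((isOpen_lt continuous_const Complex.continuous_im).inter
        (isOpen_lt Complex.continuous_im continuous_const)).mem_nhds (tz_mem' hz)
    have h1 : DifferentiableAt ℂ (fun z => DN.Th (ez χ hχ (-(Complex.I * (tz z + z))))) z :=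
      DifferentiableAt.comp (g := fun z => DN.Th (ez χ hχ z))
        (f := fun z => -(Complex.I * (tz z + z))) z (hA _)
        (((ht.add differentiableAt_id).const_mul _).neg)
    have h2 : DifferentiableAt ℂ (fun z => DN.Th (ez χ hχ (1 / 2 - Complex.I * (tz z + z)))) z :=
      DifferentiableAt.comp (g := fun z => DN.Th (ez χ hχ z))
        (f := fun z => 1 / 2 - Complex.I * (tz z + z)) z (hA _)
        (((ht.add differentiableAt_id).const_mul _).const_sub _)
    have h3 : DifferentiableAt ℂ (fun z => DN.Th (ez χ hχ (Complex.I * z))) z :=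
      DifferentiableAt.comp (g := fun z => DN.Th (ez χ hχ z))
        (f := fun z => Complex.I * z) z (hA _) (differentiableAt_id.const_mul _)
    have h4 : DifferentiableAt ℂ (fun z => DM.Th (At (tz z))) z :=
      DifferentiableAt.comp (g := fun τ => DM.Th (At τ)) (f := tz) z hB ht
    have hG : DifferentiableAt ℂ (GG DM DN χ hχ v) z :=
      (h1.clm_apply (differentiableAt_const v)).add
        ((JJ DM DN).differentiableAt.comp z (h2.clm_apply (differentiableAt_const v)))
    exact (innerSL ℂ u).differentiableAt.comp z (h3.clm_apply (h4.clm_apply hG))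
  · -- continuous up to the boundary
    have hAc : Continuous fun z => DN.Th (ez χ hχ z) := hA.continuous
    have ht := tz_cont
    have hid : ContinuousOn (fun z : ℂ => z) (St \ {Complex.I / 2}) := continuousOn_id
    have h1 : ContinuousOn (fun z => DN.Th (ez χ hχ (-(Complex.I * (tz z + z)))))
        (St \ {Complex.I / 2}) :=
      hAc.comp_continuousOn (continuousOn_const.mul (ht.add hid)).neg
    have h2 : ContinuousOn (fun z => DN.Th (ez χ hχ (1 / 2 - Complex.I * (tz z + z))))
        (St \ {Complex.I / 2}) :=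
      hAc.comp_continuousOn (continuousOn_const.sub (continuousOn_const.mul (ht.add hid)))
    have h3 : ContinuousOn (fun z => DN.Th (ez χ hχ (Complex.I * z))) (St \ {Complex.I / 2}) :=
      hAc.comp_continuousOn (continuousOn_const.mul hid)
    have hG : ContinuousOn (GG DM DN χ hχ v) (St \ {Complex.I / 2}) :=
      (h1.clm_apply continuousOn_const).add
        ((JJ DM DN).continuous.comp_continuousOn (h2.clm_apply continuousOn_const))
    have hBG : ContinuousOn (fun z => DM.Th (At (tz z)) (GG DM DN χ hχ v z))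
        (St \ {Complex.I / 2}) := by
      intro z hz
      have e1 : ContinuousWithinAt (fun w => DM.Th (At (tz w)) (GG DM DN χ hχ v z))
          (St \ {Complex.I / 2}) z := by
        refine ContinuousWithinAt.comp (t := {τ : ℂ | -(1 / 2) ≤ τ.im ∧ τ.im ≤ 0})
          (g := fun τ => DM.Th (At τ) (GG DM DN χ hχ v z)) (f := tz)
          (BM.at_cont _ _ (tz_mem hz.1)) (ht z hz) ?_
        exact fun w hw => tz_mem hw.1
      have e2 : Tendsto (fun w => DM.Th (At (tz w)) (GG DM DN χ hχ v w - GG DM DN χ hχ v z))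
          (𝓝[St \ {Complex.I / 2}] z) (𝓝 0) := by
        rw [tendsto_zero_iff_norm_tendsto_zero]
        refine squeeze_zero (fun _ => norm_nonneg _)
          (fun w => Th_le DM (At (tz w)) _ (BM.at_norm _)) ?_
        have e3 := tendsto_iff_norm_sub_tendsto_zero.1 (hG z hz)
        simpa using e3
      have e4 := e2.add e1
      rw [zero_add] at e4
      refine e4.congr fun w => ?_
      rw [map_sub]
      abel
    exact (innerSL ℂ u).continuous.comp_continuousOn (h3.clm_apply hBG)
  · -- bounded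
    obtain ⟨R, hR0, hR⟩ := ez_norm χ hχ
    set K : ℝ := Real.exp (1 * R) * ‖χ‖ with hK
    have hK0 : 0 ≤ K := by positivity
    refine ⟨‖u‖ * (K * (1 * (K * ‖v‖ + K * ‖v‖))), fun z hz => ?_⟩
    have b1 : ‖GG DM DN χ hχ v z‖ ≤ K * ‖v‖ + K * ‖v‖ := by
      refine (norm_add_le _ _).trans (add_le_add ?_ ?_)
      · exact Th_le DN _ v (hR _ 1 (re2 hz))
      · rw [norm_JJ]
        exact Th_le DN _ v (hR _ 1 (re3 hz))
    have b2 : ‖DM.Th (At (tz z)) (GG DM DN χ hχ v z)‖ ≤ 1 * (K * ‖v‖ + K * ‖v‖) :=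
      (Th_le DM _ _ (BM.at_norm _)).trans (mul_le_mul_of_nonneg_left b1 zero_le_one)
    have b3 : ‖DN.Th (ez χ hχ (Complex.I * z)) (DM.Th (At (tz z)) (GG DM DN χ hχ v z))‖ ≤
        K * (1 * (K * ‖v‖ + K * ‖v‖)) :=
      (Th_le DN _ _ (hR _ 1 (re1 hz))).trans (mul_le_mul_of_nonneg_left b2 hK0)
    rw [ff_eq, innerSL_apply_apply]
    exact (norm_inner_le_norm _ _).trans (mul_le_mul_of_nonneg_left b3 (norm_nonneg _))

end Vale.Agent.P352.BW

end
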