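import Vale.Agent.P352.BW.Spec

/-!
# P352 BW, block C2 (helper583): boundary values of `ff`
-/

set_option linter.all false

noncomputable section

open MeasureTheory Filter Topology
open scoped ComplexConjugate InnerProductSpace BoundedContinuousFunction

namespace Vale.Agent.P352.BW

open Vale.Agent
open Vale.Agent.P132 (ModData expB)

variable {H : Type*} [NormedAddCommGroup H] [InnerProductSpace ℂ H] [CompleteSpace H]

variable {M N : VonNeumannAlgebra H} {ξ : H}

namespace H583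

/-! ### symbols -/

theorem ez_apply (χ : ℝ →ᵇ ℂ) (hχ : HasCompactSupport χ) (z : ℂ) (h : ℝ) :
    ez χ hχ z h = Complex.exp (z * h) * χ h := rfl

theorem ez_smooth {χ : ℝ →ᵇ ℂ} (hχ : HasCompactSupport χ) (hs : ContDiff ℝ (⊤ : ℕ∞) χ) (z : ℂ) :
    ContDiff ℝ (⊤ : ℕ∞) (ez χ hχ z) := by
  have h1 : ContDiff ℝ (⊤ : ℕ∞) (fun h : ℝ => Complex.exp (z * h)) := by
    have : ContDiff ℝ (⊤ : ℕ∞) (fun h : ℝ => z * (h : ℂ)) :=
      contDiff_const.mul Complex.ofRealCLM.contDiff
    exact this.cexp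
  exact h1.mul hs

theorem ez_compact (χ : ℝ →ᵇ ℂ) (hχ : HasCompactSupport χ) (z : ℂ) :
    HasCompactSupport (ez χ hχ z) := hχ.mul_left

theorem ez_ez (χ : ℝ →ᵇ ℂ) (hχ : HasCompactSupport χ) (z w : ℂ)
    (h : HasCompactSupport (ez χ hχ z)) : ez (ez χ hχ z) h w = ez χ hχ (w + z) := by
  ext x
  simp only [ez_apply, add_mul, Complex.exp_add]
  ring

theorem ez_zero (χ : ℝ →ᵇ ℂ) (hχ : HasCompactSupport χ) : ez χ hχ 0 = χ := by
  ext x
  simp [ez_apply]

theorem ez_I_add (χ : ℝ →ᵇ ℂ) (hχ : HasCompactSupport χ) (s : ℝ) (z : ℂ) :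
    ez χ hχ (Complex.I * s + z) = expB s * ez χ hχ z := by
  ext x
  simp only [ez_apply, BoundedContinuousFunction.mul_apply, P132.expB_apply, add_mul,
    Complex.exp_add]
  rw [mul_assoc]
  congr 2
  push_cast
  ring

theorem star_ez {χ : ℝ →ᵇ ℂ} (hχ : HasCompactSupport χ) (hr : ∀ h, conj (χ h) = χ h) (z : ℂ) :
    star (ez χ hχ z) = ez χ hχ (conj z) := by
  ext x
  rw [BoundedContinuousFunction.star_apply, ez_apply, ez_apply, Complex.star_def, map_mul, hr,
    ← Complex.exp_conj, map_mul, Complex.conj_ofReal]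

theorem Th_ez_I {M : VonNeumannAlgebra H} {ξ : H} (D : ModData M ξ) (χ : ℝ →ᵇ ℂ)
    (hχ : HasCompactSupport χ) (s : ℝ) (z : ℂ) (v : H) :
    D.Th (ez χ hχ (Complex.I * s + z)) v = D.U s (D.Th (ez χ hχ z) v) := by
  rw [ez_I_add, map_mul]
  rfl

/-! ### the bracket -/

section br

variable (DM : ModData M ξ) (DN : ModData N ξ)

/-- `(1 + Δ^{1/2})`-trick, lower edge -/
theorem br_low (hK : KStmt DM DN) (hB : BStmt DM) (hsub : ∀ x ∈ N, x ∈ M) (k : ℝ →ᵇ ℂ)
    (hk : HasCompactSupport k) (hks : ContDiff ℝ (⊤ : ℕ∞) k) (t : ℝ) (v : H) :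
    DM.Th (At t) (DN.Th k v + DM.J (DN.J (DN.Th (ez k hk (1 / 2)) v))) =
      DM.U t (DN.Th k v) := by
  have h1 : ∀ h : ℝ, At t h = Complex.exp (Complex.I * t * h) / (1 + Real.exp (h / 2) : ℝ) :=
    fun h => hB.at_apply t h (by simp) (by simp)
  have h0 : ∀ h : ℝ, ((1 + Real.exp (h / 2) : ℝ) : ℂ) ≠ 0 := fun h =>
    Complex.ofReal_ne_zero.2 (by positivity)
  have h2 : ∀ h : ℝ, (P132.expB t - At t) h = Real.exp (h / 2) * At t h := by
    intro h
    rw [BoundedContinuousFunction.sub_apply, h1, P132.expB_apply]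
    field_simp [h0 h]
    have := h0 h
    push_cast at this ⊢
    have e : Complex.exp (Complex.I * (t * h)) = Complex.exp (Complex.I * t * h) := by
      rw [mul_assoc]
    rw [e]
    field_simp
    ring
  have h3 := hK hsub (P132.expB t - At t) (At t) k hk v hks h2
  rw [map_add, h3, map_sub]
  change _ + (DM.Th (expB t) (DN.Th k v) - DM.Th (At t) (DN.Th k v)) = _
  rw [add_sub_cancel]
  rfl

/-- `(1 + Δ^{1/2})`-trick, upper edge -/
theorem br_up (hK : KStmt DM DN) (hB : BStmt DM) (hsub : ∀ x ∈ N, x ∈ M) (k : ℝ →ᵇ ℂ)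
    (hk : HasCompactSupport k) (hks : ContDiff ℝ (⊤ : ℕ∞) k) (t : ℝ) (v : H) :
    DM.Th (At (t - Complex.I / 2)) (DN.Th k v + DM.J (DN.J (DN.Th (ez k hk (1 / 2)) v))) =
      DM.U t (DM.J (DN.J (DN.Th (ez k hk (1 / 2)) v))) := by
  have h1 : ∀ h : ℝ, At t h = Complex.exp (Complex.I * t * h) / (1 + Real.exp (h / 2) : ℝ) :=
    fun h => hB.at_apply t h (by simp) (by simp)
  have h1' : ∀ h : ℝ, At (t - Complex.I / 2) h =
      Complex.exp (Complex.I * (t - Complex.I / 2) * h) / (1 + Real.exp (h / 2) : ℝ) := by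
    intro h
    refine hB.at_apply _ h ?_ ?_ <;> simp
  have h0 : ∀ h : ℝ, ((1 + Real.exp (h / 2) : ℝ) : ℂ) ≠ 0 := fun h =>
    Complex.ofReal_ne_zero.2 (by positivity)
  have he : ∀ h : ℝ, Complex.exp (Complex.I * (t - Complex.I / 2) * h) =
      Real.exp (h / 2) * Complex.exp (Complex.I * t * h) := by
    intro h
    rw [Complex.ofReal_exp, ← Complex.exp_add]
    congr 1
    push_cast
    linear_combination (-(h : ℂ) / 2) * Complex.I_mul_I
  have h2 : ∀ h : ℝ, At (t - Complex.I / 2) h = Real.exp (h / 2) * At t h := by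
    intro h
    rw [h1', h1, he, mul_div_assoc]
  have h3 := hK hsub _ (At t) k hk v hks h2
  have h4 : At (t - Complex.I / 2) + At t = P132.expB t := by
    ext h
    rw [BoundedContinuousFunction.add_apply, h2, h1, P132.expB_apply]
    have := h0 h
    have e : Complex.exp (Complex.I * ((t * h : ℝ) : ℂ)) = Complex.exp (Complex.I * t * h) := by
      rw [mul_assoc]; push_cast; rfl
    rw [e]
    field_simp
    push_cast
    ring
  rw [map_add, ← h3]
  have h5 : DM.Th (At t) (DM.J (DN.J (DN.Th (ez k hk (1 / 2)) v))) +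
      DM.Th (At (t - Complex.I / 2)) (DM.J (DN.J (DN.Th (ez k hk (1 / 2)) v))) =
      DM.Th (At (t - Complex.I / 2) + At t) (DM.J (DN.J (DN.Th (ez k hk (1 / 2)) v))) := by
    rw [map_add, add_comm]
    rfl
  rw [h5, h4]
  rfl

end br

/-! ### values of `tz` -/

theorem exp_two_pi_half (s : ℝ) :
    Complex.exp (2 * Real.pi * (s + Complex.I / 2)) = -(Real.exp (2 * Real.pi * s) : ℝ) := by
  have : (2 * Real.pi * (s + Complex.I / 2) : ℂ) = (2 * Real.pi * s : ℝ) + Real.pi * Complex.I := by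
    push_cast; ring
  rw [this, Complex.exp_add, Complex.exp_pi_mul_I, Complex.ofReal_exp]
  ring

theorem tz_real (s : ℝ) : tz s = (tc (Real.exp (2 * Real.pi * s)) : ℝ) := by
  unfold tz tc
  have h1 : (1 + Complex.exp (2 * Real.pi * s) : ℂ) = ((1 + Real.exp (2 * Real.pi * s) : ℝ) : ℂ) := by
    push_cast; rfl
  rw [h1, ← Complex.ofReal_log (by positivity)]
  push_cast
  ring

theorem tz_upl {s t : ℝ} (hs : s < 0)
    (ht : t = -(Real.log (1 - Real.exp (2 * Real.pi * s))) / (2 * Real.pi)) :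
    tz (s + Complex.I / 2) = t := by
  unfold tz
  have h0 : Real.exp (2 * Real.pi * s) ≤ 1 :=
    Real.exp_le_one_iff.2 (by nlinarith [Real.pi_pos])
  have h1 : (1 + Complex.exp (2 * Real.pi * (s + Complex.I / 2)) : ℂ) =
      ((1 - Real.exp (2 * Real.pi * s) : ℝ) : ℂ) := by
    rw [exp_two_pi_half]; push_cast; ring
  rw [h1, ← Complex.ofReal_log (by linarith), ht]
  push_cast
  ring

theorem tz_upr {s t : ℝ} (hs : 0 < s)
    (ht : t = -(Real.log (Real.exp (2 * Real.pi * s) - 1)) / (2 * Real.pi)) :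
    tz (s + Complex.I / 2) = t - Complex.I / 2 := by
  unfold tz
  have h0 : 1 < Real.exp (2 * Real.pi * s) :=
    Real.one_lt_exp_iff.2 (by positivity)
  have h1 : (1 + Complex.exp (2 * Real.pi * (s + Complex.I / 2)) : ℂ) =
      -((Real.exp (2 * Real.pi * s) - 1 : ℝ) : ℂ) := by
    rw [exp_two_pi_half]; push_cast; ring
  have hpos : 0 < Real.exp (2 * Real.pi * s) - 1 := by linarith
  have h2 : Complex.log (-((Real.exp (2 * Real.pi * s) - 1 : ℝ) : ℂ)) =
      (Real.log (Real.exp (2 * Real.pi * s) - 1) : ℝ) + Real.pi * Complex.I := by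
    rw [← Complex.ofReal_neg]
    have h3 : (-(Real.exp (2 * Real.pi * s) - 1)) < 0 := by linarith
    rw [Complex.log, Complex.arg_ofReal_of_neg h3, Complex.norm_real, Real.norm_eq_abs, abs_neg,
      abs_of_pos hpos]
  have hpi : (Real.pi : ℂ) ≠ 0 := Complex.ofReal_ne_zero.2 Real.pi_ne_zero
  rw [h1, h2, ht]
  push_cast
  field_simp
  ring

end H583

/-! ### block C2 -/

open H583 in
theorem c2block {DM : ModData M ξ} {DN : ModData N ξ} (hK : KStmt DM DN) (hB : BStmt DM)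
    (hsub : ∀ x ∈ N, x ∈ M) {χ : ℝ →ᵇ ℂ} (hχ : HasCompactSupport χ) (hE : Evn χ) (u v : H) :
    C2Stmt DM DN χ hχ u v := by
  refine ⟨fun s => ?_, fun s t hs ht => ?_, fun s t hs ht => ?_⟩
  · set t : ℝ := tc (Real.exp (2 * Real.pi * s)) with ht
    have hk := ez_compact χ hχ (-(Complex.I * (t + s)))
    have e1 : (1 / 2 - Complex.I * (t + s) : ℂ) = 1 / 2 + -(Complex.I * (t + s)) := by ring
    rw [ff, tz_real, ← ht, e1, ← ez_ez χ hχ _ _ hk,
      br_low DM DN hK hB hsub _ hk (ez_smooth hχ hE.smooth _) t v]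
    have e2 : (-(Complex.I * (t + s)) : ℂ) =
        Complex.I * ((-t : ℝ) : ℂ) + (Complex.I * ((-s : ℝ) : ℂ) + 0) := by
      push_cast; ring
    rw [e2, Th_ez_I, Th_ez_I, ez_zero]
    have e3 : (Complex.I * s : ℂ) = conj (Complex.I * ((-s : ℝ) : ℂ) + 0) := by
      simp
    rw [e3, ← star_ez hχ hE.real, ← DN.gd_inner_Th, Th_ez_I, ez_zero]
  · have hz := tz_upl hs ht
    have hk := ez_compact χ hχ (-(Complex.I * (t + (s + Complex.I / 2))))
    have e1 : (1 / 2 - Complex.I * (t + (s + Complex.I / 2)) : ℂ) =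
        1 / 2 + -(Complex.I * (t + (s + Complex.I / 2))) := by ring
    rw [ff, hz, e1, ← ez_ez χ hχ _ _ hk,
      br_low DM DN hK hB hsub _ hk (ez_smooth hχ hE.smooth _) t v]
    have e2 : (-(Complex.I * (t + (s + Complex.I / 2))) : ℂ) =
        Complex.I * ((-t : ℝ) : ℂ) + (Complex.I * ((-s : ℝ) : ℂ) + 1 / 2) := by
      push_cast
      linear_combination (-(1 : ℂ) / 2) * Complex.I_mul_I
    rw [e2, Th_ez_I, Th_ez_I]
    have e3 : (Complex.I * (s + Complex.I / 2) : ℂ) =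
        conj (Complex.I * ((-s : ℝ) : ℂ) + -(1 / 2)) := by
      apply Complex.ext <;> simp
    rw [e3, ← star_ez hχ hE.real, ← DN.gd_inner_Th, Th_ez_I]
  · have hz := tz_upr hs ht
    have e0 : ((t : ℂ) - Complex.I / 2 + (s + Complex.I / 2)) = t + s := by ring
    have hk := ez_compact χ hχ (-(Complex.I * (t + s)))
    have e1 : (1 / 2 - Complex.I * (t + s) : ℂ) = 1 / 2 + -(Complex.I * (t + s)) := by ring
    rw [ff, hz, e0, e1, ← ez_ez χ hχ _ _ hk,
      br_up DM DN hK hB hsub _ hk (ez_smooth hχ hE.smooth _) t v, ez_ez]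
    have e2 : (1 / 2 + -(Complex.I * (t + s)) : ℂ) =
        Complex.I * ((-(t + s) : ℝ) : ℂ) + 1 / 2 := by
      push_cast; ring
    rw [e2, Th_ez_I]
    have e3 : (Complex.I * (s + Complex.I / 2) : ℂ) =
        conj (Complex.I * ((-s : ℝ) : ℂ) + -(1 / 2)) := by
      apply Complex.ext <;> simp
    rw [e3, ← star_ez hχ hE.real, ← DN.gd_inner_Th, Th_ez_I]

end Vale.Agent.P352.BW

end
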