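import Vale.Agent.P352.BW.Spec
import Mathlib.Analysis.Calculus.Deriv.Star

/-!
P352 BW, block D: covariance of `U(c) = Δ_M^{it} Δ_N^{-it}` under the modular group of `N`.
-/

open Filter Topology
open scoped ComplexConjugate InnerProductSpace BoundedContinuousFunction

namespace Vale.Agent.P352.BW

open Vale.Agent.P132 (ModData expB)

universe u

variable {H : Type u} [NormedAddCommGroup H] [InnerProductSpace ℂ H] [CompleteSpace H]

/-- smooth even cutoffs tending to one -/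
theorem exists_cut : ∃ χ : ℕ → ℝ →ᵇ ℂ, (∀ n, HasCompactSupport (χ n)) ∧ (∀ n, Evn (χ n)) ∧
    (∀ n x, ‖χ n x‖ ≤ 1) ∧ ∀ x, Tendsto (fun n => χ n x) atTop (𝓝 1) := by
  let b : ℕ → ContDiffBump (0 : ℝ) := fun n =>
    { rIn := n + 1, rOut := n + 2, rIn_pos := by positivity, rIn_lt_rOut := by linarith }
  have hcs : ∀ n, HasCompactSupport fun x : ℝ => ((b n x : ℝ) : ℂ) := fun n =>
    (b n).hasCompactSupport.comp_left (g := fun r : ℝ => (r : ℂ)) (by simp)
  have hct : ∀ n, Continuous fun x : ℝ => ((b n x : ℝ) : ℂ) := fun n =>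
    Complex.continuous_ofReal.comp (b n).continuous
  have hap : ∀ n x, ModData.gdC (fun x : ℝ => ((b n x : ℝ) : ℂ)) (hct n) (hcs n) x =
      ((b n x : ℝ) : ℂ) := fun n x => rfl
  refine ⟨fun n => ModData.gdC (fun x : ℝ => ((b n x : ℝ) : ℂ)) (hct n) (hcs n), hcs, ?_, ?_, ?_⟩
  · intro n
    refine ⟨?_, ?_, ?_⟩
    · change ContDiff ℝ (⊤ : ℕ∞) fun x : ℝ => ((b n x : ℝ) : ℂ)
      exact Complex.ofRealCLM.contDiff.comp (b n).contDiff
    · intro h
      rw [hap]
      exact Complex.conj_ofReal _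
    · intro h
      rw [hap, hap, (b n).neg]
  · intro n x
    rw [hap, Complex.norm_real, Real.norm_of_nonneg (b n).nonneg]
    exact (b n).le_one
  · intro x
    obtain ⟨k, hk⟩ := exists_nat_gt |x|
    apply tendsto_const_nhds.congr'
    filter_upwards [eventually_ge_atTop k] with n hn
    rw [hap, (b n).one_of_mem_closedBall]
    · simp
    · rw [mem_closedBall_zero_iff, Real.norm_eq_abs]
      have : (k : ℝ) ≤ n := by exact_mod_cast hn
      change |x| ≤ (n : ℝ) + 1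
      linarith

variable {M N : VonNeumannAlgebra H} {ξ : H}

/-- `Th χ` is symmetric for real `χ` -/
theorem Th_symm (DN : ModData N ξ) {χ : ℝ →ᵇ ℂ} (hχ : Evn χ) (u v : H) :
    ⟪DN.Th χ u, v⟫_ℂ = ⟪u, DN.Th χ v⟫_ℂ := by
  have h1 : star χ = χ := by
    ext h
    simpa using hχ.real h
  have h2 : star (DN.Th χ) = DN.Th χ := by rw [← map_star, h1]
  have h3 := ContinuousLinearMap.adjoint_inner_left (DN.Th χ) v u
  rw [← ContinuousLinearMap.star_eq_adjoint, h2] at h3
  exact h3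

theorem U_symm (DN : ModData N ξ) (t : ℝ) (u v : H) : ⟪DN.U (-t) u, v⟫_ℂ = ⟪u, DN.U t v⟫_ℂ := by
  have h3 := ContinuousLinearMap.adjoint_inner_left (DN.U t) v u
  rw [← ContinuousLinearMap.star_eq_adjoint, DN.star_U] at h3
  exact h3

/-- the matrix elements with cutoffs do not depend on `s` -/
theorem const_cut (hA : AStmt) (DM : ModData M ξ) (DN : ModData N ξ) (hC : CStmt DM DN)
    {χ : ℝ →ᵇ ℂ} (hχ : HasCompactSupport χ)
    (hC2 : ∀ u v, C2Stmt DM DN χ hχ u v) (hR : RStmt DM DN χ hχ) {x y : H →L[ℂ] H} (hx : x ∈ N)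
    (hy : y ∈ N.commutant) (s : ℝ) :
    ⟪DN.Th χ (y ξ), (DN.U s * Uc DM DN (Real.exp (2 * Real.pi * s)) * DN.U (-s)) (DN.Th χ (x ξ))⟫_ℂ =
      ⟪DN.Th χ (y ξ), Uc DM DN 1 (DN.Th χ (x ξ))⟫_ℂ := by
  obtain ⟨hd, hc, C, hb⟩ := hC χ hχ (y ξ) (x ξ)
  obtain ⟨hd', hc', C', hb'⟩ := hC χ hχ (star y ξ) (star x ξ)
  obtain ⟨f, hf⟩ : ∃ f, f = ff DM DN χ hχ (y ξ) (x ξ) := ⟨_, rfl⟩
  obtain ⟨f', hf'⟩ : ∃ f', f' = ff DM DN χ hχ (star y ξ) (star x ξ) := ⟨_, rfl⟩
  rw [← hf] at hd hc hb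
  rw [← hf'] at hd' hc' hb'
  let g : ℂ → ℂ := fun z => conj (f' (conj z + Complex.I / 2))
  have im1 : ∀ z : ℂ, (conj z + Complex.I / 2).im = 1 / 2 - z.im := by
    intro z
    simp [Complex.add_im, Complex.div_im]
    ring
  have hmap : ∀ z ∈ St, conj z + Complex.I / 2 ∈ St := by
    intro z hz
    constructor
    · rw [im1]; linarith [hz.2]
    · rw [im1]; linarith [hz.1]
  have key := hA f g (max C C') hd ?_ hc ?_ (fun z hz => (hb z hz).trans (le_max_left _ _)) ?_ ?_ ?_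
    s
  · have h1 : ∀ r : ℝ, f r = ⟪DN.Th χ (y ξ), (DN.U r * Uc DM DN (Real.exp (2 * Real.pi * r)) *
        DN.U (-r)) (DN.Th χ (x ξ))⟫_ℂ := by
      intro r
      rw [hf, (hC2 (y ξ) (x ξ)).low r, U_symm]
      rfl
    rw [h1 s] at key
    rw [key]
    have h2 := h1 0
    rw [Complex.ofReal_zero] at h2
    rw [h2]
    simp [Uc]
  · intro z hz
    have hz' : conj z + Complex.I / 2 ∈ StI := by
      constructor
      · rw [im1]; linarith [hz.2]
      · rw [im1]; linarith [hz.1]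
    have hopen : IsOpen StI := by
      have : StI = Complex.im ⁻¹' Set.Ioo 0 (1 / 2) := by ext; simp [StI]
      rw [this]
      exact isOpen_Ioo.preimage Complex.continuous_im
    have h1 : DifferentiableAt ℂ f' (conj z + Complex.I / 2) :=
      (hd' _ hz').differentiableAt (hopen.mem_nhds hz')
    have h2 : DifferentiableAt ℂ (fun w : ℂ => f' (w + Complex.I / 2)) (conj z) := by
      exact DifferentiableAt.comp (g := f') (conj z) h1 (differentiableAt_id.add_const _)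
    have h3 := DifferentiableAt.conj_conj h2
    rw [Complex.conj_conj] at h3
    exact h3.differentiableWithinAt
  · apply Complex.continuous_conj.comp_continuousOn
    apply hc'.comp
    · exact (Complex.continuous_conj.add continuous_const).continuousOn
    · intro z hz
      refine ⟨hmap z hz.1, ?_⟩
      intro h
      apply hz.2
      have h1 : conj z + Complex.I / 2 = Complex.I / 2 := h
      have h2 : conj z = 0 := by
        have := add_eq_right.1 h1
        exact this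
      have h3 := congrArg conj h2
      simpa using h3
  · intro z hz
    change ‖conj (f' (conj z + Complex.I / 2))‖ ≤ _
    rw [Complex.norm_conj]
    exact (hb' _ (hmap z hz)).trans (le_max_right _ _)
  · intro r hr
    change f (r + Complex.I / 2) = conj (f' (conj (r : ℂ) + Complex.I / 2))
    rw [Complex.conj_ofReal]
    rw [hf, hf']
    exact hR.up x hx y hy r hr
  · intro r _
    change conj (f' (conj ((r : ℂ) + Complex.I / 2) + Complex.I / 2)) = f r
    have h1 : conj ((r : ℂ) + Complex.I / 2) + Complex.I / 2 = r := by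
      rw [map_add, map_div₀, Complex.conj_I, Complex.conj_ofReal, map_ofNat]
      ring
    rw [h1, hf, hf']
    exact (hR.low x hx y hy r).symm

/-- density -/
theorem eq_of_dense (DN : ModData N ξ) {T : H →L[ℂ] H}
    (h : ∀ x ∈ N, ∀ y ∈ N.commutant, ⟪y ξ, T (x ξ)⟫_ℂ = 0) : T = 0 := by
  have h1 : ∀ x ∈ N, T (x ξ) = 0 := by
    intro x hx
    have hcl : IsClosed {ζ : H | ⟪ζ, T (x ξ)⟫_ℂ = 0} :=
      isClosed_eq (continuous_id.inner continuous_const) continuous_const
    have hsub : {ζ : H | ∃ a ∈ N.commutant, a ξ = ζ} ⊆ {ζ : H | ⟪ζ, T (x ξ)⟫_ℂ = 0} := by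
      rintro _ ⟨y, hy, rfl⟩
      exact h x hx y hy
    have h2 := DN.cyc'.closure_eq ▸ hcl.closure_subset_iff.2 hsub
    exact inner_self_eq_zero.1 (h2 (Set.mem_univ (T (x ξ))))
  ext ζ
  have hcl : IsClosed {ζ : H | T ζ = 0} := isClosed_eq T.continuous continuous_const
  have hsub : {ζ : H | ∃ a ∈ N, a ξ = ζ} ⊆ {ζ : H | T ζ = 0} := by
    rintro _ ⟨x, hx, rfl⟩
    exact h1 x hx
  have h2 := DN.cyc.closure_eq ▸ hcl.closure_subset_iff.2 hsub
  simpa using h2 (Set.mem_univ ζ)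

/-- `U_N(s) U(e^{2πs}) U_N(-s) = U(1)` -/
theorem hsm_const (hA : AStmt) (DM : ModData M ξ) (DN : ModData N ξ) (hC : CStmt DM DN)
    (hC2 : ∀ χ hχ u v, Evn χ → C2Stmt DM DN χ hχ u v)
    (hR : ∀ χ hχ, Evn χ → RStmt DM DN χ hχ) (s : ℝ) :
    DN.U s * Uc DM DN (Real.exp (2 * Real.pi * s)) * DN.U (-s) = Uc DM DN 1 := by
  set T := DN.U s * Uc DM DN (Real.exp (2 * Real.pi * s)) * DN.U (-s) - Uc DM DN 1 with hT
  obtain ⟨χ, hχc, hχe, hχ1, hχt⟩ := exists_cut
  have h1 : ∀ n, DN.Th (χ n) * T * DN.Th (χ n) = 0 := by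
    intro n
    apply eq_of_dense DN
    intro x hx y hy
    change ⟪y ξ, DN.Th (χ n) (T (DN.Th (χ n) (x ξ)))⟫_ℂ = 0
    rw [← Th_symm DN (hχe n), hT, ContinuousLinearMap.sub_apply, inner_sub_right,
      const_cut hA DM DN hC (hχc n) (fun u v => hC2 (χ n) (hχc n) u v (hχe n))
        (hR (χ n) (hχc n) (hχe n)) hx hy s, sub_self]
  have h2 : T = 0 := by
    ext ζ
    have ht : ∀ v : H, Tendsto (fun n => DN.Th (χ n) v) atTop (𝓝 v) := by
      intro v
      have := DN.tendsto_Th v (l := atTop) χ 1 1 (Eventually.of_forall fun n x => hχ1 n x)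
        (fun x => by simpa using hχt x)
      simpa using this
    have h3 : ∀ η : H, ⟪η, T ζ⟫_ℂ = 0 := by
      intro η
      have h4 : Tendsto (fun n => ⟪DN.Th (χ n) η, T (DN.Th (χ n) ζ)⟫_ℂ) atTop (𝓝 ⟪η, T ζ⟫_ℂ) :=
        (ht η).inner ((T.continuous.tendsto ζ).comp (ht ζ))
      have h5 : ∀ n, ⟪DN.Th (χ n) η, T (DN.Th (χ n) ζ)⟫_ℂ = 0 := by
        intro n
        rw [Th_symm DN (hχe n)]
        have h6 := congrArg (fun S : H →L[ℂ] H => S ζ) (h1 n)
        have h7 : DN.Th (χ n) (T (DN.Th (χ n) ζ)) = 0 := by simpa using h6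
        rw [h7, inner_zero_right]
      simp only [h5] at h4
      exact (tendsto_nhds_unique h4 tendsto_const_nhds)
    simpa using inner_self_eq_zero.1 (h3 (T ζ))
  exact sub_eq_zero.1 h2

/-- **block D** -/
theorem dblock (hA : AStmt) (DM : ModData M ξ) (DN : ModData N ξ) (hC : CStmt DM DN)
    (hC2 : ∀ χ hχ u v, Evn χ → C2Stmt DM DN χ hχ u v)
    (hR : Hsm DM DN → ∀ χ hχ, Evn χ → RStmt DM DN χ hχ) : DStmt DM DN := by
  intro hs c s hc
  have key : ∀ r, Uc DM DN (Real.exp (2 * Real.pi * r)) = DN.U (-r) * Uc DM DN 1 * DN.U r := by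
    intro r
    rw [← hsm_const hA DM DN hC hC2 (hR hs) r]
    have h1 := DN.U_neg_mul_U r
    simp only [mul_assoc, h1, mul_one]
    rw [← mul_assoc (DN.U (-r)), h1, one_mul]
  have hπ : (2 * Real.pi) ≠ 0 := by positivity
  have h1 : c = Real.exp (2 * Real.pi * (Real.log c / (2 * Real.pi))) := by
    rw [mul_div_cancel₀ _ hπ, Real.exp_log hc]
  set r := Real.log c / (2 * Real.pi) with hr
  rw [h1, ← Real.exp_add, ← mul_add, key, key, add_comm s r, DN.U_add, neg_add_rev, DN.U_add]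
  simp only [mul_assoc]

end Vale.Agent.P352.BW
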