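import Mathlib.Analysis.VonNeumannAlgebra.Basic
import Mathlib.Analysis.Complex.PhragmenLindelof
import Vale.Agent.P352.HM.Defs

open MeasureTheory Filter Topology

namespace Vale.Agent.P352.BW

open GF H246 H496 H755 H15
open UniformSpace (Completion)

noncomputable section

section modular

variable {H : Type*} [NormedAddCommGroup H] [InnerProductSpace ℂ H] [CompleteSpace H]

/-- `V t`, `t` real, are the modular unitaries `Δ^{it}` and `J` is the modular conjugation of the
von Neumann algebra `M` and the vector `ξ`: `J Δ^{1/2} X ξ = X* ξ` for `X ∈ M` (Tomita and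
Takesaki). -/
structure IsMod (M : VonNeumannAlgebra H) (ξ : H) (V : ℝ → H → H) (J : H → H) : Prop where
  inn : ∀ t x y, inner ℂ (V t x) (V t y) = inner ℂ x y
  add : ∀ s t x, V (s + t) x = V s (V t x)
  cont : ∀ x, Continuous fun t => V t x
  vac : ∀ t, V t ξ = ξ
  inv : ∀ t, ∀ X ∈ M, ∃ Y ∈ M, ∀ x, Y (V t x) = V t (X x)
  jinn : ∀ x y, inner ℂ (J x) (J y) = inner ℂ y x
  jj : ∀ x, J (J x) = x
  jv : ∀ t x, J (V t x) = V t (J x)
  kms : ∀ X ∈ M, ∀ y, ∃ F : ℂ → ℂ, DiffContOnCl ℂ F {z | -(1 / 2) < z.im ∧ z.im < 0} ∧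
    (∃ C, ∀ z : ℂ, -(1 / 2) ≤ z.im → z.im ≤ 0 → ‖F z‖ ≤ C) ∧
    ∀ t : ℝ, F t = inner ℂ y (V t (X ξ)) ∧
      F (t - Complex.I / 2) = inner ℂ y (V t (J (star X ξ)))

end modular

variable {D : Type*} [NormedAddCommGroup D] [InnerProductSpace ℂ D]

/-- The operator `X` on `D` is affiliated to the von Neumann algebra `M` on the completion of `D`:
it has an adjoint on `D`, and it commutes weakly with the commutant of `M`. -/
def Aff (M : VonNeumannAlgebra (Completion D)) (X : D → D) : Prop :=
  ∃ X' : D → D, (∀ v w, inner ℂ (X v) w = inner ℂ v (X' w)) ∧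
    ∀ Y ∈ M.commutant, ∀ v w : D, inner ℂ ((X' w : D) : Completion D) (Y (v : Completion D)) =
      inner ℂ (w : Completion D) (Y ((X v : D) : Completion D))

/-- The representation of the similitudes on the completion of `D`. -/
def Ue (Q : Theory D) (s : ℝ) (L : Ix → V) (x : V) : Completion D → Completion D :=
  Completion.map (Q.U s L x)

/-- The vacuum, as a vector of the completion of `D`. -/
def om (Q : Theory D) : Completion D := (Q.vac : Completion D)

/-- **Local nets of von Neumann algebras.** The von Neumann algebras `𝒜 O`, `O` a region, on the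
completion of `D`, are isotonic and covariant under the similitudes, the fields smeared in `O` are
affiliated to `𝒜 O`, the algebras of opposite wedges commute, the modular unitaries `Δ^{it}` of the
algebra of a wedge and the vacuum are the boosts (Bisognano and Wichmann), and the vectors of `D`
are differentiable, with derivatives in `D`, under the modular unitaries of the algebras of the
regions `Rg a b 1`. -/
structure VNt (Q : Theory D) (A : (V → V) → D → D)
    (𝒜 : Set V → VonNeumannAlgebra (Completion D)) : Prop extends Rep Q A where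
  fld : ∀ O B f, Q.fld B → In O f → Aff (𝒜 O) (B f)
  mono : ∀ O O', O ⊆ O' → ∀ X ∈ 𝒜 O, X ∈ 𝒜 O'
  cov : ∀ s L y O, ∀ X ∈ 𝒜 O, 0 < s → IsLor L →
    ∃ Y ∈ 𝒜 (sim s L y '' O), ∀ z, Y (Ue Q s L y z) = Ue Q s L y (X z)
  loc : ∀ a b X, IsNull a → IsNull b → GF.mdot a b = 1 →
    X ∈ 𝒜 (Wdg b a 0) → X ∈ (𝒜 (Wdg a b 0)).commutant
  bw : ∀ a b t L V J z, IsNull a → IsNull b → GF.mdot a b = 1 → IsLor L →
    IsMod (𝒜 (Wdg a b 0)) (om Q) V J →
    (∀ x, sim 1 L 0 x = x + ((Real.exp (-(2 * Real.pi * t)) - 1) * GF.mdot b x) • a +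
      ((Real.exp (2 * Real.pi * t) - 1) * GF.mdot a x) • b) → V t z = Ue Q 1 L 0 z
  reg : ∀ a b V J (v : D), IsNull a → IsNull b → GF.mdot a b = 1 →
    IsMod (𝒜 (HM.Rg a b 1)) (om Q) V J → ∃ w : D,
      HasDerivAt (fun t : ℝ => V t (v : Completion D)) ((w : D) : Completion D) 0

end

end Vale.Agent.P352.BW
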