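import Vale.Agent.P132.Bd8.B2
import Vale.Agent.P352.BW.Md

open MeasureTheory Filter Topology

namespace Vale.Agent.P352.BW

open GF H246 H496 H755 H15
open UniformSpace (Completion)
open Vale.Agent.P132 (ModData)

noncomputable section

variable {D : Type*} [NormedAddCommGroup D] [InnerProductSpace ℂ D]

/-- **Local nets of von Neumann algebras.** The von Neumann algebras `𝒜 O`, `O` a region, on the
completion of `D`, are isotonic and covariant under the similitudes, the fields smeared in `O` are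
affiliated to `𝒜 O`, opposite wedges satisfy duality, the vacuum is cyclic for the algebras of open
regions (Reeh and Schlieder), the algebra of a wedge is generated by the algebras of its compact
subsets, the modular unitaries `Δ^{it}` of the algebra of a wedge and the vacuum are the boosts
(Bisognano and Wichmann), and the vectors of `D` are differentiable, with derivatives in `D`, under
the modular unitaries of the algebras of the regions `Rg a b 1`. -/
structure VNet (Q : Theory D) (A : (V → V) → D → D)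
    (𝒜 : Set V → VonNeumannAlgebra (Completion D)) : Prop extends Rep Q A where
  fld : ∀ O B f, Q.fld B → In O f → Aff (𝒜 O) (B f)
  mono : ∀ O O', O ⊆ O' → ∀ X ∈ 𝒜 O, X ∈ 𝒜 O'
  cov : ∀ s L y O, ∀ X ∈ 𝒜 O, 0 < s → IsLor L →
    ∃ Y ∈ 𝒜 (sim s L y '' O), ∀ z, Y (Ue Q s L y z) = Ue Q s L y (X z)
  dual : ∀ a b X, IsNull a → IsNull b → GF.mdot a b = 1 →
    (X ∈ 𝒜 (Wdg b a 0) ↔ X ∈ (𝒜 (Wdg a b 0)).commutant)
  cyc : ∀ O, IsOpen O → O.Nonempty → Dense {z | ∃ X ∈ 𝒜 O, X (om Q) = z}
  inn : ∀ a b Y, IsNull a → IsNull b → GF.mdot a b = 1 →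
    (∀ K, IsCompact K → K ⊆ Wdg a b 0 → Y ∈ (𝒜 K).commutant) → Y ∈ (𝒜 (Wdg a b 0)).commutant
  bw : ∀ a b t L (E : ModData (𝒜 (Wdg a b 0)) (om Q)) z, IsNull a → IsNull b →
    GF.mdot a b = 1 → IsLor L →
    (∀ x, sim 1 L 0 x = x + ((Real.exp (-(2 * Real.pi * t)) - 1) * GF.mdot b x) • a +
      ((Real.exp (2 * Real.pi * t) - 1) * GF.mdot a x) • b) → E.U t z = Ue Q 1 L 0 z
  reg : ∀ a b (E : ModData (𝒜 (HM.Rg a b 1)) (om Q)) (v : D), IsNull a → IsNull b →
    GF.mdot a b = 1 → ∃ w : D,
      HasDerivAt (fun t : ℝ => E.U t (v : Completion D)) ((w : D) : Completion D) 0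

end

end Vale.Agent.P352.BW
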