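import Vale.Agent.P352.BW.Mon2

/-!
# P352 BW: vectors in the domain of the modular Hamiltonian of a subalgebra
-/

set_option linter.all false

noncomputable section

open MeasureTheory Filter Topology
open scoped ComplexConjugate InnerProductSpace BoundedContinuousFunction ENNReal

namespace Vale.Agent.P352.BW

open Vale.Agent.P132 (ModData expB)

namespace Dom

variable {H : Type*} [NormedAddCommGroup H] [InnerProductSpace ℂ H] [CompleteSpace H]
variable {M N : VonNeumannAlgebra H} {ξ : H}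

theorem lint_sq (E : ModData M ξ) {v : H} {μ : Measure ℝ} [IsFiniteMeasure μ]
    (hμ : ∀ F : ℝ →ᵇ ℂ, ⟪v, E.Th F v⟫_ℂ = ∫ h, F h ∂μ) (F : ℝ →ᵇ ℂ) :
    ∫⁻ h, ‖‖F h‖ ^ 2‖ₑ ∂μ = ENNReal.ofReal (‖E.Th F v‖ ^ 2) := by
  rw [P132.norm_sq_of_spec E.Th hμ F, ← ofReal_integral_norm_eq_lintegral_enorm]
  · congr 1
    refine integral_congr_ae (Eventually.of_forall fun h => ?_)
    exact Real.norm_of_nonneg (by positivity)
  · refine Integrable.mono' (integrable_const (‖F‖ ^ 2))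
      (F.continuous.norm.pow 2).aestronglyMeasurable ?_
    refine Eventually.of_forall fun h => ?_
    rw [Real.norm_of_nonneg (by positivity)]
    exact pow_le_pow_left₀ (norm_nonneg _) (F.norm_coe_le_norm h) 2

/-- second moments of the spectral measure -/
theorem sq_int (E : ModData M ξ) {v k : H} (hk : HasDerivAt (fun t : ℝ => E.U t v) k 0)
    {μ : Measure ℝ} [IsFiniteMeasure μ] (hμ : ∀ F : ℝ →ᵇ ℂ, ⟪v, E.Th F v⟫_ℂ = ∫ h, F h ∂μ) :
    Integrable (fun h : ℝ => h ^ 2) μ := by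
  have hlim := (Mon.Th_Df E hk).comp Mon.seq_lim
  refine integrable_of_tendsto (G := fun n h => ‖Mon.Df (1 / ((n : ℝ) + 1)) h‖ ^ 2) ?_ ?_ ?_
  · refine Eventually.of_forall fun h => ?_
    have h1 := (((Mon.Df_lim h).comp Mon.seq_lim).norm).pow 2
    have h2 : ‖Complex.I * (h : ℂ)‖ ^ 2 = h ^ 2 := by
      rw [norm_mul, Complex.norm_I, one_mul, Complex.norm_real, Real.norm_eq_abs, sq_abs]
    rw [h2] at h1
    exact h1
  · intro n
    exact ((Mon.Df (1 / ((n : ℝ) + 1))).continuous.norm.pow 2).aestronglyMeasurable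
  · have h2 : Tendsto (fun n : ℕ => ∫⁻ h, ‖‖Mon.Df (1 / ((n : ℝ) + 1)) h‖ ^ 2‖ₑ ∂μ) atTop
        (𝓝 (ENNReal.ofReal (‖k‖ ^ 2))) := by
      simp_rw [lint_sq E hμ]
      exact (ENNReal.continuous_ofReal.tendsto _).comp (hlim.norm.pow 2)
    rw [h2.liminf_eq]
    exact ENNReal.ofReal_ne_top

/-- `h ↦ 1 / (1 + e^{h/2} / (n + 1))` -/
def Gc (n : ℕ) : ℝ →ᵇ ℂ :=
  BoundedContinuousFunction.ofNormedAddCommGroup
    (fun h : ℝ => ((1 / (1 + Real.exp (h / 2) / ((n : ℝ) + 1)) : ℝ) : ℂ))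
    (Complex.continuous_ofReal.comp (Continuous.div (by fun_prop) (by fun_prop) fun h => by
      positivity)) 1
    (fun h => by
      rw [Complex.norm_real, Real.norm_of_nonneg (by positivity), div_le_one (by positivity)]
      have : 0 ≤ Real.exp (h / 2) / ((n : ℝ) + 1) := by positivity
      linarith)

/-- `h ↦ e^{h/2} / (1 + e^{h/2} / (n + 1))` -/
def Fc (n : ℕ) : ℝ →ᵇ ℂ :=
  BoundedContinuousFunction.ofNormedAddCommGroup
    (fun h : ℝ => ((Real.exp (h / 2) / (1 + Real.exp (h / 2) / ((n : ℝ) + 1)) : ℝ) : ℂ))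
    (Complex.continuous_ofReal.comp (Continuous.div (by fun_prop) (by fun_prop) fun h => by
      positivity)) ((n : ℝ) + 1)
    (fun h => by
      have h0 := Real.exp_pos (h / 2)
      rw [Complex.norm_real, Real.norm_of_nonneg (by positivity), div_le_iff₀ (by positivity)]
      have h1 : ((n : ℝ) + 1) * (1 + Real.exp (h / 2) / ((n : ℝ) + 1)) =
          ((n : ℝ) + 1) + Real.exp (h / 2) := by field_simp
      rw [h1]
      have : (0 : ℝ) ≤ n := n.cast_nonneg
      linarith)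

theorem Fc_apply (n : ℕ) (h : ℝ) :
    Fc n h = ((Real.exp (h / 2) / (1 + Real.exp (h / 2) / ((n : ℝ) + 1)) : ℝ) : ℂ) := rfl

theorem Fc_lim (h : ℝ) : Tendsto (fun n : ℕ => ‖Fc n h‖ ^ 2) atTop (𝓝 (Real.exp h)) := by
  have h1 : Tendsto (fun n : ℕ => Real.exp (h / 2) / ((n : ℝ) + 1)) atTop (𝓝 0) := by
    have := (tendsto_one_div_add_atTop_nhds_zero_nat (𝕜 := ℝ)).const_mul (Real.exp (h / 2))
    rw [mul_zero] at this
    refine this.congr fun n => ?_
    rw [mul_one_div]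
  have h2 : Tendsto (fun n : ℕ => Real.exp (h / 2) / (1 + Real.exp (h / 2) / ((n : ℝ) + 1)))
      atTop (𝓝 (Real.exp (h / 2) / (1 + 0))) :=
    tendsto_const_nhds.div (tendsto_const_nhds.add h1) (by norm_num)
  have h3 := h2.pow 2
  have h4 : (Real.exp (h / 2) / (1 + 0)) ^ 2 = Real.exp h := by
    rw [add_zero, div_one, ← Real.exp_nat_mul]
    congr 1
    push_cast
    ring
  rw [h4] at h3
  refine h3.congr fun n => ?_
  rw [Fc_apply, Complex.norm_real, Real.norm_of_nonneg (by positivity)]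

/-- exponential moments of the spectral measure -/
theorem exp_int (E : ModData M ξ) {x x' : H}
    (hx : ∀ F G : ℝ →ᵇ ℂ, (∀ t : ℝ, F t = Real.exp (t / 2) * G t) →
      E.Th G (E.J x') = E.Th F x)
    {μ : Measure ℝ} [IsFiniteMeasure μ] (hμ : ∀ F : ℝ →ᵇ ℂ, ⟪x, E.Th F x⟫_ℂ = ∫ h, F h ∂μ) :
    Integrable (fun h : ℝ => Real.exp h) μ := by
  refine integrable_of_tendsto (G := fun n h => ‖Fc n h‖ ^ 2) ?_ ?_ ?_
  · exact Eventually.of_forall fun h => Fc_lim h
  · intro n
    exact ((Fc n).continuous.norm.pow 2).aestronglyMeasurable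
  · have h1 : ∀ n : ℕ, ∫⁻ h, ‖‖Fc n h‖ ^ 2‖ₑ ∂μ ≤ ENNReal.ofReal (‖x'‖ ^ 2) := by
      intro n
      rw [lint_sq E hμ]
      refine ENNReal.ofReal_le_ofReal (pow_le_pow_left₀ (norm_nonneg _) ?_ 2)
      rw [← hx (Fc n) (Gc n) (fun t => by
        show ((Real.exp (t / 2) / (1 + Real.exp (t / 2) / ((n : ℝ) + 1)) : ℝ) : ℂ) =
          (Real.exp (t / 2) : ℂ) * ((1 / (1 + Real.exp (t / 2) / ((n : ℝ) + 1)) : ℝ) : ℂ)
        rw [← Complex.ofReal_mul, mul_one_div])]
      have h2 : ‖Gc n‖ ≤ 1 :=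
        BoundedContinuousFunction.norm_ofNormedAddCommGroup_le _ zero_le_one _
      calc ‖E.Th (Gc n) (E.J x')‖ ≤ ‖E.Th (Gc n)‖ * ‖E.J x'‖ := (E.Th (Gc n)).le_opNorm _
        _ ≤ 1 * ‖x'‖ := by
            rw [LinearIsometryEquiv.norm_map]
            exact mul_le_mul_of_nonneg_right ((E.norm_Th_le _).trans h2) (norm_nonneg _)
        _ = ‖x'‖ := one_mul _
    refine ne_top_of_le_ne_top ENNReal.ofReal_ne_top
      (liminf_le_of_frequently_le' (Frequently.of_forall h1))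

/-- the kernel -/
def Kr (r h : ℝ) : ℝ≥0∞ := ENNReal.ofReal (2 * r / (Real.exp (h + r) + 1))

theorem Kr_meas : Measurable (Function.uncurry Kr) := by
  refine ENNReal.measurable_ofReal.comp (Continuous.measurable ?_)
  exact Continuous.div (by fun_prop) (by fun_prop) fun p => by positivity

theorem Kr_le {μ ν : Measure ℝ} [IsFiniteMeasure μ] [IsFiniteMeasure ν]
    (hres : ∀ s : ℝ, 0 < s → ∫ h, 1 / (Real.exp h + s) ∂ν ≤ ∫ h, 1 / (Real.exp h + s) ∂μ)
    {r : ℝ} (hr : 0 < r) : ∫⁻ h, Kr r h ∂ν ≤ ∫⁻ h, Kr r h ∂μ := by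
  have e : ∀ ρ : Measure ℝ, IsFiniteMeasure ρ → ∫⁻ h, Kr r h ∂ρ =
      ENNReal.ofReal (2 * r * Real.exp (-r) * ∫ h, 1 / (Real.exp h + Real.exp (-r)) ∂ρ) := by
    intro ρ _
    have hi : Integrable (fun h : ℝ => 1 / (Real.exp h + Real.exp (-r))) ρ := by
      refine Integrable.mono' (integrable_const (1 / Real.exp (-r)))
        (Continuous.div (by fun_prop) (by fun_prop) fun p => by positivity).aestronglyMeasurable
        (Eventually.of_forall fun h => ?_)
      rw [Real.norm_of_nonneg (by positivity)]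
      have := Real.exp_pos h
      exact one_div_le_one_div_of_le (Real.exp_pos _) (by linarith)
    rw [← integral_const_mul, ofReal_integral_eq_lintegral_ofReal (hi.const_mul _)
      (Eventually.of_forall fun h => by positivity)]
    refine lintegral_congr fun h => ?_
    rw [Kr]
    congr 1
    have h1 : Real.exp (h + r) = Real.exp h * Real.exp r := Real.exp_add _ _
    have h2 : Real.exp (-r) = (Real.exp r)⁻¹ := Real.exp_neg r
    rw [h1, h2]
    have h3 := Real.exp_pos r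
    have h4 := Real.exp_pos h
    field_simp
  rw [e ν inferInstance, e μ inferInstance]
  exact ENNReal.ofReal_le_ofReal (mul_le_mul_of_nonneg_left (hres _ (Real.exp_pos _))
    (by positivity))

theorem lint_id (c : ℝ) (hc : 0 ≤ c) :
    ∫⁻ r in Set.Ioc 0 c, ENNReal.ofReal r = ENNReal.ofReal (c ^ 2 / 2) := by
  rw [← ofReal_integral_eq_lintegral_ofReal]
  · rw [← intervalIntegral.integral_of_le hc, integral_id]
    congr 1
    ring
  · exact (continuous_id.integrableOn_Icc).mono_set Set.Ioc_subset_Icc_self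
  · exact (ae_restrict_iff' measurableSet_Ioc).2 (Eventually.of_forall fun r hr => hr.1.le)

/-- lower bound of the weight -/
theorem low (h : ℝ) : ENNReal.ofReal ((min h 0) ^ 2 / 2) ≤ ∫⁻ r in Set.Ioi (0 : ℝ), Kr r h := by
  rcases le_or_gt 0 h with h0 | h0
  · rw [min_eq_right h0]
    simp
  · rw [min_eq_left h0.le]
    have h1 := lint_id (-h) (by linarith)
    rw [neg_sq] at h1
    rw [← h1]
    calc ∫⁻ r in Set.Ioc 0 (-h), ENNReal.ofReal r ≤ ∫⁻ r in Set.Ioc 0 (-h), Kr r h := by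
          refine setLIntegral_mono' measurableSet_Ioc fun r hr => ?_
          refine ENNReal.ofReal_le_ofReal ?_
          have h2 : Real.exp (h + r) ≤ 1 := Real.exp_le_one_iff.2 (by linarith [hr.2])
          have h3 := Real.exp_pos (h + r)
          have h4 := hr.1
          rw [le_div_iff₀ (by linarith)]
          nlinarith
      _ ≤ ∫⁻ r in Set.Ioi (0 : ℝ), Kr r h :=
          lintegral_mono_set fun r hr => hr.1

/-- the tail -/
def tl : ℝ≥0∞ := ∫⁻ r in Set.Ioi (0 : ℝ), ENNReal.ofReal (2 * r * Real.exp (-(r / 2)))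

theorem tail : tl < ⊤ := by
  rw [tl]
  have h1 : IntegrableOn (fun r : ℝ => 2 * r * Real.exp (-(r / 2))) (Set.Ioi 0) := by
    have h2 := Real.GammaIntegral_convergent (s := 2) (by norm_num)
    have h3 := (integrableOn_Ioi_comp_mul_left_iff
      (fun x : ℝ => Real.exp (-x) * x ^ ((2 : ℝ) - 1)) 0 (a := 1 / 2) (by norm_num)).2
      (by simpa using h2)
    have h3' : IntegrableOn (fun x : ℝ => 4 * (Real.exp (-(1 / 2 * x)) *
        (1 / 2 * x) ^ ((2 : ℝ) - 1))) (Set.Ioi 0) := by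
      exact h3.const_mul 4
    refine h3'.congr_fun (fun r hr => ?_) measurableSet_Ioi
    have h4 : (1 / 2 * r) ^ ((2 : ℝ) - 1) = 1 / 2 * r := by
      norm_num
    show 4 * (Real.exp (-(1 / 2 * r)) * (1 / 2 * r) ^ ((2 : ℝ) - 1)) = _
    rw [h4]
    have : -(1 / 2 * r) = -(r / 2) := by ring
    rw [this]
    ring
  have h5 : ∫⁻ r in Set.Ioi (0 : ℝ), ENNReal.ofReal (2 * r * Real.exp (-(r / 2))) =
      ENNReal.ofReal (∫ r in Set.Ioi (0 : ℝ), 2 * r * Real.exp (-(r / 2))) := by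
    rw [ofReal_integral_eq_lintegral_ofReal h1]
    exact (ae_restrict_iff' measurableSet_Ioi).2 (Eventually.of_forall fun r hr => by
      have : (0 : ℝ) < r := hr
      show 0 ≤ 2 * r * Real.exp (-(r / 2))
      positivity)
  rw [h5]
  exact ENNReal.ofReal_lt_top

/-- upper bound of the weight -/
theorem upp (h : ℝ) :
    ∫⁻ r in Set.Ioi (0 : ℝ), Kr r h ≤ ENNReal.ofReal (4 * h ^ 2) + tl := by
  have h1 : ∀ r ∈ Set.Ioi (0 : ℝ), Kr r h ≤
      (Set.Ioc 0 (2 * |h|)).indicator (fun r => 2 * ENNReal.ofReal r) r +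
        ENNReal.ofReal (2 * r * Real.exp (-(r / 2))) := by
    intro r hr
    have hr0 : (0 : ℝ) < r := hr
    rcases le_or_gt r (2 * |h|) with h2 | h2
    · rw [Set.indicator_of_mem (show r ∈ Set.Ioc 0 (2 * |h|) from ⟨hr0, h2⟩)]
      refine le_trans ?_ le_self_add
      have e : (2 : ℝ≥0∞) * ENNReal.ofReal r = ENNReal.ofReal (2 * r) := by
        rw [ENNReal.ofReal_mul (by norm_num)]
        norm_num
      rw [e]
      refine ENNReal.ofReal_le_ofReal (div_le_self (by positivity) ?_)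
      have := Real.exp_pos (h + r)
      linarith
    · refine le_trans ?_ le_add_self
      refine ENNReal.ofReal_le_ofReal ?_
      rw [div_eq_mul_inv]
      refine mul_le_mul_of_nonneg_left ?_ (by positivity)
      have h3 : Real.exp (r / 2) ≤ Real.exp (h + r) + 1 := by
        have h4 : r / 2 ≤ h + r := by
          have := neg_abs_le h
          linarith
        have := Real.exp_le_exp.2 h4
        linarith
      rw [Real.exp_neg]
      exact inv_anti₀ (Real.exp_pos _) h3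
  calc ∫⁻ r in Set.Ioi (0 : ℝ), Kr r h ≤ ∫⁻ r in Set.Ioi (0 : ℝ),
        ((Set.Ioc 0 (2 * |h|)).indicator (fun r => 2 * ENNReal.ofReal r) r +
        ENNReal.ofReal (2 * r * Real.exp (-(r / 2)))) := setLIntegral_mono' measurableSet_Ioi h1
    _ = (∫⁻ r in Set.Ioi (0 : ℝ), (Set.Ioc 0 (2 * |h|)).indicator
          (fun r => 2 * ENNReal.ofReal r) r) + tl := by
          refine lintegral_add_left ?_ _
          exact (ENNReal.measurable_ofReal.const_mul 2).indicator measurableSet_Ioc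
    _ ≤ _ := by
          refine add_le_add_left ?_ _
          refine (setLIntegral_le_lintegral _ _).trans ?_
          rw [lintegral_indicator measurableSet_Ioc,
            lintegral_const_mul 2 ENNReal.measurable_ofReal, lint_id _ (by positivity)]
          have e : (2 : ℝ≥0∞) * ENNReal.ofReal ((2 * |h|) ^ 2 / 2) =
              ENNReal.ofReal (2 * ((2 * |h|) ^ 2 / 2)) := by
            rw [ENNReal.ofReal_mul (by norm_num)]
            norm_num
          rw [e]
          refine ENNReal.ofReal_le_ofReal (le_of_eq ?_)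
          rw [mul_pow, sq_abs]
          ring

/-- moments of the negative part -/
theorem neg_int {μ ν : Measure ℝ} [IsFiniteMeasure μ] [IsFiniteMeasure ν]
    (hres : ∀ s : ℝ, 0 < s → ∫ h, 1 / (Real.exp h + s) ∂ν ≤ ∫ h, 1 / (Real.exp h + s) ∂μ)
    (h2 : Integrable (fun h : ℝ => h ^ 2) μ) : Integrable (fun h : ℝ => (min h 0) ^ 2 / 2) ν := by
  refine ⟨(Continuous.aestronglyMeasurable (by fun_prop)), ?_⟩
  rw [hasFiniteIntegral_iff_ofReal (Eventually.of_forall fun h => by positivity)]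
  have hs : ∀ ρ : Measure ℝ, IsFiniteMeasure ρ → ∫⁻ h, (∫⁻ r in Set.Ioi (0 : ℝ), Kr r h) ∂ρ =
      ∫⁻ r in Set.Ioi (0 : ℝ), (∫⁻ h, Kr r h ∂ρ) := by
    intro ρ _
    exact lintegral_lintegral_swap (show AEMeasurable (Function.uncurry fun h r => Kr r h) _ from
      (Kr_meas.comp measurable_swap).aemeasurable)
  calc ∫⁻ h, ENNReal.ofReal ((min h 0) ^ 2 / 2) ∂ν ≤
        ∫⁻ h, (∫⁻ r in Set.Ioi (0 : ℝ), Kr r h) ∂ν := lintegral_mono fun h => low h
    _ = ∫⁻ r in Set.Ioi (0 : ℝ), (∫⁻ h, Kr r h ∂ν) := hs ν inferInstance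
    _ ≤ ∫⁻ r in Set.Ioi (0 : ℝ), (∫⁻ h, Kr r h ∂μ) :=
        setLIntegral_mono' measurableSet_Ioi fun r hr => Kr_le hres hr
    _ = ∫⁻ h, (∫⁻ r in Set.Ioi (0 : ℝ), Kr r h) ∂μ := (hs μ inferInstance).symm
    _ ≤ ∫⁻ h, (ENNReal.ofReal (4 * h ^ 2) + tl) ∂μ :=
        lintegral_mono fun h => upp h
    _ < ⊤ := by
        rw [lintegral_add_right _ measurable_const, lintegral_const]
        refine ENNReal.add_lt_top.2 ⟨?_, ENNReal.mul_lt_top tail (measure_lt_top _ _)⟩
        have h3 := (h2.const_mul 4)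
        exact (hasFiniteIntegral_iff_ofReal (Eventually.of_forall fun h => by positivity)).1 h3.2

/-- a vector with a second moment is differentiable -/
theorem der_of_sq (E : ModData M ξ) {v : H} {μ : Measure ℝ} [IsFiniteMeasure μ]
    (hμ : ∀ F : ℝ →ᵇ ℂ, ⟪v, E.Th F v⟫_ℂ = ∫ h, F h ∂μ)
    (h2 : Integrable (fun h : ℝ => h ^ 2) μ) : ∃ k, HasDerivAt (fun t : ℝ => E.U t v) k 0 := by
  have hn : ∀ p : ℝ × ℝ, dist (E.Th (Mon.Df p.1) v) (E.Th (Mon.Df p.2) v) ^ 2 =
      ∫ h, ‖Mon.Df p.1 h - Mon.Df p.2 h‖ ^ 2 ∂μ := by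
    intro p
    have h3 := P132.norm_sq_of_spec E.Th hμ (Mon.Df p.1 - Mon.Df p.2)
    rw [map_sub, ContinuousLinearMap.sub_apply] at h3
    rw [dist_eq_norm, h3]
    rfl
  have hl : Tendsto (fun p : ℝ × ℝ => ∫ h, ‖Mon.Df p.1 h - Mon.Df p.2 h‖ ^ 2 ∂μ)
      (𝓝[≠] 0 ×ˢ 𝓝[≠] 0) (𝓝 (∫ h : ℝ, (0 : ℝ) ∂μ)) := by
    refine tendsto_integral_filter_of_dominated_convergence (fun h => 4 * h ^ 2)
      (Eventually.of_forall fun p => ?_) (Eventually.of_forall fun p =>
        Eventually.of_forall fun h => ?_) (h2.const_mul 4) (Eventually.of_forall fun h => ?_)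
    · exact ((Continuous.sub (Mon.Df p.1).continuous (Mon.Df p.2).continuous).norm.pow
        2).aestronglyMeasurable
    · rw [Real.norm_of_nonneg (by positivity)]
      have h3 : ‖Mon.Df p.1 h - Mon.Df p.2 h‖ ≤ 2 * |h| := by
        refine (norm_sub_le _ _).trans ?_
        have := Mon.Df_norm p.1 h
        have := Mon.Df_norm p.2 h
        linarith
      have h4 := pow_le_pow_left₀ (norm_nonneg _) h3 2
      rw [mul_pow, sq_abs] at h4
      linarith
    · have a1 : Tendsto (fun p : ℝ × ℝ => Mon.Df p.1 h) (𝓝[≠] 0 ×ˢ 𝓝[≠] 0)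
          (𝓝 (Complex.I * h)) := (Mon.Df_lim h).comp tendsto_fst
      have a2 : Tendsto (fun p : ℝ × ℝ => Mon.Df p.2 h) (𝓝[≠] 0 ×ˢ 𝓝[≠] 0)
          (𝓝 (Complex.I * h)) := (Mon.Df_lim h).comp tendsto_snd
      have h4 := ((a1.sub a2).norm).pow 2
      rw [sub_self, norm_zero] at h4
      simpa using h4
  have hc : Cauchy (map (fun t => E.Th (Mon.Df t) v) (𝓝[≠] 0)) := by
    rw [cauchy_map_iff]
    refine ⟨inferInstance, ?_⟩
    rw [tendsto_uniformity_iff_dist_tendsto_zero]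
    rw [integral_zero] at hl
    have h3 := (Real.continuous_sqrt.tendsto 0).comp hl
    rw [Real.sqrt_zero] at h3
    refine h3.congr fun p => ?_
    show Real.sqrt (∫ h, ‖Mon.Df p.1 h - Mon.Df p.2 h‖ ^ 2 ∂μ) = _
    rw [← hn, Real.sqrt_sq dist_nonneg]
  obtain ⟨k, hk⟩ := cauchy_map_iff_exists_tendsto.1 hc
  refine ⟨k, hasDerivAt_iff_tendsto_slope_zero.2 (hk.congr fun t => ?_)⟩
  have h0 : E.U 0 v = v := by
    have : expB 0 = 1 := by
      ext h
      simp
    show E.Th (expB 0) v = v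
    rw [this, map_one]
    rfl
  rw [zero_add, h0, Mon.Df, map_smul, map_sub, map_one]
  show ((t⁻¹ : ℝ) : ℂ) • (E.U t v - v) = _
  rw [Complex.coe_smul]

/-- **The domain of the modular Hamiltonian of a subalgebra.** If `N ⊆ M`, a vector in the domain
of `log Δ_M` and of `Δ_N^{1/2}` is in the domain of `log Δ_N`. -/
theorem der (EM : ModData M ξ) (EN : ModData N ξ) (hle : ∀ x ∈ N, x ∈ M) {x x' k : H}
    (hM : HasDerivAt (fun t : ℝ => EM.U t x) k 0)
    (hN : ∀ F G : ℝ →ᵇ ℂ, (∀ t : ℝ, F t = Real.exp (t / 2) * G t) →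
      EN.Th G (EN.J x') = EN.Th F x) :
    ∃ k', HasDerivAt (fun t : ℝ => EN.U t x) k' 0 := by
  obtain ⟨μ, hμf, hμ⟩ := EM.spec x
  obtain ⟨ν, hνf, hν⟩ := EN.spec x
  have h1 := sq_int EM hM hμ
  have h2 := exp_int EN hN hν
  have hres : ∀ s : ℝ, 0 < s → ∫ h, 1 / (Real.exp h + s) ∂ν ≤ ∫ h, 1 / (Real.exp h + s) ∂μ := by
    intro s hs
    have h1 := Mon.res_le EM EN hle s hs x
    rw [hμ, hν] at h1
    have e : ∀ ρ : Measure ℝ, (∫ h, Mon.fs s hs h ∂ρ).re = ∫ h, 1 / (Real.exp h + s) ∂ρ := by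
      intro ρ
      have : ∫ h, Mon.fs s hs h ∂ρ = ((∫ h, 1 / (Real.exp h + s) ∂ρ : ℝ) : ℂ) := by
        rw [← integral_complex_ofReal]
        rfl
      rw [this, Complex.ofReal_re]
    rwa [e, e] at h1
  have h3 := neg_int hres h1
  refine der_of_sq EN hν ?_
  refine Integrable.mono' ((h3.const_mul 2).add (h2.const_mul 2))
    (Continuous.aestronglyMeasurable (by fun_prop)) (Eventually.of_forall fun h => ?_)
  rw [Real.norm_of_nonneg (by positivity)]
  show h ^ 2 ≤ 2 * ((min h 0) ^ 2 / 2) + 2 * Real.exp h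
  rcases le_or_gt 0 h with h0 | h0
  · have := Real.quadratic_le_exp_of_nonneg h0
    rw [min_eq_right h0]
    nlinarith
  · rw [min_eq_left h0.le]
    have := Real.exp_pos h
    nlinarith

end Dom

end Vale.Agent.P352.BW

end
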