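import Vale.Agent.P352.BW.Md

open MeasureTheory Filter Topology

namespace Vale.Agent.P352.BW

open GF H246 H496 H755 H15
open UniformSpace (Completion)

noncomputable section

variable {D : Type*} [NormedAddCommGroup D] [InnerProductSpace ℂ D]

/-- The operators `S a c`, `a` null, `c` real, are strongly continuous one-parameter groups of
unitary operators. They leave the vacuum invariant, transform under the similitudes like special
conformal transformations, and map the algebras of the regions `Rg a b c`, `0 ≤ c`, onto each
other. -/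
structure Gr0 (Q : Theory D) (𝒜 : Set V → VonNeumannAlgebra (Completion D))
    (S : V → ℝ → Completion D →L[ℂ] Completion D) : Prop where
  zero : ∀ a, IsNull a → S a 0 = 1
  add : ∀ a c c', IsNull a → S a (c + c') = S a c * S a c'
  inn : ∀ a c z w, IsNull a → inner ℂ (S a c z) (S a c w) = inner ℂ z w
  cont : ∀ a z, IsNull a → Continuous fun c => S a c z
  vac : ∀ a c, IsNull a → S a c (om Q) = om Q
  cov : ∀ s L r a b c z, 0 < s → 0 < r → IsLor L → IsNull a → IsNull b → sim 1 L 0 a = r • b →
    Ue Q s L 0 (S a c z) = S b (r / s * c) (Ue Q s L 0 z)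
  geo : ∀ a b c c' X, IsNull a → IsNull b → GF.mdot a b = 1 → 0 ≤ c → 0 ≤ c' →
    (X ∈ 𝒜 (HM.Rg a b c) ↔ S a (c' - c) * X * S a (c - c') ∈ 𝒜 (HM.Rg a b c'))

/-- The vectors of `D` are differentiable under the unitary groups `S a`, `a` null, and have the
derivatives `i G a x` in `D`. -/
def Dif (S : V → ℝ → Completion D →L[ℂ] Completion D) (G : V → D → D) : Prop :=
  ∀ a (x : D), IsNull a → HasDerivAt (fun c : ℝ => S a c (x : Completion D))
    ((Complex.I • G a x : D) : Completion D) 0

end

end Vale.Agent.P352.BW
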