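import Vale.Agent.P352.BW.Defs

/-!
# P352 BW: literals of the blocks
-/

set_option linter.all false

noncomputable section

open MeasureTheory Filter Topology
open scoped ComplexConjugate InnerProductSpace BoundedContinuousFunction

namespace Vale.Agent.P352.BW

open Vale.Agent.P132 (ModData expB)
open UniformSpace (Completion)

/-! ## Part 1: half-sided modular inclusions (no field theory) -/

/-- the closed strip `0 ≤ Im z ≤ 1/2` -/
def St : Set ℂ := {z | 0 ≤ z.im ∧ z.im ≤ 1 / 2}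

/-- the open strip -/
def StI : Set ℂ := {z | 0 < z.im ∧ z.im < 1 / 2}

/-- block A: strip lemma -/
def AStmt : Prop := ∀ (f g : ℂ → ℂ) (C : ℝ), DifferentiableOn ℂ f StI → DifferentiableOn ℂ g StI →
  ContinuousOn f (St \ {Complex.I / 2}) → ContinuousOn g (St \ {0}) →
  (∀ z ∈ St, ‖f z‖ ≤ C) → (∀ z ∈ St, ‖g z‖ ≤ C) →
  (∀ s : ℝ, s ≠ 0 → f (s + Complex.I / 2) = g s) →
  (∀ s : ℝ, s ≠ 0 → g (s + Complex.I / 2) = f s) → ∀ s : ℝ, f s = f 0

/-- `h ↦ e^{zh} χ(h)` -/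
def ez (χ : ℝ →ᵇ ℂ) (hχ : HasCompactSupport χ) (z : ℂ) : ℝ →ᵇ ℂ :=
  ModData.gdC (fun h : ℝ => Complex.exp (z * h) * χ h) (by fun_prop) hχ.mul_left

open Classical in
/-- `h ↦ e^{iτh} / (1 + e^{h/2})`, bounded for `-1/2 ≤ Im τ ≤ 0` -/
def At (τ : ℂ) : ℝ →ᵇ ℂ :=
  if hτ : ∃ C, ∀ h : ℝ, ‖Complex.exp (Complex.I * τ * h) / (1 + Real.exp (h / 2) : ℝ)‖ ≤ C then
    BoundedContinuousFunction.ofNormedAddCommGroup
      (fun h : ℝ => Complex.exp (Complex.I * τ * h) / (1 + Real.exp (h / 2) : ℝ))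
      (by
        refine Continuous.div (by fun_prop) (by fun_prop) fun h => ?_
        exact Complex.ofReal_ne_zero.2 (by positivity))
      (Classical.choose hτ) (Classical.choose_spec hτ)
  else 0

variable {H : Type*} [NormedAddCommGroup H] [InnerProductSpace ℂ H] [CompleteSpace H]

/-- block B -/
structure BStmt {M : VonNeumannAlgebra H} {ξ : H} (DM : ModData M ξ) : Prop where
  at_apply : ∀ (τ : ℂ) (h : ℝ), -(1 / 2) ≤ τ.im → τ.im ≤ 0 →
    At τ h = Complex.exp (Complex.I * τ * h) / (1 + Real.exp (h / 2) : ℝ)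
  at_norm : ∀ τ : ℂ, ‖At τ‖ ≤ 1
  ez_diff : ∀ χ hχ, Differentiable ℂ fun z => DM.Th (ez χ hχ z)
  at_diff : DifferentiableOn ℂ (fun τ => DM.Th (At τ)) {τ | -(1 / 2) < τ.im ∧ τ.im < 0}
  at_cont : ∀ v, ContinuousOn (fun τ => DM.Th (At τ) v) {τ | -(1 / 2) ≤ τ.im ∧ τ.im ≤ 0}

variable {M N : VonNeumannAlgebra H} {ξ : H}

/-- half-sided modular inclusion -/
structure Hsm (DM : ModData M ξ) (DN : ModData N ξ) : Prop where
  le : ∀ x ∈ N, x ∈ M
  mod : ∀ t : ℝ, t ≤ 0 → ∀ x ∈ N, DM.sg t x ∈ N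

/-- block K: `Δ_M^{1/2} = J_M J_N Δ_N^{1/2}` on the domain of `Δ_N^{1/2}` -/
def KStmt (DM : ModData M ξ) (DN : ModData N ξ) : Prop :=
  (∀ x ∈ N, x ∈ M) → ∀ (F G k : ℝ →ᵇ ℂ) (hk : HasCompactSupport k) (v : H),
    ContDiff ℝ (⊤ : ℕ∞) k → (∀ h : ℝ, F h = Real.exp (h / 2) * G h) →
    DM.Th G (DM.J (DN.J (DN.Th (ez k hk (1 / 2)) v))) = DM.Th F (DN.Th k v)

/-- `e^{-2πτ} = 1 + e^{2πz}` -/
def tz (z : ℂ) : ℂ := -(Complex.log (1 + Complex.exp (2 * Real.pi * z))) / (2 * Real.pi)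

/-- `e^{-2πt} = 1 + c` -/
def tc (c : ℝ) : ℝ := -(Real.log (1 + c)) / (2 * Real.pi)

/-- the matrix elements of `Δ_N^{iz} Δ_M^{iτ} Δ_N^{-iτ} Δ_N^{-iz}`, `τ = tz z` -/
def ff (DM : ModData M ξ) (DN : ModData N ξ) (χ : ℝ →ᵇ ℂ) (hχ : HasCompactSupport χ) (u v : H)
    (z : ℂ) : ℂ :=
  ⟪u, DN.Th (ez χ hχ (Complex.I * z)) (DM.Th (At (tz z))
    (DN.Th (ez χ hχ (-(Complex.I * (tz z + z)))) v +
      DM.J (DN.J (DN.Th (ez χ hχ (1 / 2 - Complex.I * (tz z + z))) v))))⟫_ℂ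

/-- block C: `ff` is bounded and analytic in the strip -/
def CStmt (DM : ModData M ξ) (DN : ModData N ξ) : Prop :=
  ∀ (χ : ℝ →ᵇ ℂ) (hχ : HasCompactSupport χ) (u v : H),
    DifferentiableOn ℂ (ff DM DN χ hχ u v) StI ∧
    ContinuousOn (ff DM DN χ hχ u v) (St \ {Complex.I / 2}) ∧
    ∃ C, ∀ z ∈ St, ‖ff DM DN χ hχ u v z‖ ≤ C

/-- real even smooth cutoffs -/
structure Evn (χ : ℝ →ᵇ ℂ) : Prop where
  smooth : ContDiff ℝ (⊤ : ℕ∞) χ
  real : ∀ h, conj (χ h) = χ h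
  even : ∀ h, χ (-h) = χ h

/-- block C2: boundary values of `ff` -/
structure C2Stmt (DM : ModData M ξ) (DN : ModData N ξ) (χ : ℝ →ᵇ ℂ) (hχ : HasCompactSupport χ)
    (u v : H) : Prop where
  low : ∀ s : ℝ, ff DM DN χ hχ u v s = ⟪DN.U (-s) (DN.Th χ u),
    DM.U (tc (Real.exp (2 * Real.pi * s))) (DN.U (-(tc (Real.exp (2 * Real.pi * s))))
      (DN.U (-s) (DN.Th χ v)))⟫_ℂ
  upl : ∀ s t : ℝ, s < 0 → t = -(Real.log (1 - Real.exp (2 * Real.pi * s))) / (2 * Real.pi) →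
    ff DM DN χ hχ u v (s + Complex.I / 2) =
      ⟪DN.U (-s) (DN.Th (ez χ hχ (-(1 / 2))) u),
        DM.U t (DN.U (-t) (DN.U (-s) (DN.Th (ez χ hχ (1 / 2)) v)))⟫_ℂ
  upr : ∀ s t : ℝ, 0 < s → t = -(Real.log (Real.exp (2 * Real.pi * s) - 1)) / (2 * Real.pi) →
    ff DM DN χ hχ u v (s + Complex.I / 2) =
      ⟪DN.U (-s) (DN.Th (ez χ hχ (-(1 / 2))) u),
        DM.U t (DM.J (DN.J (DN.U (-(t + s)) (DN.Th (ez χ hχ (1 / 2)) v))))⟫_ℂ

/-- block R: the boundary relations -/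
structure RStmt (DM : ModData M ξ) (DN : ModData N ξ) (χ : ℝ →ᵇ ℂ) (hχ : HasCompactSupport χ) :
    Prop where
  low : ∀ x ∈ N, ∀ y ∈ N.commutant, ∀ s : ℝ,
    ff DM DN χ hχ (y ξ) (x ξ) s = conj (ff DM DN χ hχ (star y ξ) (star x ξ) s)
  up : ∀ x ∈ N, ∀ y ∈ N.commutant, ∀ s : ℝ, s ≠ 0 →
    ff DM DN χ hχ (y ξ) (x ξ) (s + Complex.I / 2) =
      conj (ff DM DN χ hχ (star y ξ) (star x ξ) (s + Complex.I / 2))

/-- `U(c) = Δ_M^{it} Δ_N^{-it}`, `e^{-2πt} = 1 + c` -/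
def Uc (DM : ModData M ξ) (DN : ModData N ξ) (c : ℝ) : H →L[ℂ] H := DM.U (tc c) * DN.U (-(tc c))

/-- block D: covariance under the modular group of `N` (from A, C, R) -/
def DStmt (DM : ModData M ξ) (DN : ModData N ξ) : Prop :=
  Hsm DM DN → ∀ c s : ℝ, 0 < c →
    DN.U (-s) * Uc DM DN c * DN.U s = Uc DM DN (Real.exp (2 * Real.pi * s) * c)

/-- block E: uniqueness of modular data, naturality -/
def EStmt (H : Type*) [NormedAddCommGroup H] [InnerProductSpace ℂ H] [CompleteSpace H] : Prop :=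
  ∀ (M M' : VonNeumannAlgebra H) (ξ : H) (E : ModData M ξ) (E' : ModData M' ξ) (W : H ≃ₗᵢ[ℂ] H),
    W ξ = ξ → (∀ X ∈ M, ∃ Y ∈ M', ∀ z, Y (W z) = W (X z)) →
    (∀ Y ∈ M', ∃ X ∈ M, ∀ z, Y (W z) = W (X z)) → ∀ t z, W (E.U t z) = E'.U t (W z)

/-- the unitary group `S` of a half-sided modular inclusion -/
structure Hs (DM : ModData M ξ) (DN : ModData N ξ) (S : ℝ → H →L[ℂ] H) : Prop where
  zero : S 0 = 1
  add : ∀ c c', S (c + c') = S c * S c'
  star : ∀ c, star (S c) = S (-c)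
  cont : ∀ v, Continuous fun c => S c v
  xi : ∀ c, S c ξ = ξ
  mod : ∀ t : ℝ, DN.U t = S (1 - Real.exp (-(2 * Real.pi * t))) * DM.U t
  cov : ∀ s c : ℝ, DM.U s * S c = S (Real.exp (-(2 * Real.pi * s)) * c) * DM.U s
  inv : ∀ c : ℝ, 0 ≤ c → ∀ X ∈ N, ∃ Y ∈ N, Y * S c = S c * X

/-- block F (from D) -/
def FStmt (DM : ModData M ξ) (DN : ModData N ξ) : Prop := Hsm DM DN → ∃ S, Hs DM DN S

/-! ## Part 2: affiliated operators -/

section aff

open GF H246 H496 H755 H15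

/-- block I1: operators affiliated to `M` and to the commutant of `M` commute -/
def I1Stmt (D : Type*) [NormedAddCommGroup D] [InnerProductSpace ℂ D] : Prop :=
  ∀ (M M' : VonNeumannAlgebra (Completion D)) (X Z : D → D),
    (∀ Y, Y ∈ M' ↔ Y ∈ M.commutant) → Aff M X → Aff M' Z → ∀ v, X (Z v) = Z (X v)

/-- block I2: commutators with generators of one-sided deformations are affiliated. (`S c` maps the
commutant of `M` into itself for `c ≤ 0`, or `M` into itself for `c ≥ 0`.) -/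
def I2Stmt (D : Type*) [NormedAddCommGroup D] [InnerProductSpace ℂ D] : Prop :=
  ∀ (M : VonNeumannAlgebra (Completion D)) (S : ℝ → Completion D →L[ℂ] Completion D)
    (G X X' : D → D) (ε : ℝ), ε ≠ 0 →
    (∀ c, ∀ z w, ⟪S c z, S c w⟫_ℂ = ⟪z, w⟫_ℂ) → (∀ c z, S c (S (-c) z) = z) →
    (∀ z, S 0 z = z) →
    (∀ c, 0 ≤ c → ∀ Y ∈ M.commutant, ∃ Y' ∈ M.commutant, ∀ z, S (ε * c) (Y' z) = Y (S (ε * c) z)) →
    (∀ v : D, HasDerivAt (fun c : ℝ => S c (v : Completion D))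
      ((Complex.I • G v : D) : Completion D) 0) →
    (∀ v w, inner ℂ (X v) w = inner ℂ v (X' w)) → (∀ v w, inner ℂ (G v) w = inner ℂ v (G w)) →
    Aff M X → Aff M (fun v => G (X v) - X (G v))

/-! ## Part 3: geometry of the net -/

variable {D : Type*} [NormedAddCommGroup D] [InnerProductSpace ℂ D]

/-- block U: the extension `Ue` of `U` -/
structure UStmt (Q : Theory D) (A : (V → V) → D → D) : Prop where
  coe : ∀ s L x (v : D), 0 < s → IsLor L → Ue Q s L x (v : Completion D) = (Q.U s L x v : D)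
  lin : ∀ s L x, 0 < s → IsLor L → ∃ W : Completion D ≃ₗᵢ[ℂ] Completion D,
    ∀ z, W z = Ue Q s L x z
  mul : ∀ s L a s' L' a' z, 0 < s → 0 < s' → IsLor L → IsLor L' →
    Ue Q s L a (Ue Q s' L' a' z) = Ue Q (s * s') (fun m => sim 1 L 0 (L' m)) (sim s L a a') z
  vac : ∀ s L x, 0 < s → IsLor L → Ue Q s L x (om Q) = om Q

/-- the null deformations: `S` is the unitary group of the half-sided modular inclusions
`𝒜 (Rg a b c) ⊂ 𝒜 (Wdg a b 0)`, `c > 0`, up to the scale `c` -/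
structure Nd (Q : Theory D) (𝒜 : Set V → VonNeumannAlgebra (Completion D)) (a b : V)
    (S : ℝ → Completion D →L[ℂ] Completion D) : Prop where
  hs : ∀ (c : ℝ) (E : ModData (𝒜 (Wdg a b 0)) (om Q)) (E' : ModData (𝒜 (HM.Rg a b c)) (om Q)),
    0 < c → Hs E E' fun r => S (c * r)

/-- block G1: existence of the null deformations, and `S c` maps the algebra of the wedge into
itself for `c ≥ 0` -/
def G1Stmt (Q : Theory D) (A : (V → V) → D → D)
    (𝒜 : Set V → VonNeumannAlgebra (Completion D)) : Prop :=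
  VNet Q A 𝒜 → ∃ S : V → V → ℝ → Completion D →L[ℂ] Completion D,
    ∀ a b, IsNull a → IsNull b → GF.mdot a b = 1 → Nd Q 𝒜 a b (S a b) ∧
      Nonempty (ModData (𝒜 (Wdg a b 0)) (om Q)) ∧
      (∀ c : ℝ, 0 < c → Nonempty (ModData (𝒜 (HM.Rg a b c)) (om Q))) ∧
      ∀ c : ℝ, 0 ≤ c → ∀ X ∈ 𝒜 (Wdg a b 0), ∃ Y ∈ 𝒜 (Wdg a b 0), Y * S a b c = S a b c * X

/-- block G2: covariance of the null deformations -/
def G2Stmt (Q : Theory D) (A : (V → V) → D → D)
    (𝒜 : Set V → VonNeumannAlgebra (Completion D))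
    (S : V → V → ℝ → Completion D →L[ℂ] Completion D) : Prop :=
  VNet Q A 𝒜 → (∀ a b, IsNull a → IsNull b → GF.mdot a b = 1 → Nd Q 𝒜 a b (S a b)) →
    ∀ s L r a b a' b' c z, 0 < s → 0 < r → IsLor L → IsNull a → IsNull b → IsNull a' →
      IsNull b' → GF.mdot a b = 1 → GF.mdot a' b' = 1 → sim 1 L 0 a = r • a' →
      r • sim 1 L 0 b = b' → Ue Q s L 0 (S a b c z) = S a' b' (r / s * c) (Ue Q s L 0 z)

/-- block G3 (`G3Block`, below): `S a b` commutes with the null rotations that fix `a` and with the translations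
along `a`, does not depend on `b`, and obeys the translation law -/
structure G3Stmt (Q : Theory D) (S : V → V → ℝ → Completion D →L[ℂ] Completion D) : Prop where
  nrot : ∀ a b w c z, IsNull a → IsNull b → GF.mdot a b = 1 → GF.mdot a w = 0 →
    Ue Q 1 (H746.nrt a w) 0 (S a b c z) = S a b c (Ue Q 1 (H746.nrt a w) 0 z)
  trans : ∀ a b (r : ℝ) c z, IsNull a → IsNull b → GF.mdot a b = 1 →
    Ue Q 1 GF.one (r • a) (S a b c z) = S a b c (Ue Q 1 GF.one (r • a) z)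
  indep : ∀ a b b' c, IsNull a → IsNull b → IsNull b' → GF.mdot a b = 1 → GF.mdot a b' = 1 →
    S a b c = S a b' c
  ptr : ∀ a b w c z, IsNull a → IsNull b → GF.mdot a b = 1 → GF.mdot a w = 0 →
    S a b c (Ue Q 1 GF.one w z) =
      Ue Q 1 GF.one w (S a b c (Ue Q 1 (H746.nrt a (c • w)) (-(c * GF.mdot w w) • a) z))

/-- block G3 -/
def G3Block (Q : Theory D) (A : (V → V) → D → D)
    (𝒜 : Set V → VonNeumannAlgebra (Completion D))
    (S : V → V → ℝ → Completion D →L[ℂ] Completion D) : Prop :=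
  VNet Q A 𝒜 → (∀ a b, IsNull a → IsNull b → GF.mdot a b = 1 → Nd Q 𝒜 a b (S a b) ∧
      Nonempty (ModData (𝒜 (Wdg a b 0)) (om Q)) ∧
      ∀ c : ℝ, 0 < c → Nonempty (ModData (𝒜 (HM.Rg a b c)) (om Q))) → G3Stmt Q S

/-! ## Part 4: generators on `D` -/

/-- block J: the generators `G a : D → D` of the null deformations -/
def JStmt (Q : Theory D) (A : (V → V) → D → D)
    (𝒜 : Set V → VonNeumannAlgebra (Completion D))
    (S : V → V → ℝ → Completion D →L[ℂ] Completion D) : Prop :=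
  VNet Q A 𝒜 → (∀ a b, IsNull a → IsNull b → GF.mdot a b = 1 → Nd Q 𝒜 a b (S a b) ∧
      Nonempty (ModData (𝒜 (Wdg a b 0)) (om Q)) ∧ Nonempty (ModData (𝒜 (HM.Rg a b 1)) (om Q))) →
    G3Stmt Q S → ∃ G : V → D → D, ∀ a b (v : D), IsNull a → IsNull b → GF.mdot a b = 1 →
      HasDerivAt (fun c : ℝ => S a b c (v : Completion D))
        ((Complex.I • G a v : D) : Completion D) 0

/-- block KS -/
def KSStmt (Q : Theory D) (A : (V → V) → D → D)
    (𝒜 : Set V → VonNeumannAlgebra (Completion D))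
    (S : V → V → ℝ → Completion D →L[ℂ] Completion D) (G : V → D → D) : Prop :=
  VNet Q A 𝒜 → G2Stmt Q A 𝒜 S → G3Stmt Q S →
    (∀ a b, IsNull a → IsNull b → GF.mdot a b = 1 → Nd Q 𝒜 a b (S a b)) →
    (∀ a b (v : D), IsNull a → IsNull b → GF.mdot a b = 1 →
      HasDerivAt (fun c : ℝ => S a b c (v : Completion D))
        ((Complex.I • G a v : D) : Completion D) 0) → NF.KS Q A G

/-- block LO: locality of the generators -/
def LOStmt (Q : Theory D) (A : (V → V) → D → D)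
    (𝒜 : Set V → VonNeumannAlgebra (Completion D))
    (S : V → V → ℝ → Completion D →L[ℂ] Completion D) (G : V → D → D) : Prop :=
  VNet Q A 𝒜 → NF.KS Q A G → G3Stmt Q S →
    (∀ a b, IsNull a → IsNull b → GF.mdot a b = 1 → ∀ c : ℝ, 0 ≤ c → ∀ X ∈ 𝒜 (Wdg a b 0),
      ∃ Y ∈ 𝒜 (Wdg a b 0), Y * S a b c = S a b c * X) →
    (∀ a b (v : D), IsNull a → IsNull b → GF.mdot a b = 1 →
      HasDerivAt (fun c : ℝ => S a b c (v : Completion D))
        ((Complex.I • G a v : D) : Completion D) 0) →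
    ∀ φ : Fld D, Q.fld φ → NG.LocG Q G φ

end aff

end Vale.Agent.P352.BW

end
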