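import Vale.Agent.P132.Bd8.B6
import Vale.Agent.P352.BW.Spec
import Vale.Agent.P352.HM.Geo584

/-!
# P352 BW, block G1: existence of the null deformations

The modular data of the wedge and of the regions `Rg a b c` exist (the vacuum is cyclic and
separating), the inclusions `𝒜 (Rg a b c) ⊂ 𝒜 (Wdg a b 0)` are half-sided modular, and their unitary
groups are obtained from the one of `c = 1` by rescaling.
-/

set_option linter.all false

noncomputable section

open MeasureTheory Filter Topology Set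
open scoped ComplexConjugate InnerProductSpace BoundedContinuousFunction

namespace Vale.Agent.P352.BW

open Vale.Agent.P132 (ModData exists_modData)
open UniformSpace (Completion)
open GF H246 H496 H755 H15

namespace H732G

/-! ### Geometry -/

lemma rg_open (a b : V) (c : ℝ) : IsOpen (HM.Rg a b c) := by
  have h1 : IsOpen {z : V | GF.mdot a z < 0} :=
    isOpen_lt (HM.H584.cont_md a) continuous_const
  have h2 : IsOpen {z : V | 0 < 1 + 2 * c * GF.mdot a z} :=
    isOpen_lt continuous_const (continuous_const.add (continuous_const.mul (HM.H584.cont_md a)))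
  have h3 : IsOpen {z : V | 0 < GF.mdot b z + c * GF.mdot z z} :=
    isOpen_lt continuous_const
      ((HM.H584.cont_md b).add (continuous_const.mul HM.H584.cont_sq))
  exact h1.inter (h2.inter h3)

lemma rg_ne {a b : V} (ha : IsNull a) (hb : IsNull b) (hab : GF.mdot a b = 1) {c : ℝ}
    (hc : 0 ≤ c) : (HM.Rg a b c).Nonempty := by
  have hba : GF.mdot b a = 1 := by rw [md_comm]; exact hab
  refine ⟨a - (1 / (2 * (c + 1))) • b, ?_, ?_, ?_⟩
  · rw [md_sub, md_smul, ha.1, hab]
    have : 0 < 1 / (2 * (c + 1)) := by positivity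
    linarith
  · rw [md_sub, md_smul, ha.1, hab]
    have h1 : 0 < c + 1 := by linarith
    have h2 : 1 + 2 * c * (0 - 1 / (2 * (c + 1)) * 1) = 1 / (c + 1) := by
      field_simp
      ring
    rw [h2]
    positivity
  · simp only [md_sub, md_sub_l, md_smul, md_smul_l, ha.1, hb.1, hab, hba]
    have h1 : 0 < c + 1 := by linarith
    have h2 : 1 - 1 / (2 * (c + 1)) * 0 + c * (0 - 1 / (2 * (c + 1)) * 1 -
      1 / (2 * (c + 1)) * (1 - 1 / (2 * (c + 1)) * 0)) = 1 / (c + 1) := by
      field_simp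
      ring
    have h3 : (0 : ℝ) < 1 / (c + 1) := by positivity
    first
      | (rw [h2]; exact h3)
      | (have h4 : c / (c + 1) < 1 := by rw [div_lt_one h1]; linarith
         have h5 : c * (1 / (2 * (c + 1))) * 2 = c / (c + 1) := by field_simp
         nlinarith)

/-- compact subsets of the wedge lie in one of the regions -/
lemma cpt {a b : V} {K : Set V} (hK : IsCompact K) (h3 : K ⊆ Wdg a b 0) :
    ∃ c : ℝ, 0 < c ∧ K ⊆ HM.Rg a b c := by
  rcases K.eq_empty_or_nonempty with he | hne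
  · refine ⟨1, one_pos, ?_⟩
    rw [he]; exact empty_subset _
  obtain ⟨C1, hC1⟩ := hK.exists_bound_of_continuousOn (HM.H584.cont_md a).continuousOn
  obtain ⟨C2, hC2⟩ := hK.exists_bound_of_continuousOn HM.H584.cont_sq.continuousOn
  obtain ⟨z0, hz0, hm⟩ := hK.exists_isMinOn hne (HM.H584.cont_md b).continuousOn
  have hm0 : 0 < GF.mdot b z0 := ((HM.H584.wdg0 a b z0).1 (h3 hz0)).2
  set m := GF.mdot b z0
  have hC1' : 0 ≤ C1 := (norm_nonneg _).trans (hC1 z0 hz0)
  have hC2' : 0 ≤ C2 := (norm_nonneg _).trans (hC2 z0 hz0)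
  have hc : 0 < min (1 / (2 * (C1 + 1))) (m / (2 * (C2 + 1))) :=
    lt_min (by positivity) (by positivity)
  refine ⟨min (1 / (2 * (C1 + 1))) (m / (2 * (C2 + 1))), hc, ?_⟩
  set c := min (1 / (2 * (C1 + 1))) (m / (2 * (C2 + 1))) with hcd
  have hca : c * (2 * (C1 + 1)) ≤ 1 := by
    rw [← le_div_iff₀ (by positivity)]; exact min_le_left _ _
  have hcb : c * (2 * (C2 + 1)) ≤ m := by
    rw [← le_div_iff₀ (by positivity)]; exact min_le_right _ _
  intro z hz
  obtain ⟨w1, w2⟩ := (HM.H584.wdg0 a b z).1 (h3 hz)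
  have g1 := (abs_le.1 (Real.norm_eq_abs _ ▸ hC1 z hz)).1
  have g2 := (abs_le.1 (Real.norm_eq_abs _ ▸ hC2 z hz)).1
  have g3 : m ≤ GF.mdot b z := hm hz
  refine ⟨w1, ?_, ?_⟩
  · have : c * (-C1) ≤ c * GF.mdot a z := mul_le_mul_of_nonneg_left g1 hc.le
    nlinarith
  · have : c * (-C2) ≤ c * GF.mdot z z := mul_le_mul_of_nonneg_left g2 hc.le
    nlinarith

variable {D : Type*} [NormedAddCommGroup D] [InnerProductSpace ℂ D] {Q : Theory D}
  {A : (V → V) → D → D} {𝒜 : Set V → VonNeumannAlgebra (Completion D)}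

lemma norm_om (Q : Theory D) : ‖om Q‖ = 1 := by
  rw [om, Completion.norm_coe, Q.norm_vac]

lemma sep (h : VNet Q A 𝒜) {a b : V} (ha : IsNull a) (hb : IsNull b) (hab : GF.mdot a b = 1)
    (X : Completion D →L[ℂ] Completion D) (hX : X ∈ 𝒜 (Wdg a b 0)) (h0 : X (om Q) = 0) :
    X = 0 := by
  have hba : GF.mdot b a = 1 := by rw [md_comm]; exact hab
  have hd := h.cyc (HM.Rg b a 0) (rg_open b a 0) (rg_ne hb ha hba le_rfl)
  have hc : Continuous fun z : Completion D => X z := X.continuous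
  have h1 : (fun z : Completion D => X z) = fun _ => 0 := by
    refine Continuous.ext_on hd hc continuous_const ?_
    rintro z ⟨Y, hY, rfl⟩
    rw [HM.H584.Rg_zero] at hY
    have h2 := VonNeumannAlgebra.mem_commutant_iff.1 ((h.dual a b Y ha hb hab).1 hY) X hX
    have h3 := congrArg (fun T : Completion D →L[ℂ] Completion D => T (om Q)) h2
    have h4 : X (Y (om Q)) = Y (X (om Q)) := h3
    show X (Y (om Q)) = 0
    rw [h4, h0, map_zero]
  ext z
  exact congrFun h1 z

lemma nonempty_mod (h : VNet Q A 𝒜) {a b : V} (ha : IsNull a) (hb : IsNull b)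
    (hab : GF.mdot a b = 1) {c : ℝ} (hc : 0 ≤ c) :
    Nonempty (ModData (𝒜 (HM.Rg a b c)) (om Q)) := by
  refine exists_modData _ _ (norm_om Q) ?_ ?_
  · exact h.cyc _ (rg_open a b c) (rg_ne ha hb hab hc)
  · intro X hX h0
    refine sep h ha hb hab X ?_ h0
    refine h.mono _ _ ?_ X hX
    rw [← HM.H584.Rg_zero]
    exact HM.H584.Rg_mono ha hb hab le_rfl hc

lemma nonempty_mod_wdg (h : VNet Q A 𝒜) {a b : V} (ha : IsNull a) (hb : IsNull b)
    (hab : GF.mdot a b = 1) : Nonempty (ModData (𝒜 (Wdg a b 0)) (om Q)) := by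
  rw [← HM.H584.Rg_zero]
  exact nonempty_mod h ha hb hab le_rfl

/-- the modular group of the wedge maps the regions to each other -/
lemma sg_rg (h : VNet Q A 𝒜) {a b : V} (ha : IsNull a) (hb : IsNull b) (hab : GF.mdot a b = 1)
    (E : ModData (𝒜 (Wdg a b 0)) (om Q)) (t c : ℝ) (X : Completion D →L[ℂ] Completion D)
    (hX : X ∈ 𝒜 (HM.Rg a b c)) :
    E.sg t X ∈ 𝒜 (HM.Rg a b (Real.exp (-(2 * Real.pi * t)) * c)) := by
  have e1 : 1 + (Real.exp (-(2 * Real.pi * t)) - 1) = Real.exp (-(2 * Real.pi * t)) := by ring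
  have h1 : 0 < 1 + (Real.exp (-(2 * Real.pi * t)) - 1) := by rw [e1]; exact Real.exp_pos _
  have h2 : (1 + (Real.exp (-(2 * Real.pi * t)) - 1)) *
      (1 + (Real.exp (2 * Real.pi * t) - 1)) = 1 := by
    rw [e1, add_sub_cancel, ← Real.exp_add]
    simp
  have hL := isLor_bst ha hb hab h1 h2
  have hbw := fun z => h.bw a b t _ E z ha hb hab hL (fun x => sim_bst a b _ _ x)
  obtain ⟨Y, hY, hYz⟩ := h.cov 1 _ 0 _ X hX one_pos hL
  rw [HM.H584.Rg_bst ha hb hab h1 h2, e1] at hY
  have : E.sg t X = Y := by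
    ext z
    rw [ModData.sg_apply, hbw, ← hYz, ← hbw, E.U_apply_neg]
  rw [this]
  exact hY

lemma hsm (h : VNet Q A 𝒜) {a b : V} (ha : IsNull a) (hb : IsNull b) (hab : GF.mdot a b = 1)
    {c : ℝ} (hc : 0 ≤ c) (E : ModData (𝒜 (Wdg a b 0)) (om Q))
    (E' : ModData (𝒜 (HM.Rg a b c)) (om Q)) : Hsm E E' := by
  refine ⟨fun X hX => ?_, fun t ht X hX => ?_⟩
  · refine h.mono _ _ ?_ X hX
    rw [← HM.H584.Rg_zero]
    exact HM.H584.Rg_mono ha hb hab le_rfl hc
  · refine h.mono _ _ ?_ _ (sg_rg h ha hb hab E t c X hX)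
    refine HM.H584.Rg_mono ha hb hab hc ?_
    have h1 : 1 ≤ Real.exp (-(2 * Real.pi * t)) := by
      rw [Real.one_le_exp_iff]
      have : 0 ≤ 2 * Real.pi * (-t) := by
        have := Real.pi_pos
        have ht' : 0 ≤ -t := by linarith
        positivity
      linarith
    nlinarith

/-- `Δ^{it}` as a unitary operator -/
def Wt {H : Type*} [NormedAddCommGroup H] [InnerProductSpace ℂ H] [CompleteSpace H]
    {M : VonNeumannAlgebra H} {ξ : H} (E : ModData M ξ) (t : ℝ) : H ≃ₗᵢ[ℂ] H where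
  toLinearEquiv := LinearEquiv.ofLinear (E.U t : H →L[ℂ] H).toLinearMap
    (E.U (-t) : H →L[ℂ] H).toLinearMap
    (by ext z; exact E.U_apply_neg t z) (by ext z; exact E.U_neg_apply t z)
  norm_map' := fun z => E.norm_U t z

lemma Wt_apply {H : Type*} [NormedAddCommGroup H] [InnerProductSpace ℂ H] [CompleteSpace H]
    {M : VonNeumannAlgebra H} {ξ : H} (E : ModData M ξ) (t : ℝ) (z : H) : Wt E t z = E.U t z := rfl

/-- the modular group does not depend on the choice of the modular data -/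
lemma U_unique {H : Type*} [NormedAddCommGroup H] [InnerProductSpace ℂ H] [CompleteSpace H]
    (hE : EStmt H) {M : VonNeumannAlgebra H} {ξ : H} (E E' : ModData M ξ) (t : ℝ) :
    E.U t = E'.U t := by
  ext z
  exact hE M M ξ E E' (LinearIsometryEquiv.refl ℂ H) rfl (fun X hX => ⟨X, hX, fun z => rfl⟩)
    (fun X hX => ⟨X, hX, fun z => rfl⟩) t z

/-- the modular groups of the regions are conjugate under the modular group of the wedge -/
lemma U_conj (hE : EStmt (Completion D)) (h : VNet Q A 𝒜) {a b : V} (ha : IsNull a)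
    (hb : IsNull b) (hab : GF.mdot a b = 1) (E : ModData (𝒜 (Wdg a b 0)) (om Q)) (s c : ℝ)
    (E1 : ModData (𝒜 (HM.Rg a b c)) (om Q))
    (E2 : ModData (𝒜 (HM.Rg a b (Real.exp (-(2 * Real.pi * s)) * c))) (om Q)) (t : ℝ) :
    E.U s * E1.U t = E2.U t * E.U s := by
  ext z
  refine hE _ _ _ E1 E2 (Wt E s) (E.U_xi s) (fun X hX => ?_) (fun Y hY => ?_) t z
  · refine ⟨E.sg s X, sg_rg h ha hb hab E s c X hX, fun z => ?_⟩
    rw [Wt_apply, Wt_apply, E.sg_U_apply]
  · refine ⟨E.sg (-s) Y, ?_, fun z => ?_⟩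
    · have h1 := sg_rg h ha hb hab E (-s) _ Y hY
      rw [← mul_assoc, ← Real.exp_add] at h1
      have e : -(2 * Real.pi * -s) + -(2 * Real.pi * s) = 0 := by ring
      rw [e, Real.exp_zero, one_mul] at h1
      exact h1
    · rw [Wt_apply, Wt_apply, ModData.sg_apply, neg_neg, E.U_apply_neg]

lemma scale (hE : EStmt (Completion D)) (h : VNet Q A 𝒜) {a b : V} (ha : IsNull a)
    (hb : IsNull b) (hab : GF.mdot a b = 1) {E0 : ModData (𝒜 (Wdg a b 0)) (om Q)}
    {E1 : ModData (𝒜 (HM.Rg a b 1)) (om Q)} {S : ℝ → Completion D →L[ℂ] Completion D}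
    (hS : Hs E0 E1 S) {c : ℝ} (hc : 0 < c) (E : ModData (𝒜 (Wdg a b 0)) (om Q))
    (E' : ModData (𝒜 (HM.Rg a b c)) (om Q)) : Hs E E' fun r => S (c * r) := by
  obtain ⟨s, hs⟩ : ∃ s : ℝ, Real.exp (-(2 * Real.pi * s)) = c := by
    refine ⟨-(Real.log c) / (2 * Real.pi), ?_⟩
    have : -(2 * Real.pi * (-(Real.log c) / (2 * Real.pi))) = Real.log c := by
      have := Real.pi_pos
      field_simp
    rw [this, Real.exp_log hc]
  have hU : ∀ t, E.U t = E0.U t := U_unique hE E E0
  have hcov : ∀ r c' : ℝ, E.U r * S c' = S (Real.exp (-(2 * Real.pi * r)) * c') * E.U r := by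
    intro r c'
    rw [hU, hS.cov]
  have hE2 : ∀ t, E.U s * E1.U t = E'.U t * E.U s := by
    intro t
    have h2 : HM.Rg a b (Real.exp (-(2 * Real.pi * s)) * 1) = HM.Rg a b c := by
      rw [hs, mul_one]
    obtain ⟨E3⟩ := nonempty_mod h ha hb hab (c := Real.exp (-(2 * Real.pi * s)) * 1)
      (by positivity)
    have h3 := U_conj hE h ha hb hab E s 1 E1 E3 t
    rw [h3]
    congr 1
    have h4 : ∀ (O : Set V) (hO : HM.Rg a b (Real.exp (-(2 * Real.pi * s)) * 1) = O)
        (F : ModData (𝒜 O) (om Q)), E3.U t = F.U t := by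
      intro O hO F
      subst hO
      exact U_unique hE E3 F t
    exact h4 _ h2 E'
  refine ⟨?_, ?_, ?_, ?_, ?_, ?_, ?_, ?_⟩
  · simp only [mul_zero]
    exact hS.zero
  · intro r r'
    simp only [mul_add]
    exact hS.add _ _
  · intro r
    simp only [mul_neg]
    exact hS.star _
  · intro v
    exact (hS.cont v).comp (continuous_const.mul continuous_id)
  · intro r
    exact hS.xi _
  · intro t
    show E'.U t = S (c * (1 - Real.exp (-(2 * Real.pi * t)))) * E.U t
    have h1 : E'.U t = E.U s * E1.U t * E.U (-s) := by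
      rw [hE2, mul_assoc, E.U_mul_U_neg, mul_one]
    rw [h1, hS.mod t, ← hU, ← mul_assoc, hcov, hs, mul_assoc, mul_assoc, ← E.U_add, ← E.U_add]
    congr 2
    ring
  · intro r c'
    show E.U r * S (c * c') = S (c * (Real.exp (-(2 * Real.pi * r)) * c')) * E.U r
    rw [hcov]
    congr 2
    ring
  · intro r hr X hX
    show ∃ Y ∈ 𝒜 (HM.Rg a b c), Y * S (c * r) = S (c * r) * X
    have h1 := sg_rg h ha hb hab E (-s) c X hX
    have e : Real.exp (-(2 * Real.pi * -s)) * c = 1 := by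
      rw [← hs, ← Real.exp_add]
      simp
    rw [e] at h1
    obtain ⟨Y, hY, hYS⟩ := hS.inv r hr _ h1
    have h2 := sg_rg h ha hb hab E s 1 Y hY
    rw [hs, mul_one] at h2
    refine ⟨E.sg s Y, h2, ?_⟩
    have h3 : S (c * r) = E.U s * S r * E.U (-s) := by
      rw [hcov, hs, mul_assoc, E.U_mul_U_neg, mul_one]
    have h4 : E.sg s Y = E.U s * Y * E.U (-s) := by
      ext z; rw [ModData.sg_apply]; rfl
    have h5 : E.sg (-s) X = E.U (-s) * X * E.U s := by
      ext z; rw [ModData.sg_apply, neg_neg]; rfl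
    rw [h5] at hYS
    calc E.sg s Y * S (c * r) = E.U s * Y * (E.U (-s) * E.U s) * S r * E.U (-s) := by
          rw [h4, h3]; simp only [mul_assoc]
      _ = E.U s * (Y * S r) * E.U (-s) := by
          rw [E.U_neg_mul_U]; simp only [mul_assoc, mul_one, one_mul]
      _ = E.U s * S r * E.U (-s) * X * (E.U s * E.U (-s)) := by
          rw [hYS]; simp only [mul_assoc]
      _ = S (c * r) * X := by
          rw [E.U_mul_U_neg, mul_one, ← h3]

/-- `S c` maps the algebra of the wedge into itself for `c ≥ 0` -/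
lemma inv_wdg (h : VNet Q A 𝒜) {a b : V} (ha : IsNull a)
    (hb : IsNull b) (hab : GF.mdot a b = 1) {S : ℝ → Completion D →L[ℂ] Completion D}
    (hN : Nd Q 𝒜 a b S) {c : ℝ} (hc : 0 ≤ c) (X : Completion D →L[ℂ] Completion D)
    (hX : X ∈ 𝒜 (Wdg a b 0)) : ∃ Y ∈ 𝒜 (Wdg a b 0), Y * S c = S c * X := by
  obtain ⟨E⟩ := nonempty_mod_wdg h ha hb hab
  obtain ⟨E1⟩ := nonempty_mod h ha hb hab zero_le_one
  have hS := hN.hs 1 E E1 one_pos
  have h0 : S 0 = 1 := by
    have := hS.zero
    simpa using this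
  have hadd : ∀ r r', S (r + r') = S r * S r' := by
    intro r r'
    have := hS.add r r'
    simpa only [one_mul] using this
  have hl : S (-c) * S c = 1 := by rw [← hadd, neg_add_cancel, h0]
  have hr : S c * S (-c) = 1 := by rw [← hadd, add_neg_cancel, h0]
  refine ⟨S c * X * S (-c), ?_, by rw [mul_assoc, hl, mul_one]⟩
  have hcc : (𝒜 (Wdg a b 0)).commutant.commutant = 𝒜 (Wdg a b 0) :=
    VonNeumannAlgebra.commutant_commutant _
  rw [← hcc, VonNeumannAlgebra.mem_commutant_iff]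
  intro Z hZ
  have key : S (-c) * Z * S c ∈ (𝒜 (Wdg a b 0)).commutant := by
    refine h.inn a b _ ha hb hab fun K hK hKW => ?_
    rw [VonNeumannAlgebra.mem_commutant_iff]
    intro X' hX'
    obtain ⟨δ, hδ, hKδ⟩ := cpt hK hKW
    obtain ⟨E'⟩ := nonempty_mod h ha hb hab hδ.le
    obtain ⟨Y, hY, hYS⟩ := (hN.hs δ E E' hδ).inv (c / δ) (by positivity) X'
      (h.mono _ _ hKδ _ hX')
    have e : δ * (c / δ) = c := by field_simp
    simp only [e] at hYS
    have hYW : Y ∈ 𝒜 (Wdg a b 0) := by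
      refine h.mono _ _ ?_ Y hY
      rw [← HM.H584.Rg_zero]
      exact HM.H584.Rg_mono ha hb hab le_rfl hδ.le
    have hc1 := VonNeumannAlgebra.mem_commutant_iff.1 hZ Y hYW
    have h6 : S (-c) * Y = X' * S (-c) := by
      calc S (-c) * Y = S (-c) * Y * (S c * S (-c)) := by rw [hr, mul_one]
        _ = S (-c) * (Y * S c) * S (-c) := by simp only [mul_assoc]
        _ = (S (-c) * S c) * X' * S (-c) := by rw [hYS]; simp only [mul_assoc]
        _ = X' * S (-c) := by rw [hl, one_mul]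
    calc X' * (S (-c) * Z * S c) = (X' * S (-c)) * Z * S c := by simp only [mul_assoc]
      _ = S (-c) * (Y * Z) * S c := by rw [← h6]; simp only [mul_assoc]
      _ = S (-c) * Z * (Y * S c) := by rw [hc1]; simp only [mul_assoc]
      _ = S (-c) * Z * S c * X' := by rw [hYS]; simp only [mul_assoc]
  have h7 := VonNeumannAlgebra.mem_commutant_iff.1 key X hX
  calc Z * (S c * X * S (-c)) = (S c * S (-c)) * Z * S c * X * S (-c) := by
        rw [hr, one_mul]; simp only [mul_assoc]
    _ = S c * ((S (-c) * Z * S c) * X) * S (-c) := by simp only [mul_assoc]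
    _ = S c * (X * (S (-c) * Z * S c)) * S (-c) := by rw [h7]
    _ = S c * X * S (-c) * Z * (S c * S (-c)) := by simp only [mul_assoc]
    _ = S c * X * S (-c) * Z := by rw [hr, mul_one]

end H732G

open H732G in
/-- block G1 -/
theorem g1 {D : Type*} [NormedAddCommGroup D] [InnerProductSpace ℂ D] {Q : Theory D}
    {A : (V → V) → D → D} {𝒜 : Set V → VonNeumannAlgebra (Completion D)}
    (hE : EStmt (Completion D))
    (hF : ∀ (M N : VonNeumannAlgebra (Completion D)) (ξ : Completion D) (DM : ModData M ξ)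
      (DN : ModData N ξ), FStmt DM DN) : G1Stmt Q A 𝒜 := by
  intro h
  have key : ∀ a b : V, ∃ S : ℝ → Completion D →L[ℂ] Completion D, IsNull a → IsNull b →
      GF.mdot a b = 1 → Nd Q 𝒜 a b S := by
    intro a b
    by_cases hab : IsNull a ∧ IsNull b ∧ GF.mdot a b = 1
    · obtain ⟨ha, hb, hab⟩ := hab
      obtain ⟨E⟩ := nonempty_mod_wdg h ha hb hab
      obtain ⟨E1⟩ := nonempty_mod h ha hb hab zero_le_one
      obtain ⟨S, hS⟩ := hF _ _ _ E E1 (hsm h ha hb hab zero_le_one E E1)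
      exact ⟨S, fun _ _ _ => ⟨fun c E2 E3 hc => scale hE h ha hb hab hS hc E2 E3⟩⟩
    · exact ⟨fun _ => 1, fun ha hb hab' => absurd ⟨ha, hb, hab'⟩ hab⟩
  choose S hS using key
  refine ⟨S, fun a b ha hb hab => ⟨hS a b ha hb hab, nonempty_mod_wdg h ha hb hab,
    fun c hc => nonempty_mod h ha hb hab hc.le, fun c hc X hX => ?_⟩⟩
  exact inv_wdg h ha hb hab (hS a b ha hb hab) hc X hX

end Vale.Agent.P352.BW

end
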