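import Vale.Agent.P352.BW.Spec2
import Vale.Agent.P352.H246.Part
import Vale.Agent.P352.H246.Dens
import Vale.Agent.P352.H246.Alg

/-!
# P352 BW [W1]: the Reeh-Schlieder property of the net (helper66)
-/

set_option linter.all false

noncomputable section

open MeasureTheory SchwartzMap Filter Topology
open scoped SchwartzMap ComplexConjugate InnerProductSpace

namespace Vale.Agent.P352.BW

open UniformSpace (Completion)
open H246
open GF (Ix V Fn)

/-! ## the projection onto the closure of `N ξ` -/

section proj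

variable {H : Type*} [NormedAddCommGroup H] [InnerProductSpace ℂ H] [CompleteSpace H]

/-- the vectors `X ξ`, `X ∈ N` -/
def cyS (N : VonNeumannAlgebra H) (ξ : H) : Submodule ℂ H where
  carrier := {z | ∃ X ∈ N, X ξ = z}
  add_mem' := by
    rintro _ _ ⟨X, hX, rfl⟩ ⟨Y, hY, rfl⟩
    exact ⟨X + Y, add_mem hX hY, rfl⟩
  zero_mem' := ⟨0, zero_mem _, rfl⟩
  smul_mem' := by
    rintro c _ ⟨X, hX, rfl⟩
    exact ⟨c • X, N.toStarSubalgebra.smul_mem hX c, rfl⟩

/-- its closure -/
def cyK (N : VonNeumannAlgebra H) (ξ : H) : Submodule ℂ H := (cyS N ξ).topologicalClosure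

instance (N : VonNeumannAlgebra H) (ξ : H) : CompleteSpace (cyK N ξ) :=
  (Submodule.isClosed_topologicalClosure _).completeSpace_coe

lemma cyK_inv {N : VonNeumannAlgebra H} {ξ : H} {X : H →L[ℂ] H} (hX : X ∈ N) {z : H}
    (hz : z ∈ cyK N ξ) : X z ∈ cyK N ξ := by
  have h1 : z ∈ closure (cyS N ξ : Set H) := hz
  have h2 : X z ∈ closure (cyS N ξ : Set H) := by
    refine map_mem_closure X.continuous h1 ?_
    rintro _ ⟨Y, hY, rfl⟩
    exact ⟨X * Y, mul_mem hX hY, rfl⟩
  exact h2

lemma cyK_xi (N : VonNeumannAlgebra H) (ξ : H) : ξ ∈ cyK N ξ :=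
  Submodule.le_topologicalClosure _ ⟨1, one_mem _, rfl⟩

/-- the projection onto the closure of `N ξ` -/
def cyP (N : VonNeumannAlgebra H) (ξ : H) : H →L[ℂ] H := (cyK N ξ).starProjection

lemma cyP_eq {N : VonNeumannAlgebra H} {ξ z : H} : cyP N ξ z = z ↔ z ∈ cyK N ξ :=
  Submodule.starProjection_eq_self_iff

lemma cyP_xi (N : VonNeumannAlgebra H) (ξ : H) : cyP N ξ ξ = ξ := cyP_eq.2 (cyK_xi N ξ)

lemma cyP_comm (N : VonNeumannAlgebra H) (ξ : H) : cyP N ξ ∈ N.commutant := by
  rw [VonNeumannAlgebra.mem_commutant_iff]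
  intro X hX
  ext z
  show X (cyP N ξ z) = cyP N ξ (X z)
  have h1 : X z = X (cyP N ξ z) + X (z - cyP N ξ z) := by
    rw [← map_add]; congr 1; abel
  have h2 : cyP N ξ (X (cyP N ξ z)) = X (cyP N ξ z) :=
    cyP_eq.2 (cyK_inv hX (Submodule.starProjection_apply_mem _ _))
  have h3 : cyP N ξ (X (z - cyP N ξ z)) = 0 := by
    refine (Submodule.starProjection_apply_eq_zero_iff _).2 ?_
    rw [Submodule.mem_orthogonal]
    intro k hk
    have h4 : star X k ∈ cyK N ξ := cyK_inv (star_mem hX) hk
    have h5 : z - cyP N ξ z ∈ (cyK N ξ)ᗮ := Submodule.sub_starProjection_mem_orthogonal z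
    have h6 := (Submodule.mem_orthogonal _ _).1 h5 _ h4
    rwa [ContinuousLinearMap.star_eq_adjoint, ContinuousLinearMap.adjoint_inner_left] at h6
  rw [h1, map_add, h2, h3, add_zero]

lemma cyP_symm (N : VonNeumannAlgebra H) (ξ y z : H) :
    ⟪cyP N ξ y, z⟫_ℂ = ⟪y, cyP N ξ z⟫_ℂ :=
  Submodule.inner_starProjection_left_eq_right _ _ _

lemma cyK_dense {N : VonNeumannAlgebra H} {ξ : H} {T : Set H} (hT : Dense T)
    (h : ∀ z ∈ T, cyP N ξ z = z) : Dense {z | ∃ X ∈ N, X ξ = z} := by
  intro z
  have h1 : z ∈ closure T := hT z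
  have h2 : closure T ⊆ (cyK N ξ : Set H) :=
    closure_minimal (fun x hx => cyP_eq.1 (h x hx)) (Submodule.isClosed_topologicalClosure _)
  exact h2 h1

end proj

variable {D : Type*} [NormedAddCommGroup D] [InnerProductSpace ℂ D]
variable {Q : GF.Theory D}

/-- weak commutation -/
lemma aff_fix {N : VonNeumannAlgebra (Completion D)} {ξ : Completion D} {X : D → D}
    (hX : Aff N X) {v : D} (hv : cyP N ξ (v : Completion D) = v) :
    cyP N ξ ((X v : D) : Completion D) = (X v : D) := by
  obtain ⟨X', hadj, hc⟩ := hX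
  have hd : Dense (Set.range fun v : D => (v : Completion D)) := Completion.denseRange_coe
  refine hd.eq_of_inner_right ℂ ?_
  rintro _ ⟨w, rfl⟩
  rw [← hc _ (cyP_comm N ξ) v w, hv, Completion.inner_coe, Completion.inner_coe]
  rw [← inner_conj_symm, ← hadj, inner_conj_symm]

/-- the vacuum is cyclic for `N` if the fields in a nonempty open set are affiliated to `N` -/
theorem rs_gen {N : VonNeumannAlgebra (Completion D)} {O : Set V} (hO : IsOpen O)
    (hne : O.Nonempty) (hN : ∀ B f, Q.fld B → In O f → Aff N (B f)) :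
    Dense {z | ∃ X ∈ N, X (om Q) = z} := by
  set P := cyP N (om Q) with hP
  obtain ⟨x0', hx0'⟩ := hne
  set x0 : Mink := WithLp.toLp 2 x0' with hx0
  have hMO : IsOpen (MW O) := hO.preimage (PiLp.continuous_ofLp 2 _)
  obtain ⟨r, hr, hball⟩ := Metric.isOpen_iff.1 hMO x0 hx0'
  set ε : ℝ := r / 2 with hε
  have hε0 : 0 < ε := by positivity
  -- the vectors
  have key : ∀ v, PW Q Set.univ v → ∀ a : Mink,
      P ((U1 Q a v : D) : Completion D) = (U1 Q a v : D) := by
    intro v hv
    induction hv with
    | vac =>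
      intro a
      rw [U1_vac]
      exact cyP_xi N (om Q)
    | add _ _ h1 h2 =>
      intro a
      rw [U1_add, Completion.coe_add, map_add, h1, h2]
    | smul c _ h1 =>
      intro a
      rw [U1_smul, Completion.coe_smul, map_smul, h1]
    | @fld B g v hB hg hv ih =>
      -- fields with support near `x0`
      have hsm : ∀ f : 𝓢(Mink, ℂ), IsTest (Metric.ball x0 ε) f → ∀ b a : Mink,
          P ((U1 Q a (B (fl f) (U1 Q b v)) : D) : Completion D) =
            (U1 Q a (B (fl f) (U1 Q b v)) : D) := by
        intro f hf b a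
        have hz : ∀ z : Completion D, ∀ a : Mink,
            ⟪z - P z, ((U1 Q a (B (fl f) (U1 Q b v)) : D) : Completion D)⟫_ℂ = 0 := by
          intro z
          refine (hol_vec (Q := Q) (z - P z) (B (fl f) (U1 Q b v))).unique
            (O := Metric.ball 0 ε) Metric.isOpen_ball ⟨0, Metric.mem_ball_self hε0⟩ ?_
          intro a ha
          have e1 : U1 Q a (B (fl f) (U1 Q b v)) = B (fl (tauS a f)) (U1 Q a (U1 Q b v)) :=
            U_fld hB f a _
          have e2 : IsTest (MW O) (tauS a f) := by
            refine hf.tauS a fun x hx => hball ?_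
            rw [Metric.mem_ball, dist_eq_norm] at hx ⊢
            rw [Metric.mem_ball, dist_zero_right] at ha
            calc ‖x + a - x0‖ = ‖(x - x0) + a‖ := by congr 1; abel
              _ ≤ ‖x - x0‖ + ‖a‖ := norm_add_le _ _
              _ < ε + ε := add_lt_add hx ha
              _ = r := by rw [hε]; ring
          have e3 : P ((U1 Q a (B (fl f) (U1 Q b v)) : D) : Completion D) =
              (U1 Q a (B (fl f) (U1 Q b v)) : D) := by
            rw [e1]
            refine aff_fix (hN B _ hB (In_fl.2 e2)) ?_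
            rw [U1_U1 hv]
            exact ih _
          rw [inner_sub_left, hP, cyP_symm, ← hP, e3, sub_self]
        have h0 : (((U1 Q a (B (fl f) (U1 Q b v)) : D) : Completion D) -
            P ((U1 Q a (B (fl f) (U1 Q b v)) : D) : Completion D)) = 0 := by
          refine ext_inner_left ℂ fun z => ?_
          rw [inner_zero_right, inner_sub_right, hP, ← cyP_symm, ← hP, ← inner_sub_left]
          exact hz z a
        exact (sub_eq_zero.1 h0).symm
      -- all fields
      obtain ⟨U, hU, hKU, hall⟩ := part_induct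
        (P := fun f => ∀ a : Mink, P ((U1 Q a (B (fl f) v) : D) : Completion D) =
          (U1 Q a (B (fl f) v) : D)) (K := tsupport g) (by
          intro a
          have h0 : U1 Q a (0 : D) = 0 := by
            have := U1_smul (Q := Q) a 0 (0 : D)
            rwa [zero_smul, zero_smul] at this
          rw [fld_zero hB, h0, Completion.coe_zero, map_zero]) (by
          intro f1 f2 _ _ h1 h2 a
          rw [fld_addf hB, U1_add, Completion.coe_add, map_add, h1, h2]) hg.1 (by
          intro x _
          refine ⟨Metric.ball x ε, Metric.isOpen_ball, Metric.mem_ball_self hε0, ?_⟩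
          intro f hf a
          have e1 : IsTest (Metric.ball x0 ε) (tauS (x0 - x) f) := by
            refine hf.tauS _ fun y hy => ?_
            rw [Metric.mem_ball, dist_eq_norm] at hy ⊢
            calc ‖y + (x0 - x) - x0‖ = ‖y - x‖ := by congr 1; abel
              _ < ε := hy
          have e2 := hsm _ e1 (x0 - x) (a + (x - x0))
          have e3 : B (fl (tauS (x0 - x) f)) (U1 Q (x0 - x) v) = U1 Q (x0 - x) (B (fl f) v) :=
            (U_fld hB f (x0 - x) v).symm
          have e4 : PW Q Set.univ (B (fl f) v) := .fld hB (isTest_univ hf) hv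
          rw [e3, U1_U1 e4] at e2
          have e5 : a + (x - x0) + (x0 - x) = a := by abel
          rwa [e5] at e2)
      exact hall g ⟨hg.1, hKU⟩
  refine cyK_dense (T := (fun v : D => (v : Completion D)) '' (PS Q Set.univ : Set D)) ?_ ?_
  · exact (Completion.denseRange_coe).dense_image (Completion.continuous_coe D) dense_PS
  · rintro _ ⟨v, hv, rfl⟩
    have h1 := key v hv 0
    rwa [U1_zero hv] at h1

variable {A : (V → V) → D → D} {𝒜 : Set V → VonNeumannAlgebra (Completion D)}

/-- **block W1** -/
theorem w1 : W1Stmt Q A 𝒜 := fun N O hO hne => rs_gen hO hne fun B f hB hf => N.fld O B f hB hf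

end Vale.Agent.P352.BW

end
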