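import Vale.Agent.P352.BW.Spec
import Vale.Agent.P352.BW.H234.Uniq

/-!
# P352 BW, block E: uniqueness and naturality of the modular data
-/

open scoped BoundedContinuousFunction

namespace Vale.Agent.P352.BW

open Vale.Agent.P132 (ModData)

variable {H : Type*} [NormedAddCommGroup H] [InnerProductSpace ℂ H] [CompleteSpace H]

/-- **Block E.** -/
theorem eblock : EStmt H := fun _ _ _ E E' W h1 h2 h3 t z => H234.U_nat E E' W h1 h2 h3 t z

/-- Uniqueness of the functional calculus of `log Δ`. -/
theorem mod_Th_unique {M : VonNeumannAlgebra H} {ξ : H} (E E' : ModData M ξ) (F : ℝ →ᵇ ℂ) (v : H) :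
    E.Th F v = E'.Th F v := H234.Th_unique E E' F v

/-- Uniqueness of the modular conjugation. -/
theorem mod_J_unique {M : VonNeumannAlgebra H} {ξ : H} (E E' : ModData M ξ) (v : H) :
    E.J v = E'.J v := H234.J_unique E E' v

end Vale.Agent.P352.BW
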