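import Vale.Agent.P352.BW.Fe3
import Vale.Agent.P352.BW.Gr0
import Vale.Agent.P352.BW.H649.Lw
import Vale.Agent.P352.BW.H728.Der

/-!
# P352 BW: the regularity of the net and the unitary groups
-/

set_option linter.all false

noncomputable section

open MeasureTheory Filter Topology
open scoped ComplexConjugate InnerProductSpace BoundedContinuousFunction

namespace Vale.Agent.P352.BW

open Vale.Agent.P132 (ModData expB)
open UniformSpace (Completion)
open GF H246 H496 H755 H15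

variable {D : Type*} [NormedAddCommGroup D] [InnerProductSpace ℂ D]
  {Q : Theory D} {A : (V → V) → D → D} {𝒜 : Set V → VonNeumannAlgebra (Completion D)}
  {T : Ix → Ix → Fld D} {J : Ix → Fld D}
  {G G' : V → D → D} {S S' : V → ℝ → Completion D →L[ℂ] Completion D}

namespace Gr0

theorem mul_neg (h : Gr0 Q 𝒜 S) {a : V} (ha : IsNull a) (c : ℝ) : S a c * S a (-c) = 1 := by
  rw [← h.add a c (-c) ha, add_neg_cancel, h.zero a ha]

theorem neg_mul (h : Gr0 Q 𝒜 S) {a : V} (ha : IsNull a) (c : ℝ) : S a (-c) * S a c = 1 := by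
  rw [← h.add a (-c) c ha, neg_add_cancel, h.zero a ha]

theorem uni (h : Gr0 Q 𝒜 S) {a : V} (ha : IsNull a) : KB.Uni (S a) :=
  { zero := h.zero a ha
    inn := fun c z w => h.inn a c z w ha
    cont := fun z => h.cont a z ha }

theorem iso (h : Gr0 Q 𝒜 S) {a : V} (ha : IsNull a) (c : ℝ) :
    ∃ W : Completion D ≃ₗᵢ[ℂ] Completion D, ∀ z, W z = S a c z := by
  have hs : Function.Surjective
      (LinearMap.isometryOfInner (S a c : Completion D →ₗ[ℂ] Completion D)
        (fun x y => h.inn a c x y ha)) := fun z => ⟨S a (-c) z, by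
    have := congrArg (fun T : Completion D →L[ℂ] Completion D => T z) (h.mul_neg ha c)
    exact this⟩
  exact ⟨LinearIsometryEquiv.ofSurjective _ hs, fun z => rfl⟩

/-- the modular unitaries of the regions `Rg a b c` and of the wedge `Wdg a b 0` -/
theorem nat (h : Gr0 Q 𝒜 S) {a b : V} (ha : IsNull a) (hb : IsNull b) (hab : GF.mdot a b = 1)
    {c : ℝ} (hc : 0 ≤ c) (E : ModData (𝒜 (Wdg a b 0)) (om Q))
    (E' : ModData (𝒜 (HM.Rg a b c)) (om Q)) (t : ℝ) (z : Completion D) :
    S a c (E.U t z) = E'.U t (S a c z) := by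
  obtain ⟨W, hW⟩ := h.iso ha c
  have e0 : HM.Rg a b 0 = Wdg a b 0 := HM.H584.Rg_zero a b
  have hg : ∀ X, X ∈ 𝒜 (Wdg a b 0) ↔ S a c * X * S a (-c) ∈ 𝒜 (HM.Rg a b c) := fun X => by
    have := h.geo a b 0 c X ha hb hab le_rfl hc
    rwa [e0, sub_zero, zero_sub] at this
  have h1 := eblock (𝒜 (Wdg a b 0)) (𝒜 (HM.Rg a b c)) (om Q) E E' W
    (by rw [hW]; exact h.vac a c ha)
    (fun X hX => ⟨S a c * X * S a (-c), (hg X).1 hX, fun z => by
      rw [hW, hW]
      have := congrArg (fun T : Completion D →L[ℂ] Completion D => T z) (h.neg_mul ha c)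
      show S a c (X (S a (-c) (S a c z))) = S a c (X z)
      exact congrArg (fun w => S a c (X w)) this⟩)
    (fun Y hY => ⟨S a (-c) * Y * S a c, by
      rw [hg]
      have e : S a c * (S a (-c) * Y * S a c) * S a (-c) = Y := by
        calc S a c * (S a (-c) * Y * S a c) * S a (-c) =
            (S a c * S a (-c)) * Y * (S a c * S a (-c)) := by simp only [mul_assoc]
          _ = Y := by rw [h.mul_neg ha, one_mul, mul_one]
      rw [e]
      exact hY, fun z => by
      rw [hW, hW]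
      have := congrArg (fun T : Completion D →L[ℂ] Completion D => T (Y (S a c z)))
        (h.mul_neg ha c)
      exact this.symm⟩) t z
  rwa [hW, hW] at h1

/-- the modular unitaries of the regions `Rg a b c` -/
theorem mod (h : Gr0 Q 𝒜 S) (hU : UStmt Q A)
    (bw : ∀ a b t L (E : ModData (𝒜 (Wdg a b 0)) (om Q)) z, IsNull a → IsNull b →
      GF.mdot a b = 1 → IsLor L →
      (∀ x, sim 1 L 0 x = x + ((Real.exp (-(2 * Real.pi * t)) - 1) * GF.mdot b x) • a +
        ((Real.exp (2 * Real.pi * t) - 1) * GF.mdot a x) • b) → E.U t z = Ue Q 1 L 0 z)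
    {a b : V} (ha : IsNull a) (hb : IsNull b) (hab : GF.mdot a b = 1)
    {c : ℝ} (hc : 0 ≤ c) (E : ModData (𝒜 (Wdg a b 0)) (om Q))
    (E' : ModData (𝒜 (HM.Rg a b c)) (om Q)) (t : ℝ) (z : Completion D) :
    E'.U t z = S a (c * (1 - Real.exp (-(2 * Real.pi * t)))) (E.U t z) := by
  have hL := MB.isLor_b ha hb hab t
  have hbw : ∀ z, E.U t z = Ue Q 1 (bst a b (Real.exp (-(2 * Real.pi * t)) - 1)
      (Real.exp (2 * Real.pi * t) - 1)) 0 z := fun z =>
    bw a b t _ E z ha hb hab hL (fun x => sim_bst a b _ _ x)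
  have hsim : sim 1 (bst a b (Real.exp (-(2 * Real.pi * t)) - 1)
      (Real.exp (2 * Real.pi * t) - 1)) 0 a = Real.exp (-(2 * Real.pi * t)) • a := by
    rw [sim_bst, md_comm b a, hab, ha.1]
    module
  have e1 : S a c (S a (-c) z) = z :=
    congrArg (fun T : Completion D →L[ℂ] Completion D => T z) (h.mul_neg ha c)
  have h1 := h.nat ha hb hab hc E E' t (S a (-c) z)
  rw [e1] at h1
  rw [← h1, hbw, h.cov 1 _ _ a a (-c) z one_pos (Real.exp_pos _) hL ha ha hsim, ← hbw]
  have e2 : S a c (S a (Real.exp (-(2 * Real.pi * t)) / 1 * -c) (E.U t z)) =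
      (S a c * S a (Real.exp (-(2 * Real.pi * t)) / 1 * -c)) (E.U t z) := rfl
  rw [e2, ← h.add a _ _ ha]
  congr 2
  ring

/-- with the derivatives -/
theorem grp (h : Gr0 Q 𝒜 S) (hD : Dif S G) : Grp Q 𝒜 G S :=
  { der := hD
    zero := h.zero
    add := h.add
    inn := h.inn
    cont := h.cont
    vac := h.vac
    cov := h.cov
    geo := h.geo }

end Gr0

theorem Grp.gr0 (h : Grp Q 𝒜 G S) : Gr0 Q 𝒜 S :=
  { zero := h.zero
    add := h.add
    inn := h.inn
    cont := h.cont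
    vac := h.vac
    cov := h.cov
    geo := h.geo }

/-- uniqueness of the modular unitaries -/
def UqStmt (H : Type*) [NormedAddCommGroup H] [InnerProductSpace ℂ H] [CompleteSpace H] : Prop :=
  ∀ (M : VonNeumannAlgebra H) (ξ : H) (E : ModData M ξ) (V : ℝ → H → H) (J : H → H),
    IsMod M ξ V J → ∀ t x, V t x = E.U t x

lemma exists_pair' : ∃ a b : V, IsNull a ∧ IsNull b ∧ GF.mdot a b = 1 := by
  have ha : IsNull (fun m => if m = 0 ∨ m = 1 then 1 else 0 : V) := by
    refine ⟨?_, ?_⟩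
    · simp [GF.mdot, Fin.sum_univ_four, GF.eta, GF.o]
    · simp [GF.o]
  obtain ⟨b, hb, hab⟩ := H755.exists_dual ha
  exact ⟨_, b, ha, hb, hab⟩

/-- unitary groups that act geometrically and have derivatives on `D` give the regularity -/
theorem Grp.smo (hu : UqStmt (Completion D)) (hG : TfGen Q) (N : LNm Q A 𝒜)
    (h : Grp Q 𝒜 G S) : Smo Q 𝒜 := by
  obtain ⟨a, b, ha, hb, hab⟩ := exists_pair'
  refine ⟨a, b, ha, hb, hab, fun V J v hM => ?_⟩
  obtain ⟨E⟩ := N.modW ha hb hab
  obtain ⟨E'⟩ := N.modR ha hb hab zero_le_one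
  exact ⟨_, (h.der_mod (ublock N.toRep) N.toRep (fun a b t L E z ha hb hab hL hx =>
    N.bw hG a b t L E z ha hb hab hL hx) ha hb hab zero_le_one E E' v).congr_of_eventuallyEq
    (Eventually.of_forall fun t => hu _ _ E' V J hM t v)⟩

/-- **Uniqueness of the unitary groups** -/
theorem Gr0.uniq (hG : TfGen Q) (N : LNm Q A 𝒜) (h : Gr0 Q 𝒜 S) (h' : Gr0 Q 𝒜 S') {a : V}
    (ha : IsNull a) {c : ℝ} (hc : c < 1) (z : Completion D) : S a c z = S' a c z := by
  obtain ⟨b, hb, hab⟩ := H755.exists_dual ha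
  obtain ⟨E⟩ := N.modW ha hb hab
  obtain ⟨E'⟩ := N.modR ha hb hab zero_le_one
  have hbw := fun a b t L E z ha hb hab hL hx => N.bw hG a b t L E z ha hb hab hL hx
  set t : ℝ := -(Real.log (1 - c)) / (2 * Real.pi) with ht
  have e1 : Real.exp (-(2 * Real.pi * t)) = 1 - c := by
    have : -(2 * Real.pi * t) = Real.log (1 - c) := by
      rw [ht]
      field_simp
    rw [this, Real.exp_log (by linarith)]
  have e2 : (1 : ℝ) * (1 - Real.exp (-(2 * Real.pi * t))) = c := by rw [e1]; ring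
  have e3 : E.U t (E.U (-t) z) = z := by
    rw [← E.U_add_apply, add_neg_cancel, JB.U_zero]
    rfl
  have k1 := h.mod (ublock N.toRep) hbw ha hb hab zero_le_one E E' t (E.U (-t) z)
  have k2 := h'.mod (ublock N.toRep) hbw ha hb hab zero_le_one E E' t (E.U (-t) z)
  rw [e2, e3] at k1 k2
  rw [← k1, ← k2]

theorem Gr0.dif (hG : TfGen Q) (N : LNm Q A 𝒜) (h : Gr0 Q 𝒜 S) (h' : Grp Q 𝒜 G S') :
    Dif S G := by
  intro a x ha
  refine (h'.der a x ha).congr_of_eventuallyEq ?_
  filter_upwards [Iio_mem_nhds (zero_lt_one : (0 : ℝ) < 1)] with c hc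
  exact h.uniq hG N h'.gr0 ha hc _

/-- the generators are unique -/
theorem dif_eq (h : Dif S G) (h' : Dif S G') {a : V} (ha : IsNull a) (x : D) :
    G a x = G' a x := by
  have h1 := (h a x ha).unique (h' a x ha)
  have h2 : Complex.I • G a x = Complex.I • G' a x := Completion.coe_injective D h1
  exact smul_right_injective D Complex.I_ne_zero h2

section congr

variable (hh : ∀ a x, IsNull a → G a x = G' a x)
include hh

theorem MHam.congr (h : MHam Q A 𝒜 G') : MHam Q A 𝒜 G := by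
  intro a b c ha hb hab hc
  obtain ⟨V, J', h1, h2⟩ := h a b c ha hb hab hc
  exact ⟨V, J', h1, fun x => by rw [hh a x ha]; exact h2 x⟩

theorem confC_congr {C : D → D} (h : NG.ConfC Q A G' C) : NG.ConfC Q A G C :=
  { h.toRep with
    symm := fun a v w ha => by rw [hh a _ ha, hh a _ ha]; exact h.symm a v w ha
    cov := fun s L r a b v hs hr hL ha hb e => by
      rw [hh a _ ha, hh b _ hb]; exact h.cov s L r a b v hs hr hL ha hb e
    tra := fun a x v ha => by rw [hh a _ ha, hh a _ ha]; exact h.tra a x v ha }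

theorem confGen_congr (h : ConfGen Q A G') : ConfGen Q A G :=
  { h.toRep with
    symm := fun a v w ha => by rw [hh a _ ha, hh a _ ha]; exact h.symm a v w ha
    cov := fun s L r a b v hs hr hL ha hb e => by
      rw [hh a _ ha, hh b _ hb]; exact h.cov s L r a b v hs hr hL ha hb e
    tra := fun a x v ha => by rw [hh a _ ha, hh a _ ha]; exact h.tra a x v ha }

theorem locF_congr {φ : Fld D} (h : NG.LocF Q G' φ) : NG.LocF Q G φ := by
  intro a B f g v ha hB hf hg hs
  simp only [hh a _ ha]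
  exact h a B f g v ha hB hf hg hs

end congr

/-- **The main theorem** for local nets, with the unitary groups -/
theorem main_g (hu : UqStmt (Completion D)) (hT : Q.IsStress T) (hJ : IsVirial Q T J)
    (hP : ND.PCh Q T A) (hG : TfGen Q) (N : LNm Q A 𝒜) (hS : Gr0 Q 𝒜 S) :
    (Smo Q 𝒜 ↔ ∃ G, Dif S G) ∧ ∀ G, Dif S G →
      N86.ConfInv Q T ∧ MHam Q A 𝒜 G ∧ (∀ a x, IsNull a → 0 ≤ (inner ℂ x (G a x)).re) ∧
      (∃ C : D → D, NG.Neutral Q T J A C ∧ NG.ConfC Q A G C) ∧ (∀ m n, NG.LocF Q G (T m n)) ∧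
      (∀ m, NG.LocF Q G (J m)) ∧ (NG.Cyc Q T J → ConfGen Q A G) := by
  refine ⟨⟨fun hs => ?_, ?_⟩, fun G hD => ?_⟩
  · obtain ⟨-, G, -, ⟨S', hS'⟩, -⟩ := main_m hT hJ hP hG N hs
    exact ⟨G, hS.dif hG N hS'⟩
  · rintro ⟨G, hD⟩
    exact (hS.grp hD).smo hu hG N
  · obtain ⟨h0, G', hm, ⟨S', hS'⟩, hp, ⟨C, hC, hC'⟩, h1, h2, h3⟩ :=
      main_m hT hJ hP hG N ((hS.grp hD).smo hu hG N)
    have hh : ∀ a x, IsNull a → G a x = G' a x := fun a x ha =>
      dif_eq hD (hS.dif hG N hS') ha x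
    exact ⟨h0, MHam.congr hh hm, fun a x ha => by rw [hh a x ha]; exact hp a x ha,
      ⟨C, hC, confC_congr hh hC'⟩, fun m n => locF_congr hh (h1 m n),
      fun m => locF_congr hh (h2 m), fun hc => confGen_congr hh (h3 hc)⟩

end Vale.Agent.P352.BW

end
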