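import Vale.Agent.P352.BW.Ps
import Vale.Agent.P352.BW.Fe4

/-!
# P352 BW: the null deformations have positive generators
-/

set_option linter.all false

noncomputable section

open MeasureTheory Filter Topology

namespace Vale.Agent.P352.BW

open Vale.Agent.P132 (ModData expB)
open UniformSpace (Completion)
open GF H246 H496 H755 H15

variable {D : Type*} [NormedAddCommGroup D] [InnerProductSpace ℂ D]
  {Q : Theory D} {A : (V → V) → D → D} {𝒜 : Set V → VonNeumannAlgebra (Completion D)}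
  {S : V → ℝ → Completion D →L[ℂ] Completion D}

/-- the boosts scale the groups -/
theorem Gr0.boost (h : Gr0 Q 𝒜 S)
    (bw : ∀ a b t L (E : ModData (𝒜 (Wdg a b 0)) (om Q)) z, IsNull a → IsNull b →
      GF.mdot a b = 1 → IsLor L →
      (∀ x, sim 1 L 0 x = x + ((Real.exp (-(2 * Real.pi * t)) - 1) * GF.mdot b x) • a +
        ((Real.exp (2 * Real.pi * t) - 1) * GF.mdot a x) • b) → E.U t z = Ue Q 1 L 0 z)
    {a b : V} (ha : IsNull a) (hb : IsNull b) (hab : GF.mdot a b = 1)
    (E : ModData (𝒜 (Wdg a b 0)) (om Q)) (s c : ℝ) (z : Completion D) :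
    E.U s (S a c z) = S a (Real.exp (-(2 * Real.pi * s)) * c) (E.U s z) := by
  have hL := MB.isLor_b ha hb hab s
  have hbw : ∀ z, E.U s z = Ue Q 1 (bst a b (Real.exp (-(2 * Real.pi * s)) - 1)
      (Real.exp (2 * Real.pi * s) - 1)) 0 z := fun z =>
    bw a b s _ E z ha hb hab hL (fun x => sim_bst a b _ _ x)
  have hsim : sim 1 (bst a b (Real.exp (-(2 * Real.pi * s)) - 1)
      (Real.exp (2 * Real.pi * s) - 1)) 0 a = Real.exp (-(2 * Real.pi * s)) • a := by
    rw [sim_bst, md_comm b a, hab, ha.1]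
    module
  rw [hbw, hbw, h.cov 1 _ _ a a c z one_pos (Real.exp_pos _) hL ha ha hsim, div_one]

/-- **The null deformations have positive generators.** -/
theorem Gr0.pos (hG : TfGen Q) (N : LNm Q A 𝒜) (h : Gr0 Q 𝒜 S) :
    ∀ a z w, IsNull a → HasDerivAt (fun c : ℝ => S a c z) (Complex.I • w) 0 →
      0 ≤ (inner ℂ z w).re := by
  intro a z w ha hz
  obtain ⟨b, hb, hab⟩ := H755.exists_dual ha
  obtain ⟨E⟩ := N.modW ha hb hab
  obtain ⟨E'⟩ := N.modR ha hb hab zero_le_one
  have hbw := fun a b t L E z ha hb hab hL hx => N.bw hG a b t L E z ha hb hab hL hx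
  have hsub : HM.Rg a b 1 ⊆ Wdg a b 0 := by
    rw [← HM.H584.Rg_zero]
    exact HM.H584.Rg_mono ha hb hab le_rfl zero_le_one
  refine Ps.pos E E' (N.mono _ _ hsub) (S := S a) (h.zero a ha) (fun c c' => h.add a c c' ha)
    (fun c z => KB.norm_le (h.uni ha) c z) (fun z => h.cont a z ha) (fun t z => ?_)
    (fun s c z => h.boost hbw ha hb hab E s c z) hz
  have h1 := h.mod (ublock N.toRep) hbw ha hb hab zero_le_one E E' t z
  rwa [one_mul] at h1

end Vale.Agent.P352.BW

end
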