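import Vale.Agent.P352.BW.Dom
import Vale.Agent.P352.BW.Ps2
import Vale.Agent.P352.BW.T.M

/-!
# P352 BW: the null generators are defined on the vectors `X Ω`, `X` affiliated to `𝒜 (Rg a b c)`
-/

set_option linter.all false

noncomputable section

open MeasureTheory Filter Topology
open scoped BoundedContinuousFunction

namespace Vale.Agent.P352.BW

open Vale.Agent.P132 (ModData expB)
open UniformSpace (Completion)
open GF H246 H496 H755 H15

variable {D : Type*} [NormedAddCommGroup D] [InnerProductSpace ℂ D]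
  {Q : Theory D} {A : (V → V) → D → D} {𝒜 : Set V → VonNeumannAlgebra (Completion D)}
  {S : V → ℝ → Completion D →L[ℂ] Completion D}

namespace Dom

theorem tau_der {c : ℝ} (hc : 0 < c) : HasDerivAt
    (fun s : ℝ => -(Real.log (1 - s / c)) / (2 * Real.pi)) (1 / (2 * Real.pi * c)) 0 := by
  have h0 : HasDerivAt (fun s : ℝ => 1 - s / c) (-(1 / c)) 0 := by
    simpa using ((hasDerivAt_id (0 : ℝ)).div_const c).const_sub 1
  have h1 := (h0.log (by norm_num)).neg.div_const (2 * Real.pi)
  refine h1.congr_deriv ?_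
  have hc0 : c ≠ 0 := hc.ne'
  rw [zero_div, sub_zero, div_one]
  field_simp

end Dom

/-- **Vectors in the domain of the null generators.** The vectors `X Ω`, `X` affiliated to the
algebra of a region `Rg a b c`, `0 < c`, are differentiable under the null deformations. -/
theorem Gr0.dom (hG : TfGen Q) (N : LNm Q A 𝒜) (h : Gr0 Q 𝒜 S) {a b : V} (ha : IsNull a)
    (hb : IsNull b) (hab : GF.mdot a b = 1) {c : ℝ} (hc : 0 < c) {X : D → D}
    (hX : Aff (𝒜 (HM.Rg a b c)) X) :
    ∃ w : Completion D, HasDerivAt (fun s : ℝ => S a s ((X Q.vac : D) : Completion D)) w 0 := by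
  obtain ⟨E⟩ := N.modW ha hb hab
  obtain ⟨E'⟩ := N.modR ha hb hab hc.le
  have hU := ublock N.toRep
  have hbw := fun a b t L E z ha hb hab hL hx => N.bw hG a b t L E z ha hb hab hL hx
  have hsub : HM.Rg a b c ⊆ Wdg a b 0 := by
    rw [← HM.H584.Rg_zero]
    exact HM.H584.Rg_mono ha hb hab le_rfl hc.le
  set v : D := X Q.vac with hv
  have hEU : ∀ t : ℝ, E.U t (v : Completion D) =
      (Q.U 1 (bst a b (Real.exp (-(2 * Real.pi * t)) - 1)
        (Real.exp (2 * Real.pi * t) - 1)) 0 v : D) := by
    intro t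
    rw [hbw a b t _ E v ha hb hab (MB.isLor_b ha hb hab t) (fun x => sim_bst a b _ _ x),
      hU.coe 1 _ 0 v one_pos (MB.isLor_b ha hb hab t)]
  set k : Completion D := ((Complex.I • A (fun z => (2 * Real.pi) •
    (GF.mdot a z • b - GF.mdot b z • a)) v : D) : Completion D) with hk
  have h0 : HasDerivAt (fun t : ℝ => E.U t (v : Completion D)) k 0 := by
    have h := JB.coe_der (MB.boost_der N.toRep ha hb hab v)
    exact h.congr_of_eventuallyEq (Eventually.of_forall fun t => hEU t)
  have hXa := hX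
  obtain ⟨X', hX', -⟩ := hX
  obtain ⟨k', hk'⟩ := Dom.der E E' (N.mono _ _ hsub) (x' := ((X' Q.vac : D) : Completion D)) h0
    (fun F F' hF => T.mAff E' hX' hXa F F' hF)
  have hψ : HasDerivAt (fun t : ℝ => E.U (-t) (v : Completion D)) (-k) 0 := by
    have h1 : HasDerivAt (fun t : ℝ => E.U t (v : Completion D)) k (-0) := by
      rw [neg_zero]
      exact h0
    have h2 := h1.scomp (0 : ℝ) (hasDerivAt_neg (0 : ℝ))
    rw [neg_smul, one_smul] at h2
    exact h2
  have hφ := JB.prod_der (fun t => E'.U t) (fun t z => (JB.norm_U E' t z).le)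
    (fun z => E'.continuous_U_apply z) (JB.U_zero E') (w := k') hψ (by
      simp only [neg_zero, JB.U_zero E]
      exact hk')
  have hφS : ∀ s : ℝ, s < c → S a s (v : Completion D) =
      E'.U (-(Real.log (1 - s / c)) / (2 * Real.pi))
        (E.U (-(-(Real.log (1 - s / c)) / (2 * Real.pi))) (v : Completion D)) := by
    intro s hs
    rw [h.mod hU hbw ha hb hab hc.le E E']
    have e1 : c * (1 - Real.exp (-(2 * Real.pi * (-(Real.log (1 - s / c)) / (2 * Real.pi))))) =
        s := by
      have e2 : -(2 * Real.pi * (-(Real.log (1 - s / c)) / (2 * Real.pi))) =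
          Real.log (1 - s / c) := by
        field_simp
      have e3 : s / c < 1 := (div_lt_one hc).2 hs
      rw [e2, Real.exp_log (by linarith)]
      field_simp
      ring
    rw [e1, E.U_apply_neg]
  have e0 : -(Real.log (1 - (0 : ℝ) / c)) / (2 * Real.pi) = 0 := by simp
  have hφ' : HasDerivAt (fun t : ℝ => E'.U t (E.U (-t) (v : Completion D))) (k' + -k)
      ((fun s : ℝ => -(Real.log (1 - s / c)) / (2 * Real.pi)) 0) := by
    show HasDerivAt _ _ (-(Real.log (1 - (0 : ℝ) / c)) / (2 * Real.pi))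
    rw [e0]
    exact hφ
  refine ⟨_, (hφ'.scomp (0 : ℝ) (Dom.tau_der hc)).congr_of_eventuallyEq ?_⟩
  filter_upwards [Iio_mem_nhds hc] with s hs
  exact hφS s hs

end Vale.Agent.P352.BW

end
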