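import Vale.Agent.P352.BW.Spec

/-!
# P352 BW, block F: the unitary group of a half-sided modular inclusion
-/

set_option linter.all false

open MeasureTheory Filter Topology
open scoped ComplexConjugate InnerProductSpace BoundedContinuousFunction

namespace Vale.Agent.P352.BW

open Vale.Agent.P132 (ModData expB)

noncomputable section

variable {H : Type*} [NormedAddCommGroup H] [InnerProductSpace ℂ H] [CompleteSpace H]
variable {M N : VonNeumannAlgebra H} {ξ : H}

namespace FB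

theorem tc_zero : tc 0 = 0 := by simp [tc]

theorem exp_tc {c : ℝ} (hc : -1 < c) : Real.exp (-(2 * Real.pi * tc c)) = 1 + c := by
  have h : -(2 * Real.pi * tc c) = Real.log (1 + c) := by
    unfold tc
    have := Real.pi_ne_zero
    field_simp
  rw [h, Real.exp_log (by linarith)]

theorem tc_exp (t : ℝ) : tc (Real.exp (-(2 * Real.pi * t)) - 1) = t := by
  unfold tc
  rw [show (1 : ℝ) + (Real.exp (-(2 * Real.pi * t)) - 1) = Real.exp (-(2 * Real.pi * t)) by ring,
    Real.log_exp]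
  have := Real.pi_ne_zero
  field_simp

theorem tc_mul {c d : ℝ} (hc : -1 < c) (hd : -1 < d) : tc (c + (1 + c) * d) = tc c + tc d := by
  unfold tc
  rw [show 1 + (c + (1 + c) * d) = (1 + c) * (1 + d) by ring,
    Real.log_mul (by linarith) (by linarith)]
  ring

theorem tc_nonpos {c : ℝ} (hc : 0 ≤ c) : tc c ≤ 0 := by
  unfold tc
  have h1 := Real.log_nonneg (show (1 : ℝ) ≤ 1 + c by linarith)
  have h2 := Real.pi_pos
  exact div_nonpos_of_nonpos_of_nonneg (by linarith) (by positivity)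

variable (DM : ModData M ξ) (DN : ModData N ξ)

theorem uc_zero : Uc DM DN 0 = 1 := by simp [Uc, tc_zero]

theorem star_uc (c : ℝ) : star (Uc DM DN c) = DN.U (tc c) * DM.U (-tc c) := by
  rw [Uc, star_mul, DM.star_U, DN.star_U, neg_neg]

theorem star_mul_uc (c : ℝ) : star (Uc DM DN c) * Uc DM DN c = 1 := by
  rw [star_uc, Uc, mul_assoc, ← mul_assoc (DM.U (-tc c)), DM.U_neg_mul_U, one_mul,
    DN.U_mul_U_neg]

theorem uc_mul_star (c : ℝ) : Uc DM DN c * star (Uc DM DN c) = 1 := by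
  rw [star_uc, Uc, mul_assoc, ← mul_assoc (DN.U (-tc c)), DN.U_neg_mul_U, one_mul,
    DM.U_mul_U_neg]

theorem uc_xi (c : ℝ) : Uc DM DN c ξ = ξ := by
  rw [Uc]
  show DM.U (tc c) (DN.U (-tc c) ξ) = ξ
  rw [DN.U_xi, DM.U_xi]

theorem norm_uc (c : ℝ) (v : H) : ‖Uc DM DN c v‖ = ‖v‖ := by
  show ‖DM.U (tc c) (DN.U (-tc c) v)‖ = ‖v‖
  rw [DM.norm_U, DN.norm_U]

variable {DM DN}

/-- the covariance hypothesis of block D -/
def Dc (DM : ModData M ξ) (DN : ModData N ξ) : Prop := ∀ c s : ℝ, 0 < c →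
  DN.U (-s) * Uc DM DN c * DN.U s = Uc DM DN (Real.exp (2 * Real.pi * s) * c)

theorem uc_add (hD : Dc DM DN) {c d : ℝ} (hc : 0 ≤ c) (hd : 0 ≤ d) :
    Uc DM DN (c + d) = Uc DM DN c * Uc DM DN d := by
  rcases hd.eq_or_lt with rfl | hd
  · rw [add_zero, uc_zero, mul_one]
  have h1 : 0 < 1 + c := by linarith
  have hd' : 0 < d / (1 + c) := div_pos hd h1
  have h2 : (1 + c) * (d / (1 + c)) = d := by field_simp
  have h3 := hD (d / (1 + c)) (-tc c) hd'
  rw [neg_neg, show 2 * Real.pi * -tc c = -(2 * Real.pi * tc c) by ring,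
    exp_tc (by linarith), h2] at h3
  have h4 : tc (c + d) = tc c + tc (d / (1 + c)) := by
    rw [← tc_mul (by linarith) (by linarith), h2]
  rw [← h3, Uc, h4, neg_add_rev, DM.U_add, DN.U_add, Uc, Uc]
  rw [mul_assoc (DM.U (tc c)), mul_assoc (DM.U (tc c)), ← mul_assoc (DN.U (-tc c)),
    ← mul_assoc (DN.U (-tc c)), DN.U_neg_mul_U, one_mul]
  simp only [mul_assoc]

variable (DM DN)

/-- the unitary group -/
def Sg (c : ℝ) : H →L[ℂ] H := star (Uc DM DN |c|) * Uc DM DN (|c| + c)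

variable {DM DN}

theorem sg_eq (hD : Dc DM DN) {c r : ℝ} (hr : 0 ≤ r) (hrc : 0 ≤ r + c) :
    Sg DM DN c = star (Uc DM DN r) * Uc DM DN (r + c) := by
  have key : ∀ {p q : ℝ}, 0 ≤ p → 0 ≤ p + c → p ≤ q →
      star (Uc DM DN q) * Uc DM DN (q + c) = star (Uc DM DN p) * Uc DM DN (p + c) := by
    intro p q hp hpc hpq
    have h1 : Uc DM DN q = Uc DM DN (q - p) * Uc DM DN p := by
      rw [← uc_add hD (by linarith) hp, sub_add_cancel]
    have h2 : Uc DM DN (q + c) = Uc DM DN (q - p) * Uc DM DN (p + c) := by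
      rw [← uc_add hD (by linarith) hpc]
      congr 1
      ring
    rw [h1, h2, star_mul, mul_assoc, ← mul_assoc (star (Uc DM DN (q - p))), star_mul_uc, one_mul]
  have habs : 0 ≤ |c| + c := by linarith [neg_abs_le c]
  rcases le_total |c| r with h | h
  · exact (key (abs_nonneg c) habs h).symm
  · exact key hr hrc h

theorem sg_of_nonneg (hD : Dc DM DN) {c : ℝ} (hc : 0 ≤ c) : Sg DM DN c = Uc DM DN c := by
  rw [sg_eq hD le_rfl (by linarith), uc_zero, star_one, one_mul, zero_add]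

theorem sg_add (hD : Dc DM DN) (c c' : ℝ) : Sg DM DN (c + c') = Sg DM DN c * Sg DM DN c' := by
  have h1 := neg_abs_le c
  have h2 := neg_abs_le c'
  have h3 := le_abs_self c
  have h4 := le_abs_self c'
  have h5 := abs_nonneg c
  have h6 := abs_nonneg c'
  have e1 : Sg DM DN c' = star (Uc DM DN (|c| + |c'|)) * Uc DM DN (|c| + |c'| + c') :=
    sg_eq hD (by linarith) (by linarith)
  have e2 : Sg DM DN c = star (Uc DM DN (|c| + |c'| - c)) * Uc DM DN (|c| + |c'|) := by
    rw [sg_eq hD (r := |c| + |c'| - c) (by linarith) (by linarith), sub_add_cancel]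
  have e3 : Sg DM DN (c + c') =
      star (Uc DM DN (|c| + |c'| - c)) * Uc DM DN (|c| + |c'| + c') := by
    rw [sg_eq hD (r := |c| + |c'| - c) (by linarith) (by linarith)]
    congr 2
    ring
  rw [e1, e2, e3, mul_assoc, ← mul_assoc (Uc DM DN (|c| + |c'|)), uc_mul_star, one_mul]

theorem sg_zero (hD : Dc DM DN) : Sg DM DN 0 = 1 := by
  rw [sg_of_nonneg hD le_rfl, uc_zero]

theorem star_sg (hD : Dc DM DN) (c : ℝ) : star (Sg DM DN c) = Sg DM DN (-c) := by
  have h1 := neg_abs_le c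
  rw [sg_eq hD (c := -c) (r := |c| + c) (by linarith) (by linarith [abs_nonneg c]),
    add_neg_cancel_right, Sg, star_mul, star_star]

theorem sg_neg_of_nonneg (hD : Dc DM DN) {c : ℝ} (hc : 0 ≤ c) :
    Sg DM DN (-c) = star (Uc DM DN c) := by
  rw [← star_sg hD, sg_of_nonneg hD hc]

theorem sg_mul_neg (hD : Dc DM DN) (c : ℝ) : Sg DM DN c * Sg DM DN (-c) = 1 := by
  rw [← sg_add hD, add_neg_cancel, sg_zero hD]

theorem sg_neg_mul (hD : Dc DM DN) (c : ℝ) : Sg DM DN (-c) * Sg DM DN c = 1 := by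
  rw [← sg_add hD, neg_add_cancel, sg_zero hD]

theorem sg_xi (c : ℝ) : Sg DM DN c ξ = ξ := by
  show star (Uc DM DN |c|) (Uc DM DN (|c| + c) ξ) = ξ
  rw [uc_xi]
  have h := congrArg (fun f : H →L[ℂ] H => f ξ) (star_mul_uc DM DN |c|)
  simp only [ContinuousLinearMap.mul_apply, ContinuousLinearMap.one_apply, uc_xi] at h
  exact h

theorem continuousAt_tc {c : ℝ} (hc : -1 < c) : ContinuousAt tc c := by
  unfold tc
  refine ContinuousAt.div_const (ContinuousAt.neg (ContinuousAt.log ?_ (by linarith))) _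
  fun_prop

theorem continuous_sg (hD : Dc DM DN) (v : H) : Continuous fun c => Sg DM DN c v := by
  rw [continuous_iff_continuousAt]
  intro c₀
  have h0 := neg_abs_le c₀
  have h00 := abs_nonneg c₀
  have hev : (fun c => Sg DM DN c v) =ᶠ[𝓝 c₀] fun c =>
      star (Uc DM DN (|c₀| + 1)) (Uc DM DN (max 0 (|c₀| + 1 + c)) v) := by
    filter_upwards [Ioi_mem_nhds (show -(|c₀| + 1) < c₀ by linarith)] with c hc
    have hc' : 0 ≤ |c₀| + 1 + c := by
      have : -(|c₀| + 1) < c := hc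
      linarith
    rw [max_eq_right hc', sg_eq hD (r := |c₀| + 1) (by linarith) hc']
    rfl
  refine ContinuousAt.congr ?_ hev.symm
  have hs : Continuous fun c : ℝ => tc (max 0 (|c₀| + 1 + c)) := by
    rw [continuous_iff_continuousAt]
    intro c
    have h1 : ContinuousAt tc (max 0 (|c₀| + 1 + c)) :=
      continuousAt_tc (by linarith [le_max_left 0 (|c₀| + 1 + c)])
    exact ContinuousAt.comp (f := fun c : ℝ => max 0 (|c₀| + 1 + c)) h1
      (by fun_prop)
  have h2 : Continuous fun c : ℝ => Uc DM DN (max 0 (|c₀| + 1 + c)) v :=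
    DM.continuous_U_comp (φ := fun c : ℝ => DN.U (-tc (max 0 (|c₀| + 1 + c))) v)
      ((DN.continuous_U v).comp hs.neg) hs
  exact ((star (Uc DM DN (|c₀| + 1))).continuous.comp h2).continuousAt

theorem sg_conj (hD : Dc DM DN) (s c : ℝ) :
    DN.U (-s) * Sg DM DN c * DN.U s = Sg DM DN (Real.exp (2 * Real.pi * s) * c) := by
  have hpos : ∀ s : ℝ, ∀ c : ℝ, 0 ≤ c →
      DN.U (-s) * Sg DM DN c * DN.U s = Sg DM DN (Real.exp (2 * Real.pi * s) * c) := by
    intro s c hc
    rw [sg_of_nonneg hD hc, sg_of_nonneg hD (mul_nonneg (Real.exp_pos _).le hc)]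
    rcases hc.eq_or_lt with rfl | hc
    · rw [mul_zero, uc_zero, mul_one, DN.U_neg_mul_U]
    · exact hD c s hc
  rcases le_total 0 c with hc | hc
  · exact hpos s c hc
  · have h := congrArg star (hpos s (-c) (by linarith))
    rw [star_mul, star_mul, star_sg hD, star_sg hD, DN.star_U, DN.star_U, neg_neg, neg_neg,
      ← mul_assoc, show -(Real.exp (2 * Real.pi * s) * -c) = Real.exp (2 * Real.pi * s) * c by ring]
      at h
    exact h

theorem mod_id (hD : Dc DM DN) (t : ℝ) :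
    DN.U t = Sg DM DN (1 - Real.exp (-(2 * Real.pi * t))) * DM.U t := by
  have hneg : ∀ t : ℝ, t ≤ 0 →
      Sg DM DN (1 - Real.exp (-(2 * Real.pi * t))) = DN.U t * DM.U (-t) := by
    intro t ht
    have hp := Real.pi_pos
    have h1 : 1 ≤ Real.exp (-(2 * Real.pi * t)) := Real.one_le_exp (by nlinarith)
    rw [show 1 - Real.exp (-(2 * Real.pi * t)) = -(Real.exp (-(2 * Real.pi * t)) - 1) by ring,
      sg_neg_of_nonneg hD (by linarith), star_uc, tc_exp]
  rcases le_total t 0 with ht | ht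
  · rw [hneg t ht, mul_assoc, DM.U_neg_mul_U, mul_one]
  · have h1 := hneg (-t) (by linarith)
    rw [neg_neg, mul_neg, neg_neg] at h1
    have h2 := congrArg star h1
    rw [star_sg hD, star_mul, DM.star_U, DN.star_U, neg_neg,
      show -(1 - Real.exp (2 * Real.pi * t)) = Real.exp (2 * Real.pi * t) - 1 by ring] at h2
    have h3 := sg_conj hD (-t) (Real.exp (2 * Real.pi * t) - 1)
    rw [neg_neg, h2] at h3
    have h4 : Real.exp (2 * Real.pi * -t) * (Real.exp (2 * Real.pi * t) - 1) =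
        1 - Real.exp (-(2 * Real.pi * t)) := by
      rw [mul_neg, mul_sub, ← Real.exp_add, neg_add_cancel, Real.exp_zero, mul_one]
    rw [h4] at h3
    rw [← h3]
    simp only [mul_assoc]
    rw [← mul_assoc (DN.U t) (DN.U (-t)), DN.U_mul_U_neg, one_mul, DM.U_neg_mul_U, mul_one]

theorem cov_id (hD : Dc DM DN) (s c : ℝ) :
    DM.U s * Sg DM DN c = Sg DM DN (Real.exp (-(2 * Real.pi * s)) * c) * DM.U s := by
  have h1 : DM.U s = Sg DM DN (-(1 - Real.exp (-(2 * Real.pi * s)))) * DN.U s := by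
    rw [mod_id hD s, ← mul_assoc, sg_neg_mul hD, one_mul]
  have h2 : DN.U s * Sg DM DN c = Sg DM DN (Real.exp (-(2 * Real.pi * s)) * c) * DN.U s := by
    have h := sg_conj hD (-s) c
    rw [neg_neg, show 2 * Real.pi * -s = -(2 * Real.pi * s) by ring] at h
    rw [← h, mul_assoc (DN.U s * Sg DM DN c), DN.U_neg_mul_U, mul_one]
  rw [h1, mul_assoc, h2, ← mul_assoc, ← mul_assoc, ← sg_add hD, ← sg_add hD,
    add_comm (-(1 - Real.exp (-(2 * Real.pi * s))))]

theorem inv_id (hs : Hsm DM DN) (hD : Dc DM DN) {c : ℝ} (hc : 0 ≤ c) (X : H →L[ℂ] H) (hX : X ∈ N) :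
    ∃ Y ∈ N, Y * Sg DM DN c = Sg DM DN c * X := by
  refine ⟨DM.sg (tc c) (DN.sg (-tc c) X), hs.mod _ (tc_nonpos hc) _ (DN.sg_mem hX _), ?_⟩
  rw [sg_of_nonneg hD hc, Uc, ModData.sg, ModData.sg, neg_neg]
  simp only [mul_assoc]
  rw [← mul_assoc (DM.U (-tc c)), DM.U_neg_mul_U, one_mul, DN.U_mul_U_neg, mul_one]

end FB

/-- **Block F.** -/
theorem fblock (DM : ModData M ξ) (DN : ModData N ξ) (hD : DStmt DM DN) : FStmt DM DN := by
  intro hs
  have h : FB.Dc DM DN := hD hs
  exact ⟨FB.Sg DM DN,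
    { zero := FB.sg_zero h
      add := FB.sg_add h
      star := FB.star_sg h
      cont := FB.continuous_sg h
      xi := FB.sg_xi
      mod := FB.mod_id h
      cov := FB.cov_id h
      inv := fun c hc X hX => FB.inv_id hs h hc X hX }⟩

end

end Vale.Agent.P352.BW
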