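import Vale.Agent.P352.BW.Spec
import Vale.Agent.P352.H755.R7d

open MeasureTheory Filter Topology

namespace Vale.Agent.P352.BW

open GF H246 H496 H755 H15
open UniformSpace (Completion)

noncomputable section

variable {D : Type*} [NormedAddCommGroup D] [InnerProductSpace ℂ D] {Q : Theory D}
  {A : (V → V) → D → D}

lemma ue_add {s : ℝ} {L : Ix → V} (hs : 0 < s) (hL : GF.IsLor L) (a : V) (v w : D) :
    Q.U s L a (v + w) = Q.U s L a v + Q.U s L a w := by
  have h : inner ℂ (Q.U s L a (v + w) - (Q.U s L a v + Q.U s L a w))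
      (Q.U s L a (v + w) - (Q.U s L a v + Q.U s L a w)) = 0 := by
    simp only [inner_sub_left, inner_sub_right, inner_add_left, inner_add_right,
      Q.U_inner s L a _ _ hs hL]
    ring
  exact sub_eq_zero.1 (inner_self_eq_zero.1 h)

lemma ue_smul {s : ℝ} {L : Ix → V} (hs : 0 < s) (hL : GF.IsLor L) (a : V) (c : ℂ) (v : D) :
    Q.U s L a (c • v) = c • Q.U s L a v := by
  have h : inner ℂ (Q.U s L a (c • v) - c • Q.U s L a v)
      (Q.U s L a (c • v) - c • Q.U s L a v) = 0 := by
    simp only [inner_sub_left, inner_sub_right, inner_smul_left, inner_smul_right,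
      Q.U_inner s L a _ _ hs hL]
    ring
  exact sub_eq_zero.1 (inner_self_eq_zero.1 h)

/-- `U s L a` as a linear isometry of `D` -/
def ueI (Q : Theory D) {s : ℝ} {L : Ix → V} (hs : 0 < s) (hL : GF.IsLor L) (a : V) : D →ₗᵢ[ℂ] D :=
  LinearMap.isometryOfInner
    { toFun := Q.U s L a
      map_add' := ue_add hs hL a
      map_smul' := fun c v => ue_smul hs hL a c v } fun v w => Q.U_inner s L a v w hs hL

lemma ueI_apply {s : ℝ} {L : Ix → V} (hs : 0 < s) (hL : GF.IsLor L) (a : V) (v : D) :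
    ueI Q hs hL a v = Q.U s L a v := rfl

lemma ue_uc {s : ℝ} {L : Ix → V} (hs : 0 < s) (hL : GF.IsLor L) (a : V) :
    UniformContinuous (Q.U s L a) :=
  (ueI Q hs hL a).isometry.uniformContinuous

lemma ue_coe {s : ℝ} {L : Ix → V} (hs : 0 < s) (hL : GF.IsLor L) (a : V) (v : D) :
    Ue Q s L a (v : Completion D) = (Q.U s L a v : D) :=
  Completion.map_coe (ue_uc hs hL a) v

lemma ue_cont (s : ℝ) (L : Ix → V) (a : V) : Continuous (Ue Q s L a) :=
  Completion.continuous_map

/-- the translation part of the inverse of a similitude -/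
lemma ue_sim {s : ℝ} {L : Ix → V} (hs : 0 < s) (hL : IsLor L) (y x : V) :
    sim s L y (sim s⁻¹ (linv L) (-(sim s⁻¹ (linv L) 0 y)) x) = x := by
  have e : ∀ (s : ℝ) (L : Ix → V) (y x : V), sim s L y x = y + s • sim 1 L 0 x := by
    intro s L y x
    funext n
    simp [sim]
  rw [e s L y, e s⁻¹ (linv L) _ x, e s⁻¹ (linv L) 0 y, zero_add]
  have h1 : -(s⁻¹ • sim 1 (linv L) 0 y) + s⁻¹ • sim 1 (linv L) 0 x =
      sim 1 (linv L) 0 (s⁻¹ • (x - y)) := by
    rw [simL_smul, simL_sub, smul_sub]; abel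
  rw [h1, sim_linv hL, smul_smul, mul_inv_cancel₀ hs.ne', one_smul]
  abel

/-- the inverse of a similitude operator -/
lemma ue_inv (R : Rep Q A) {s : ℝ} {L : Ix → V} (hs : 0 < s)
    (hL : IsLor L) (y : V) (x : D) :
    Q.U s L y (Q.U s⁻¹ (linv L) (-(sim s⁻¹ (linv L) 0 y)) x) = x := by
  rw [R.mul s L y s⁻¹ (linv L) _ x hs (inv_pos.2 hs) hL (isLor_linv hL), linv_id hL,
    mul_inv_cancel₀ hs.ne']
  have e : sim s L y (-(sim s⁻¹ (linv L) 0 y)) = 0 := by
    have h1 := ue_sim hs hL y 0
    have h2 : sim s⁻¹ (linv L) (-(sim s⁻¹ (linv L) 0 y)) 0 = -(sim s⁻¹ (linv L) 0 y) := by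
      funext n; simp [sim]
    rwa [h2] at h1
  rw [e]
  exact Uone x

/-- `Ue` as a linear isometry of the completion -/
def ueC (Q : Theory D) {s : ℝ} {L : Ix → V} (hs : 0 < s) (hL : GF.IsLor L) (a : V) :
    Completion D →ₗᵢ[ℂ] Completion D where
  toFun := Ue Q s L a
  map_add' := fun z w => Completion.induction_on₂ z w
    (isClosed_eq ((ue_cont s L a).comp (continuous_fst.add continuous_snd))
      (((ue_cont s L a).comp continuous_fst).add ((ue_cont s L a).comp continuous_snd)))
    fun v w => by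
      rw [← Completion.coe_add, ue_coe hs hL, ue_coe hs hL, ue_coe hs hL, ue_add hs hL,
        Completion.coe_add]
  map_smul' := fun c z => Completion.induction_on z
    (isClosed_eq ((ue_cont s L a).comp (continuous_id.const_smul c))
      ((ue_cont s L a).const_smul ((RingHom.id ℂ) c)))
    fun v => by
      rw [← Completion.coe_smul, ue_coe hs hL, ue_coe hs hL, ue_smul hs hL,
        Completion.coe_smul, RingHom.id_apply]
  norm_map' := fun z => Completion.induction_on z
    (isClosed_eq (continuous_norm.comp (ue_cont s L a)) continuous_norm)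
    fun v => by
      change ‖Ue Q s L a (v : Completion D)‖ = _
      rw [ue_coe hs hL, Completion.norm_coe, Completion.norm_coe]
      exact (ueI Q hs hL a).norm_map v

lemma ueC_apply {s : ℝ} {L : Ix → V} (hs : 0 < s) (hL : GF.IsLor L) (a : V) (z : Completion D) :
    ueC Q hs hL a z = Ue Q s L a z := rfl

lemma ue_invC (R : Rep Q A) {s : ℝ} {L : Ix → V} (hs : 0 < s)
    (hL : IsLor L) (y : V) (z : Completion D) :
    Ue Q s L y (Ue Q s⁻¹ (linv L) (-(sim s⁻¹ (linv L) 0 y)) z) = z :=
  Completion.induction_on z (isClosed_eq ((ue_cont _ _ _).comp (ue_cont _ _ _)) continuous_id)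
    fun v => by rw [ue_coe (inv_pos.2 hs) (isLor_linv hL), ue_coe hs hL, ue_inv R hs hL]

lemma ue_lor {L L' : Ix → V} (hL : IsLor L) (hL' : IsLor L') :
    IsLor (fun m => sim 1 L 0 (L' m)) := by
  have e : (fun m => sim 1 L 0 (L' m)) = lmul L' L := by
    funext m n
    simp [sim, lmul]
  rw [e]
  exact isLor_lmul hL' hL

/-- block U -/
theorem ublock (R : Rep Q A) : UStmt Q A where
  coe := fun s L x v hs hL => ue_coe hs hL x v
  lin := fun s L x hs hL =>
    ⟨LinearIsometryEquiv.ofSurjective (ueC Q hs hL x) fun z => ⟨_, ue_invC R hs hL x z⟩,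
      fun z => rfl⟩
  mul := fun s L a s' L' a' z hs hs' hL hL' => Completion.induction_on z
    (isClosed_eq ((ue_cont _ _ _).comp (ue_cont _ _ _)) (ue_cont _ _ _))
    fun v => by
      rw [ue_coe hs' hL', ue_coe hs hL, R.mul s L a s' L' a' v hs hs' hL hL',
        ue_coe (mul_pos hs hs') (ue_lor hL hL')]
  vac := fun s L x hs hL => by
    rw [om, ue_coe hs hL, Q.U_vac s L x hs hL]

end

end Vale.Agent.P352.BW
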