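import Vale.Agent.P352.BW.Spec

/-!
# P352 BW: second stage, fewer hypotheses on the net
-/

set_option linter.all false

noncomputable section

open MeasureTheory Filter Topology
open scoped ComplexConjugate InnerProductSpace BoundedContinuousFunction

namespace Vale.Agent.P352.BW

open Vale.Agent.P132 (ModData expB jconj)
open UniformSpace (Completion)
open GF H246 H496 H755 H15

/-- block JC: `J M' J ⊆ M` -/
def JCStmt (H : Type*) [NormedAddCommGroup H] [InnerProductSpace ℂ H] [CompleteSpace H] : Prop :=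
  ∀ (M : VonNeumannAlgebra H) (ξ : H) (E : ModData M ξ), ∀ Z ∈ M.commutant, jconj E.J Z ∈ M

/-- block TK (Takesaki): a von Neumann subalgebra of `M` that is invariant under the modular group
and has the cyclic vector `ξ` is `M`; the same for subalgebras of the commutant -/
def TKStmt (H : Type*) [NormedAddCommGroup H] [InnerProductSpace ℂ H] [CompleteSpace H] : Prop :=
  ∀ (M M0 : VonNeumannAlgebra H) (ξ : H) (E : ModData M ξ),
    (∀ t, ∀ X ∈ M0, E.sg t X ∈ M0) → Dense {z | ∃ X ∈ M0, X ξ = z} →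
    ((∀ X ∈ M0, X ∈ M) → ∀ X ∈ M, X ∈ M0) ∧
    ((∀ X ∈ M0, X ∈ M.commutant) → ∀ X ∈ M.commutant, X ∈ M0)

variable {D : Type*} [NormedAddCommGroup D] [InnerProductSpace ℂ D]

/-- **Local nets with the Bisognano-Wichmann property**: wedge duality, the Reeh-Schlieder property
and the inner regularity of the wedge algebras are not assumed. -/
structure LNet (Q : Theory D) (A : (V → V) → D → D)
    (𝒜 : Set V → VonNeumannAlgebra (Completion D)) : Prop extends Rep Q A where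
  fld : ∀ O B f, Q.fld B → In O f → Aff (𝒜 O) (B f)
  mono : ∀ O O', O ⊆ O' → ∀ X ∈ 𝒜 O, X ∈ 𝒜 O'
  cov : ∀ s L y O, ∀ X ∈ 𝒜 O, 0 < s → IsLor L →
    ∃ Y ∈ 𝒜 (sim s L y '' O), ∀ z, Y (Ue Q s L y z) = Ue Q s L y (X z)
  loc : ∀ a b, IsNull a → IsNull b → GF.mdot a b = 1 → ∀ X ∈ 𝒜 (Wdg b a 0),
    X ∈ (𝒜 (Wdg a b 0)).commutant
  bw : ∀ a b t L (E : ModData (𝒜 (Wdg a b 0)) (om Q)) z, IsNull a → IsNull b →
    GF.mdot a b = 1 → IsLor L →
    (∀ x, sim 1 L 0 x = x + ((Real.exp (-(2 * Real.pi * t)) - 1) * GF.mdot b x) • a +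
      ((Real.exp (2 * Real.pi * t) - 1) * GF.mdot a x) • b) → E.U t z = Ue Q 1 L 0 z
  reg : ∀ a b (E : ModData (𝒜 (HM.Rg a b 1)) (om Q)) (v : D), IsNull a → IsNull b →
    GF.mdot a b = 1 → ∃ w : D,
      HasDerivAt (fun t : ℝ => E.U t (v : Completion D)) ((w : D) : Completion D) 0

/-- block W1: Reeh-Schlieder for the net, from the fields -/
def W1Stmt (Q : Theory D) (A : (V → V) → D → D)
    (𝒜 : Set V → VonNeumannAlgebra (Completion D)) : Prop :=
  LNet Q A 𝒜 → ∀ O, IsOpen O → O.Nonempty → Dense {z | ∃ X ∈ 𝒜 O, X (om Q) = z}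

/-- block W2: inner regularity (from W1, TK) -/
def W2Stmt (Q : Theory D) (A : (V → V) → D → D)
    (𝒜 : Set V → VonNeumannAlgebra (Completion D)) : Prop :=
  LNet Q A 𝒜 → ∀ a b Y, IsNull a → IsNull b → GF.mdot a b = 1 →
    (∀ K, IsCompact K → K ⊆ Wdg a b 0 → Y ∈ (𝒜 K).commutant) → Y ∈ (𝒜 (Wdg a b 0)).commutant

/-- block W3: wedge duality (from W1, TK) -/
def W3Stmt (Q : Theory D) (A : (V → V) → D → D)
    (𝒜 : Set V → VonNeumannAlgebra (Completion D)) : Prop :=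
  LNet Q A 𝒜 → ∀ a b X, IsNull a → IsNull b → GF.mdot a b = 1 →
    (X ∈ 𝒜 (Wdg b a 0) ↔ X ∈ (𝒜 (Wdg a b 0)).commutant)

theorem vnet_of {Q : Theory D} {A : (V → V) → D → D}
    {𝒜 : Set V → VonNeumannAlgebra (Completion D)} (N : LNet Q A 𝒜) (h1 : W1Stmt Q A 𝒜)
    (h2 : W2Stmt Q A 𝒜) (h3 : W3Stmt Q A 𝒜) : VNet Q A 𝒜 :=
  { N.toRep with
    fld := N.fld
    mono := N.mono
    cov := N.cov
    dual := fun a b X ha hb hab => h3 N a b X ha hb hab
    cyc := h1 N
    inn := fun a b Y ha hb hab => h2 N a b Y ha hb hab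
    bw := N.bw
    reg := N.reg }

end Vale.Agent.P352.BW

end
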