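import Vale.Agent.P352.BW.Mb
import Vale.Agent.P352.BW.Ln
import Vale.Agent.P352.BW.Spec2
import Vale.Agent.P352.BW.T.Spec

/-!
# P352 BW: bridges from the structures of the statement to those of the proof
-/

set_option linter.all false

noncomputable section

open MeasureTheory Filter Topology

namespace Vale.Agent.P352.BW

open Vale.Agent.P132 (ModData)
open UniformSpace (Completion)
open GF H246 H496 H755 H15

variable {D : Type*} [NormedAddCommGroup D] [InnerProductSpace ℂ D]
variable {Q : Theory D} {A : (V → V) → D → D} {𝒜 : Set V → VonNeumannAlgebra (Completion D)}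

/-- from `VNt` to `LNet` -/
theorem VNt.lnet (h : VNt Q A 𝒜) : LNet Q A 𝒜 :=
  { h.toRep with
    fld := h.fld
    mono := h.mono
    cov := h.cov
    loc := fun a b ha hb hab X hX => h.loc a b X ha hb hab hX
    bw := fun a b t L E z ha hb hab hL hx => h.bw a b t L _ _ z ha hb hab hL (isMod E) hx
    reg := fun a b E v ha hb hab => h.reg a b _ _ v ha hb hab (isMod E) }

/-- from `LNt` to `LNet0` -/
theorem LNt.lnet0 (h : LNt Q A 𝒜) : T.LNet0 Q A 𝒜 :=
  { h.toRep with
    fld := h.fld
    mono := h.mono
    cov := h.cov
    loc := fun a b ha hb hab X hX => h.loc a b X ha hb hab hX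
    reg := fun a b E v ha hb hab => h.reg a b _ _ v ha hb hab (isMod E) }

end Vale.Agent.P352.BW

end
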