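import Vale.Agent.P352.BW.KS

/-!
# P352 BW, block MH: the modular Hamiltonians of the regions `Rg a b c`
-/

set_option linter.all false

noncomputable section

open MeasureTheory Filter Topology
open scoped ComplexConjugate InnerProductSpace BoundedContinuousFunction

namespace Vale.Agent.P352.BW

open Vale.Agent.P132 (ModData expB)
open UniformSpace (Completion)
open GF H246 H496 H755 H15

namespace MB

variable {D : Type*} [NormedAddCommGroup D] [InnerProductSpace ℂ D]
  {Q : Theory D} {A : (V → V) → D → D} {𝒜 : Set V → VonNeumannAlgebra (Completion D)}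

theorem isLor_b {a b : V} (ha : IsNull a) (hb : IsNull b) (hab : GF.mdot a b = 1) (t : ℝ) :
    IsLor (bst a b (Real.exp (-(2 * Real.pi * t)) - 1) (Real.exp (2 * Real.pi * t) - 1)) := by
  refine isLor_bst ha hb hab ?_ ?_
  · have := Real.exp_pos (-(2 * Real.pi * t))
    linarith
  · have e1 : 1 + (Real.exp (-(2 * Real.pi * t)) - 1) = Real.exp (-(2 * Real.pi * t)) := by
      ring
    have e2 : 1 + (Real.exp (2 * Real.pi * t) - 1) = Real.exp (2 * Real.pi * t) := by ring
    rw [e1, e2, ← Real.exp_add]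
    simp

/-- the boosts, differentiated on `D` -/
theorem boost_der (R : Rep Q A) {a b : V} (ha : IsNull a)
    (hb : IsNull b) (hab : GF.mdot a b = 1) (v : D) :
    HasDerivAt (fun t : ℝ => Q.U 1 (bst a b (Real.exp (-(2 * Real.pi * t)) - 1)
      (Real.exp (2 * Real.pi * t) - 1)) 0 v)
      (Complex.I • A (fun z => (2 * Real.pi) • (GF.mdot a z • b - GF.mdot b z • a)) v) 0 := by
  refine R.der (fun _ => 1) (fun t => bst a b (Real.exp (-(2 * Real.pi * t)) - 1)
    (Real.exp (2 * Real.pi * t) - 1)) (fun _ => 0)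
    (fun z => (2 * Real.pi) • (GF.mdot a z • b - GF.mdot b z • a)) v rfl ?_ rfl
    (fun e => ⟨one_pos, isLor_b ha hb hab e⟩) ?_
  · show bst a b (Real.exp (-(2 * Real.pi * 0)) - 1) (Real.exp (2 * Real.pi * 0) - 1) = GF.one
    rw [mul_zero, neg_zero, Real.exp_zero, sub_self, JB.bst_zero]
  · intro n x
    have e1 : (fun e : ℝ => sim 1 (bst a b (Real.exp (-(2 * Real.pi * e)) - 1)
        (Real.exp (2 * Real.pi * e) - 1)) 0 x n) = fun e : ℝ => x n +
          (Real.exp (-(2 * Real.pi * e)) - 1) * GF.mdot b x * a n +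
          (Real.exp (2 * Real.pi * e) - 1) * GF.mdot a x * b n := by
      funext e
      rw [sim_bst]
      simp only [Pi.add_apply, Pi.smul_apply, smul_eq_mul]
    rw [e1]
    have h1 : HasDerivAt (fun e : ℝ => Real.exp (-(2 * Real.pi * e))) (-(2 * Real.pi)) 0 := by
      have := (((hasDerivAt_id (0 : ℝ)).const_mul (2 * Real.pi)).neg).exp
      simpa using this
    have h2 : HasDerivAt (fun e : ℝ => Real.exp (2 * Real.pi * e)) (2 * Real.pi) 0 := by
      have := ((hasDerivAt_id (0 : ℝ)).const_mul (2 * Real.pi)).exp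
      simpa using this
    have h3 := ((((h1.sub_const 1).mul_const (GF.mdot b x)).mul_const (a n)).const_add (x n)).add
      (((h2.sub_const 1).mul_const (GF.mdot a x)).mul_const (b n))
    refine h3.congr_deriv ?_
    simp only [Pi.sub_apply, Pi.smul_apply, smul_eq_mul]
    ring

/-- **The modular Hamiltonian** of the algebra of `Rg a b c`, `c > 0`: it is the generator of the
boosts plus `2πc` times the generator of the null deformations. -/
theorem modham (hU : UStmt Q A) (hR : Rep Q A)
    (bw : ∀ a b t L (E : ModData (𝒜 (Wdg a b 0)) (om Q)) z, IsNull a → IsNull b →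
      GF.mdot a b = 1 → IsLor L →
      (∀ x, sim 1 L 0 x = x + ((Real.exp (-(2 * Real.pi * t)) - 1) * GF.mdot b x) • a +
        ((Real.exp (2 * Real.pi * t) - 1) * GF.mdot a x) • b) → E.U t z = Ue Q 1 L 0 z)
    {a b : V} {c : ℝ} {S : ℝ → Completion D →L[ℂ] Completion D} (ha : IsNull a) (hb : IsNull b)
    (hab : GF.mdot a b = 1) (hc : 0 < c) (hN : Nd Q 𝒜 a b S)
    (E : ModData (𝒜 (Wdg a b 0)) (om Q)) (E1 : ModData (𝒜 (HM.Rg a b 1)) (om Q))
    (E' : ModData (𝒜 (HM.Rg a b c)) (om Q)) {v g : D}
    (hg : HasDerivAt (fun c : ℝ => S c (v : Completion D))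
      ((Complex.I • g : D) : Completion D) 0) :
    HasDerivAt (fun t : ℝ => E'.U t (v : Completion D))
      ((Complex.I • (A (fun z => (2 * Real.pi) • (GF.mdot a z • b - GF.mdot b z • a)) v +
        ((2 * Real.pi * c : ℝ) : ℂ) • g) : D) : Completion D) 0 := by
  have hs := hN.hs c E E' hc
  have hSu : KB.Uni S := KB.uni hN E E1
  have hEU : ∀ t : ℝ, E.U t (v : Completion D) =
      (Q.U 1 (bst a b (Real.exp (-(2 * Real.pi * t)) - 1)
        (Real.exp (2 * Real.pi * t) - 1)) 0 v : D) := by
    intro t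
    rw [bw a b t _ E v ha hb hab (isLor_b ha hb hab t) (fun x => sim_bst a b _ _ x),
      hU.coe 1 _ 0 v one_pos (isLor_b ha hb hab t)]
  have hψ : HasDerivAt (fun t : ℝ => E.U t (v : Completion D))
      ((Complex.I • A (fun z => (2 * Real.pi) • (GF.mdot a z • b - GF.mdot b z • a)) v : D) :
        Completion D) 0 := by
    have h := JB.coe_der (boost_der hR ha hb hab v)
    exact h.congr_of_eventuallyEq (Eventually.of_forall fun t => hEU t)
  have hτ : HasDerivAt (fun t : ℝ => c * (1 - Real.exp (-(2 * Real.pi * t)))) (2 * Real.pi * c)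
      0 := by
    have h1 : HasDerivAt (fun e : ℝ => Real.exp (-(2 * Real.pi * e))) (-(2 * Real.pi)) 0 := by
      have := (((hasDerivAt_id (0 : ℝ)).const_mul (2 * Real.pi)).neg).exp
      simpa using this
    refine ((h1.const_sub 1).const_mul c).congr_deriv ?_
    ring
  have hS : HasDerivAt (fun t : ℝ => S (c * (1 - Real.exp (-(2 * Real.pi * t))))
      (v : Completion D)) ((2 * Real.pi * c : ℝ) • ((Complex.I • g : D) : Completion D)) 0 := by
    have h1 : HasDerivAt (fun c : ℝ => S c (v : Completion D))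
        ((Complex.I • g : D) : Completion D)
        ((fun t : ℝ => c * (1 - Real.exp (-(2 * Real.pi * t)))) 0) := by
      show HasDerivAt _ _ (c * (1 - Real.exp (-(2 * Real.pi * 0))))
      rw [mul_zero, neg_zero, Real.exp_zero, sub_self, mul_zero]
      exact hg
    exact h1.scomp (0 : ℝ) hτ
  have h0 : S (c * (1 - Real.exp (-(2 * Real.pi * 0)))) = 1 := by
    rw [mul_zero, neg_zero, Real.exp_zero, sub_self, mul_zero, hSu.zero]
  have h1 := JB.prod_der (fun t : ℝ => S (c * (1 - Real.exp (-(2 * Real.pi * t)))))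
    (fun t z => KB.norm_le hSu _ z)
    (fun z => (hSu.cont z).comp (by fun_prop)) h0
    (w := (2 * Real.pi * c : ℝ) • ((Complex.I • g : D) : Completion D)) hψ (by
      simp only [JB.U_zero E]
      exact hS)
  have e1 : (fun t : ℝ => E'.U t (v : Completion D)) = fun t : ℝ =>
      S (c * (1 - Real.exp (-(2 * Real.pi * t)))) (E.U t (v : Completion D)) := by
    funext t
    rw [hs.mod]
    rfl
  rw [e1]
  refine h1.congr_deriv ?_
  have e2 : Complex.I • (A (fun z => (2 * Real.pi) • (GF.mdot a z • b - GF.mdot b z • a)) v +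
      ((2 * Real.pi * c : ℝ) : ℂ) • g) = (2 * Real.pi * c : ℝ) • (Complex.I • g) +
      Complex.I • A (fun z => (2 * Real.pi) • (GF.mdot a z • b - GF.mdot b z • a)) v := by
    rw [smul_add, add_comm, smul_comm, Complex.coe_smul]
  rw [e2, UniformSpace.Completion.coe_add]
  congr 1
  exact (UniformSpace.Completion.coe_smul _ _).symm

end MB

end Vale.Agent.P352.BW

end
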