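import Vale.Agent.P352.BW.H234.Wd

/-!
# P352 BW, block W2: inner regularity
-/

set_option linter.all false

noncomputable section

open MeasureTheory Filter Topology
open scoped ComplexConjugate InnerProductSpace BoundedContinuousFunction

namespace Vale.Agent.P352.BW

open Vale.Agent.P132 (ModData expB jconj exists_modData)
open UniformSpace (Completion)
open GF H246 H496 H755 H15

section blocks

variable {D : Type*} [NormedAddCommGroup D] [InnerProductSpace ℂ D] {Q : Theory D}
  {A : (V → V) → D → D} {𝒜 : Set V → VonNeumannAlgebra (Completion D)}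

/-- **Block W2: inner regularity of the wedge algebras.** -/
theorem w2 (h1 : W1Stmt Q A 𝒜) (tk : TKStmt (Completion D)) : W2Stmt Q A 𝒜 := by
  intro N a b Y₀ ha hb hab hY₀
  obtain ⟨E⟩ := H234.mod_wdg N h1 ha hb hab
  obtain ⟨P, hP⟩ : ∃ P : Set (Completion D →L[ℂ] Completion D), P =
    {Y | ∀ K, IsCompact K → K ⊆ Wdg a b 0 → Y ∈ (𝒜 K).commutant} := ⟨_, rfl⟩
  have hPs : ∀ X ∈ P, star X ∈ P := by
    intro X hX
    rw [hP] at hX ⊢
    exact fun K hK hKW => star_mem (hX K hK hKW)
  -- the algebra generated by the algebras of compact subsets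
  have hK0 : ∀ K, IsCompact K → K ⊆ Wdg a b 0 → ∀ X ∈ 𝒜 K, X ∈ H234.comm P hPs := by
    intro K hK hKW X hX
    rw [H234.mem_comm]
    intro Y hY
    rw [hP] at hY
    exact ((VonNeumannAlgebra.mem_commutant_iff.1 (hY K hK hKW)) X hX).symm
  have hsub : ∀ X ∈ H234.comm P hPs, X ∈ 𝒜 (Wdg a b 0) := by
    intro X hX
    rw [H234.mem_comm] at hX
    refine H234.mem_cc fun Y hY => hX Y ?_
    rw [hP]
    intro K hK hKW
    rw [VonNeumannAlgebra.mem_commutant_iff] at hY ⊢
    exact fun Z hZ => hY Z (N.mono _ _ hKW Z hZ)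
  have hinv : ∀ t, ∀ X ∈ H234.comm P hPs, E.sg t X ∈ H234.comm P hPs := by
    intro t X hX
    rw [H234.mem_comm] at hX ⊢
    intro Y hY
    refine H234.sg_comm E t X Y (hX _ ?_)
    rw [hP] at hY ⊢
    intro K hK hKW
    rw [VonNeumannAlgebra.mem_commutant_iff]
    intro Z hZ
    have h2 : E.sg t Z ∈ 𝒜 (sim 1 (H234.bo a b t) 0 '' K) :=
      H234.sg_mem_img N ha hb hab E t hZ
    have h3 := hY _ (hK.image (H234.cont_bo t))
      ((Set.image_mono hKW).trans (H234.bo_wdg ha hb hab t))
    rw [VonNeumannAlgebra.mem_commutant_iff] at h3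
    have h4 := h3 _ h2
    have h5 := H234.sg_comm E (-t) Y Z (by rw [neg_neg]; exact h4)
    exact h5
  have hdense : Dense {z | ∃ X ∈ H234.comm P hPs, X (om Q) = z} := by
    obtain ⟨z, hz⟩ := H234.wdg_ne ha hb hab
    obtain ⟨r, hr, hrW⟩ := Metric.isOpen_iff.1 (H234.isOpen_wdg a b) z hz
    have h2 := h1 N (Metric.ball z (r / 2)) Metric.isOpen_ball
      ⟨z, Metric.mem_ball_self (by positivity)⟩
    refine h2.mono ?_
    rintro _ ⟨X, hX, rfl⟩
    refine ⟨X, hK0 (Metric.closedBall z (r / 2)) (isCompact_closedBall z _) ?_ X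
      (N.mono _ _ Metric.ball_subset_closedBall X hX), rfl⟩
    exact (Metric.closedBall_subset_ball (by linarith)).trans hrW
  have h3 := (tk _ (H234.comm P hPs) (om Q) E hinv hdense).1 hsub
  rw [VonNeumannAlgebra.mem_commutant_iff]
  intro X hX
  have h4 := h3 X hX
  rw [H234.mem_comm] at h4
  exact (h4 Y₀ (by rw [hP]; exact hY₀)).symm

end blocks

end Vale.Agent.P352.BW

end
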