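import Vale.Agent.P352.BW.H234.Wd

/-!
# P352 BW, block W3: wedge duality
-/

set_option linter.all false

noncomputable section

open MeasureTheory Filter Topology
open scoped ComplexConjugate InnerProductSpace BoundedContinuousFunction

namespace Vale.Agent.P352.BW

open Vale.Agent.P132 (ModData expB jconj exists_modData)
open UniformSpace (Completion)
open GF H246 H496 H755 H15

section blocks

variable {D : Type*} [NormedAddCommGroup D] [InnerProductSpace ℂ D] {Q : Theory D}
  {A : (V → V) → D → D} {𝒜 : Set V → VonNeumannAlgebra (Completion D)}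

/-- **Block W3: wedge duality.** -/
theorem w3 (h1 : W1Stmt Q A 𝒜) (tk : TKStmt (Completion D)) : W3Stmt Q A 𝒜 := by
  intro N a b X ha hb hab
  have hba : GF.mdot b a = 1 := by rw [H234.mdc]; exact hab
  refine ⟨N.loc a b ha hb hab X, fun hX => ?_⟩
  obtain ⟨E⟩ := H234.mod_wdg N h1 ha hb hab
  refine (tk _ (𝒜 (Wdg b a 0)) (om Q) E (fun t Z hZ => ?_)
    (h1 N _ (H234.isOpen_wdg b a) (H234.wdg_ne hb ha hba))).2 (N.loc a b ha hb hab) X hX
  exact N.mono _ _ (H234.bo_wdg' ha hb hab t) _ (H234.sg_mem_img N ha hb hab E t hZ)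

end blocks

end Vale.Agent.P352.BW

end
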