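import Vale.Agent.P352.BW.Fin1
import Vale.Agent.P352.BW.MH
import Vale.Agent.P352.BW.W1
import Vale.Agent.P352.BW.W2
import Vale.Agent.P352.BW.W3
import Vale.Agent.P352.BW.H820.Tk
import Vale.Agent.P352.BW.Lb
import Vale.Agent.P352.BW.H26.G3
import Vale.Agent.P352.BW.T.NetF
import Vale.Agent.P352.NG.Loc3

/-!
# P352 BW: the null generators and the modular Hamiltonians of a net
-/

set_option linter.all false

noncomputable section

open MeasureTheory Filter Topology

namespace Vale.Agent.P352.BW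

open GF H246 H496 H755 H15
open UniformSpace (Completion)
open Vale.Agent.P132 (ModData)

variable {D : Type*} [NormedAddCommGroup D] [InnerProductSpace ℂ D]
variable {Q : Theory D} {T : Ix → Ix → Fld D} {J : Ix → Fld D} {A : (V → V) → D → D}
  {𝒜 : Set V → VonNeumannAlgebra (Completion D)}

/-- wedge duality, the Reeh-Schlieder property and the inner regularity of the wedge algebras -/
theorem LNet.vnet (N : LNet Q A 𝒜) : VNet Q A 𝒜 := vnet_of N w1 (w2 w1 tk) (w3 w1 tk)

/-- the modular unitaries of the algebras of the regions `Rg a b c` have the generators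
`A (2π ((a·z) b - (b·z) a)) + 2π c G a` on `D` -/
def MHam (Q : Theory D) (A : (V → V) → D → D) (𝒜 : Set V → VonNeumannAlgebra (Completion D))
    (G : V → D → D) : Prop :=
  ∀ a b c, IsNull a → IsNull b → GF.mdot a b = 1 → 0 ≤ c →
    ∃ (V : ℝ → Completion D → Completion D) (J' : Completion D → Completion D),
      IsMod (𝒜 (HM.Rg a b c)) (om Q) V J' ∧ ∀ x : D, HasDerivAt
        (fun t : ℝ => V t (x : Completion D)) ((Complex.I •
          (A (fun z => (2 * Real.pi) • (GF.mdot a z • b - GF.mdot b z • a)) x +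
            ((2 * Real.pi * c : ℝ) : ℂ) • G a x) : D) : Completion D) 0

/-- **The null generators** -/
theorem null_l (N : LNet Q A 𝒜) (hT : Q.IsStress T)
    (hJ : IsVirial Q T J) :
    ∃ (S : V → V → ℝ → Completion D →L[ℂ] Completion D) (G : V → D → D),
      (∀ a b, IsNull a → IsNull b → GF.mdot a b = 1 → Nd Q 𝒜 a b (S a b) ∧
        Nonempty (ModData (𝒜 (Wdg a b 0)) (om Q)) ∧
        ∀ c : ℝ, 0 < c → Nonempty (ModData (𝒜 (HM.Rg a b c)) (om Q))) ∧
      (∀ a b (v : D), IsNull a → IsNull b → GF.mdot a b = 1 →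
        HasDerivAt (fun c : ℝ => S a b c (v : Completion D))
          ((Complex.I • G a v : D) : Completion D) 0) ∧ NG.NullGen Q T J A G ∧
      MHam Q A 𝒜 G := by
  have hV : VNet Q A 𝒜 := N.vnet
  have hU : UStmt Q A := ublock N.toRep
  obtain ⟨S, G, hN, -, hG, hn⟩ := null_bw' hV g3block hT hJ
  refine ⟨S, G, hN, hG, hn, fun a b c ha hb hab hc => ?_⟩
  obtain ⟨hNd, ⟨E⟩, hE⟩ := hN a b ha hb hab
  obtain ⟨E1⟩ := hE 1 one_pos
  rcases hc.eq_or_lt with rfl | hc
  · have h0 : HM.Rg a b 0 = Wdg a b 0 := HM.Rg_zero a b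
    rw [h0]
    refine ⟨_, _, isMod E, fun v => ?_⟩
    have hEU : ∀ t : ℝ, E.U t (v : Completion D) =
        (Q.U 1 (bst a b (Real.exp (-(2 * Real.pi * t)) - 1)
          (Real.exp (2 * Real.pi * t) - 1)) 0 v : D) := by
      intro t
      rw [hV.bw a b t _ E v ha hb hab (MB.isLor_b ha hb hab t) (fun x => sim_bst a b _ _ x),
        hU.coe 1 _ 0 v one_pos (MB.isLor_b ha hb hab t)]
    have h := JB.coe_der (MB.boost_der N.toRep ha hb hab v)
    refine (h.congr_of_eventuallyEq (Eventually.of_forall fun t => hEU t)).congr_deriv ?_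
    rw [mul_zero, Complex.ofReal_zero, zero_smul, add_zero]
  · obtain ⟨E'⟩ := hE c hc
    exact ⟨_, _, isMod E', fun v => MB.modham hU N.toRep hV.bw ha hb hab hc hNd E E1 E'
      (hG a b v ha hb hab)⟩

/-- **The main theorem** for local nets with the property of Bisognano and Wichmann -/
theorem main_l (hT : Q.IsStress T) (hJ : IsVirial Q T J) (hP : ND.PCh Q T A) (N : LNet Q A 𝒜) :
    N86.ConfInv Q T ∧ ∃ G : V → D → D, MHam Q A 𝒜 G ∧
      (∃ C : D → D, NG.Neutral Q T J A C ∧ NG.ConfC Q A G C) ∧ (∀ m n, NG.LocF Q G (T m n)) ∧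
      (∀ m, NG.LocF Q G (J m)) ∧ (NG.Cyc Q T J → ConfGen Q A G) := by
  obtain ⟨S, G, hN, hG, hn, hm⟩ := null_l N hT hJ
  obtain ⟨h1, h2, h3⟩ := (NG.nullGen_iff hT hJ hP).1 hn
  exact ⟨NG.confL hT hJ hn hP, G, hm, h1, h2, h3, fun hc => NG.confGen_of hT hJ hn hP hc⟩

/-- **The main theorem** for local nets -/
theorem main_n (hT : Q.IsStress T) (hJ : IsVirial Q T J) (hP : ND.PCh Q T A)
    (hG : H846.TGen Q) (N : LNt Q A 𝒜) :
    N86.ConfInv Q T ∧ ∃ G : V → D → D, MHam Q A 𝒜 G ∧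
      (∃ C : D → D, NG.Neutral Q T J A C ∧ NG.ConfC Q A G C) ∧ (∀ m n, NG.LocF Q G (T m n)) ∧
      (∀ m, NG.LocF Q G (J m)) ∧ (NG.Cyc Q T J → ConfGen Q A G) :=
  main_l hT hJ hP (Vale.Agent.P352.BW.T.net hG N.lnet0)

end Vale.Agent.P352.BW

end
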