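import Vale.Agent.P352.BW.Fe
import Vale.Agent.P352.BW.T.Tg

/-!
# P352 BW: the main theorem for local nets, if the vacuum is cyclic for the tensor fields
-/

set_option linter.all false

noncomputable section

open MeasureTheory Filter Topology

namespace Vale.Agent.P352.BW

open GF H246 H496 H755 H15
open UniformSpace (Completion)
open Vale.Agent.P132 (ModData)

variable {D : Type*} [NormedAddCommGroup D] [InnerProductSpace ℂ D]
variable {Q : Theory D} {T : Ix → Ix → Fld D} {J : Ix → Fld D} {A : (V → V) → D → D}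
  {𝒜 : Set V → VonNeumannAlgebra (Completion D)}

/-- **The main theorem** for local nets; the vacuum is cyclic for the tensor fields -/
theorem main_n1 (hT : Q.IsStress T) (hJ : IsVirial Q T J) (hP : ND.PCh Q T A)
    (hG : TfGen Q) (N : LNt Q A 𝒜) :
    N86.ConfInv Q T ∧ ∃ G : V → D → D, MHam Q A 𝒜 G ∧
      (∃ C : D → D, NG.Neutral Q T J A C ∧ NG.ConfC Q A G C) ∧ (∀ m n, NG.LocF Q G (T m n)) ∧
      (∀ m, NG.LocF Q G (J m)) ∧ (NG.Cyc Q T J → ConfGen Q A G) :=
  main_l hT hJ hP (Vale.Agent.P352.BW.T.net1 hG N.lnet0)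

end Vale.Agent.P352.BW

end
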