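import Vale.Agent.P352.BW.Lm
import Vale.Agent.P352.BW.Fe2

/-!
# P352 BW: the main theorem for local nets, the regularity as a separate hypothesis
-/

set_option linter.all false

noncomputable section

open MeasureTheory Filter Topology

namespace Vale.Agent.P352.BW

open GF H246 H496 H755 H15
open UniformSpace (Completion)
open Vale.Agent.P132 (ModData)

variable {D : Type*} [NormedAddCommGroup D] [InnerProductSpace ℂ D]
variable {Q : Theory D} {T : Ix → Ix → Fld D} {J : Ix → Fld D} {A : (V → V) → D → D}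
  {𝒜 : Set V → VonNeumannAlgebra (Completion D)}

/-- the regularity of the algebra of one region -/
theorem LNm.lnt1 (h : LNm Q A 𝒜) (hs : Smo Q 𝒜) : LNt1 Q A 𝒜 :=
  { h.toRep with
    fld := h.fld
    mono := h.mono
    cov := h.cov
    loc := h.loc
    reg := hs }

/-- **The main theorem** for local nets -/
theorem main_m (hT : Q.IsStress T) (hJ : IsVirial Q T J) (hP : ND.PCh Q T A) (hG : TfGen Q)
    (N : LNm Q A 𝒜) (hs : Smo Q 𝒜) :
    N86.ConfInv Q T ∧ ∃ G : V → D → D, MHam Q A 𝒜 G ∧ (∃ S, Grp Q 𝒜 G S) ∧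
      (∀ a x, IsNull a → 0 ≤ (inner ℂ x (G a x)).re) ∧
      (∃ C : D → D, NG.Neutral Q T J A C ∧ NG.ConfC Q A G C) ∧ (∀ m n, NG.LocF Q G (T m n)) ∧
      (∀ m, NG.LocF Q G (J m)) ∧ (NG.Cyc Q T J → ConfGen Q A G) :=
  main_f hT hJ hP hG (N.lnt1 hs)

end Vale.Agent.P352.BW

end
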