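import Vale.Agent.P352.BW.Fin2
import Vale.Agent.P352.BW.H26.G3
import Vale.Agent.P352.BW.T.NetF
import Vale.Agent.P352.BW.Lb

/-!
# P352 BW: conformal invariance from local nets and modular theory
-/

set_option linter.all false

noncomputable section

open MeasureTheory Filter Topology

namespace Vale.Agent.P352.BW

open GF H246 H496 H755 H15
open UniformSpace (Completion)
open Vale.Agent.P132 (ModData)

variable {D : Type*} [NormedAddCommGroup D] [InnerProductSpace ℂ D]
variable {Q : Theory D} {T : Ix → Ix → Fld D} {J : Ix → Fld D} {A : (V → V) → D → D}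
  {𝒜 : Set V → VonNeumannAlgebra (Completion D)}

/-- the modular unitaries of the wedge algebra, differentiated on `D` -/
theorem wedge_der (N : LNet Q A 𝒜) {a b : V} (ha : IsNull a) (hb : IsNull b)
    (hab : GF.mdot a b = 1) (E : ModData (𝒜 (Wdg a b 0)) (om Q)) (v : D) :
    HasDerivAt (fun t : ℝ => E.U t (v : Completion D))
      ((Complex.I • A (fun z => (2 * Real.pi) • (GF.mdot a z • b - GF.mdot b z • a)) v : D) :
        Completion D) 0 := by
  have hU : UStmt Q A := ublock N.toRep
  have hEU : ∀ t : ℝ, E.U t (v : Completion D) =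
      (Q.U 1 (bst a b (Real.exp (-(2 * Real.pi * t)) - 1)
        (Real.exp (2 * Real.pi * t) - 1)) 0 v : D) := by
    intro t
    rw [N.bw a b t _ E v ha hb hab (MB.isLor_b ha hb hab t) (fun x => sim_bst a b _ _ x),
      hU.coe 1 _ 0 v one_pos (MB.isLor_b ha hb hab t)]
  have h := JB.coe_der (MB.boost_der N.toRep ha hb hab v)
  exact h.congr_of_eventuallyEq (Eventually.of_forall fun t => hEU t)

/-- **Null generators from modular theory.** The generators `G a` of the null deformations are null
generators, and the modular Hamiltonian of the algebra of `Rg a b c` is the generator of the boosts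
plus `2πc` times `G a`. -/
theorem fin (hT : Q.IsStress T) (hJ : IsVirial Q T J) (N : LNet Q A 𝒜) :
    ∃ (S : V → V → ℝ → Completion D →L[ℂ] Completion D) (G : V → D → D),
      (∀ a b, IsNull a → IsNull b → GF.mdot a b = 1 → Nd Q 𝒜 a b (S a b)) ∧
      G3Stmt Q S ∧
      (∀ a b (v : D), IsNull a → IsNull b → GF.mdot a b = 1 →
        HasDerivAt (fun c : ℝ => S a b c (v : Completion D))
          ((Complex.I • G a v : D) : Completion D) 0) ∧
      NG.NullGen Q T J A G ∧
      (∀ a b c, IsNull a → IsNull b → GF.mdot a b = 1 → 0 ≤ c →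
        Nonempty (ModData (𝒜 (HM.Rg a b c)) (om Q))) ∧
      ∀ a b c (E : ModData (𝒜 (HM.Rg a b c)) (om Q)) (x : D), IsNull a → IsNull b →
        GF.mdot a b = 1 → 0 ≤ c →
        HasDerivAt (fun t : ℝ => E.U t (x : Completion D))
          ((Complex.I • (A (fun z => (2 * Real.pi) • (GF.mdot a z • b - GF.mdot b z • a)) x +
            ((2 * Real.pi * c : ℝ) : ℂ) • G a x) : D) : Completion D) 0 := by
  obtain ⟨S, G, hN, h3, hG, h⟩ := null_bw' (T := T) (J := J) (vnet N) g3block hT hJ
  have key : ∀ c : ℝ, 0 ≤ c → c = 0 ∨ 0 < c :=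
    fun c hc => hc.eq_or_lt.imp (fun h => h.symm) id
  refine ⟨S, G, fun a b ha hb hab => (hN a b ha hb hab).1, h3, hG, h, fun a b c ha hb hab hc => ?_,
    fun a b c E' x ha hb hab hc => ?_⟩
  · obtain ⟨-, hE, hR⟩ := hN a b ha hb hab
    rcases key c hc with rfl | hc
    · rw [HM.Rg_zero]
      exact hE
    · exact hR c hc
  · obtain ⟨hNd, ⟨E⟩, hR⟩ := hN a b ha hb hab
    obtain ⟨E1⟩ := hR 1 one_pos
    rcases key c hc with rfl | hc
    · have e : HM.Rg a b 0 = Wdg a b 0 := HM.Rg_zero a b
      have k : ∀ W : Set V, W = Wdg a b 0 → ∀ E' : ModData (𝒜 W) (om Q),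
          HasDerivAt (fun t : ℝ => E'.U t (x : Completion D))
            ((Complex.I • A (fun z => (2 * Real.pi) • (GF.mdot a z • b - GF.mdot b z • a)) x : D) :
              Completion D) 0 := by
        intro W hW E'
        subst hW
        exact wedge_der N ha hb hab E' x
      have h1 := k _ e E'
      have e2 : A (fun z => (2 * Real.pi) • (GF.mdot a z • b - GF.mdot b z • a)) x +
          ((2 * Real.pi * 0 : ℝ) : ℂ) • G a x =
          A (fun z => (2 * Real.pi) • (GF.mdot a z • b - GF.mdot b z • a)) x := by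
        rw [mul_zero, Complex.ofReal_zero, zero_smul, add_zero]
      rw [e2]
      exact h1
    · exact MB.modham (ublock N.toRep) N.toRep N.bw ha hb hab hc hNd E E1 E' (hG a b x ha hb hab)

/-- **Conformal invariance** of local nets with the Bisognano-Wichmann property. -/
theorem confL (hT : Q.IsStress T) (hJ : IsVirial Q T J) (hP : ND.PCh Q T A) (N : LNet Q A 𝒜) :
    N86.ConfInv Q T := by
  obtain ⟨S, G, -, -, -, h, -⟩ := fin hT hJ N
  exact NG.confL hT hJ h hP

/-- **Conformal invariance** of local nets. -/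
theorem confBW (hT : Q.IsStress T) (hJ : IsVirial Q T J) (hP : ND.PCh Q T A) (hg : H846.TGen Q)
    (N : LNt Q A 𝒜) : N86.ConfInv Q T := confL hT hJ hP (Vale.Agent.P352.BW.T.net hg N.lnet0)

end Vale.Agent.P352.BW

end
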