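import Vale.Agent.P352.BW.Spec
import Vale.Agent.P352.NG.Fin

/-!
# P352 BW: composition of the blocks
-/

set_option linter.all false

noncomputable section

open MeasureTheory Filter Topology

namespace Vale.Agent.P352.BW

open GF H246 H496 H755 H15
open UniformSpace (Completion)
open Vale.Agent.P132 (ModData)

variable {D : Type*} [NormedAddCommGroup D] [InnerProductSpace ℂ D]
variable {Q : Theory D} {T : Ix → Ix → Fld D} {J : Ix → Fld D} {A : (V → V) → D → D}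
  {𝒜 : Set V → VonNeumannAlgebra (Completion D)}

/-- the null generators of a net with the property of Bisognano and Wichmann -/
theorem null_of (hT : Q.IsStress T) (hJ : IsVirial Q T J) (N : VNet Q A 𝒜)
    (h1 : G1Stmt Q A 𝒜) (h2 : ∀ S, G2Stmt Q A 𝒜 S) (h3 : ∀ S, G3Block Q A 𝒜 S)
    (hj : ∀ S, JStmt Q A 𝒜 S) (hk : ∀ S G, KSStmt Q A 𝒜 S G) (hl : ∀ S G, LOStmt Q A 𝒜 S G) :
    ∃ (S : V → V → ℝ → Completion D →L[ℂ] Completion D) (G : V → D → D),
      (∀ a b, IsNull a → IsNull b → GF.mdot a b = 1 → Nd Q 𝒜 a b (S a b)) ∧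
      (∀ a b (v : D), IsNull a → IsNull b → GF.mdot a b = 1 →
        HasDerivAt (fun c : ℝ => S a b c (v : Completion D))
          ((Complex.I • G a v : D) : Completion D) 0) ∧ NG.NullGen Q T J A G := by
  obtain ⟨S, hS⟩ := h1 N
  have hNd : ∀ a b, IsNull a → IsNull b → GF.mdot a b = 1 → Nd Q 𝒜 a b (S a b) :=
    fun a b ha hb hab => (hS a b ha hb hab).1
  have hG3 : G3Stmt Q S := h3 S N fun a b ha hb hab =>
    ⟨(hS a b ha hb hab).1, (hS a b ha hb hab).2.1, (hS a b ha hb hab).2.2.1⟩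
  obtain ⟨G, hG⟩ := hj S N (fun a b ha hb hab =>
    ⟨(hS a b ha hb hab).1, (hS a b ha hb hab).2.1, (hS a b ha hb hab).2.2.1 1 one_pos⟩) hG3
  have hKS : NF.KS Q A G := hk S G N (h2 S) hG3 hNd hG
  have hLO : ∀ φ : Fld D, Q.fld φ → NG.LocG Q G φ := hl S G N hKS hG3
    (fun a b ha hb hab => (hS a b ha hb hab).2.2.2) hG
  have hLT : ∀ m n, NG.LocG Q G (T m n) := fun m n => hLO _ (Q.bose_fld _ (hT.bose m n))
  have hLJ : ∀ m, NG.LocG Q G (J m) := fun m => hLO _ (Q.bose_fld _ (hJ.bose m))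
  exact ⟨S, G, hNd, hG, ⟨hKS, hLT, hLJ⟩⟩

/-- conformal invariance of a net with the property of Bisognano and Wichmann -/
theorem conf_of (hT : Q.IsStress T) (hJ : IsVirial Q T J) (hP : ND.PCh Q T A) (N : VNet Q A 𝒜)
    (h1 : G1Stmt Q A 𝒜) (h2 : ∀ S, G2Stmt Q A 𝒜 S) (h3 : ∀ S, G3Block Q A 𝒜 S)
    (hj : ∀ S, JStmt Q A 𝒜 S) (hk : ∀ S G, KSStmt Q A 𝒜 S G) (hl : ∀ S G, LOStmt Q A 𝒜 S G) :
    N86.ConfInv Q T := by
  obtain ⟨S, G, -, -, h⟩ := null_of hT hJ N h1 h2 h3 hj hk hl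
  exact NG.confL hT hJ h hP

end Vale.Agent.P352.BW

end
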