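import Vale.Agent.P352.BW.Spec
import Vale.Agent.P352.BW.H268.Comm

/-!
# P352 BW: block I1
-/

open scoped InnerProductSpace

namespace Vale.Agent.P352.BW

open UniformSpace (Completion)

/-- block I1: operators affiliated to `M` and to the commutant of `M` commute -/
theorem i1 {D : Type*} [NormedAddCommGroup D] [InnerProductSpace ℂ D] : I1Stmt D := by
  intro M M' X Z hM hX hZ v
  obtain ⟨X', -, hX⟩ := hX
  obtain ⟨Z', -, hZ⟩ := hZ
  refine H268.comm_of_weak M (Completion.toComplₗᵢ (𝕜 := ℂ) (E := D))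
    (Completion.denseRange_coe) X X' Z Z' (fun Y hY v w => hX Y hY v w) (fun Y hY v w => ?_) v
  refine hZ Y ?_ v w
  rw [VonNeumannAlgebra.mem_commutant_iff]
  intro g hg
  exact ((VonNeumannAlgebra.mem_commutant_iff.1 ((hM g).1 hg)) Y hY).symm

end Vale.Agent.P352.BW
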