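import Vale.Agent.P352.BW.Defs

/-!
# P352 BW: block I2
-/

set_option linter.all false

noncomputable section

open MeasureTheory Filter Topology
open scoped ComplexConjugate InnerProductSpace BoundedContinuousFunction

namespace Vale.Agent.P352.BW

open UniformSpace (Completion)

variable {D : Type*} [NormedAddCommGroup D] [InnerProductSpace ℂ D]

/-- block I2 of Spec.lean, with the hypothesis `S 0 z = z` -/
theorem i2_core (M : VonNeumannAlgebra (Completion D))
    (S : ℝ → Completion D →L[ℂ] Completion D) (G X X' : D → D) (ε : ℝ) (hε : ε ≠ 0)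
    (hS : ∀ c, ∀ z w, ⟪S c z, S c w⟫_ℂ = ⟪z, w⟫_ℂ) (h0 : ∀ z, S 0 z = z)
    (hM : ∀ c, 0 ≤ c → ∀ Y ∈ M.commutant, ∃ Y' ∈ M.commutant,
      ∀ z, S (ε * c) (Y' z) = Y (S (ε * c) z))
    (hder : ∀ v : D, HasDerivAt (fun c : ℝ => S c (v : Completion D))
      ((Complex.I • G v : D) : Completion D) 0)
    (hX : ∀ v w, inner ℂ (X v) w = inner ℂ v (X' w))
    (hG : ∀ v w, inner ℂ (G v) w = inner ℂ v (G w))
    (hA : Aff M X) : Aff M (fun v => G (X v) - X (G v)) := by
  obtain ⟨X1, hX1, hA⟩ := hA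
  obtain rfl : X1 = X' := by
    funext w
    refine ext_inner_left ℂ fun v => ?_
    rw [← hX1, ← hX]
  refine ⟨fun w => X1 (G w) - G (X1 w), fun v w => ?_, fun Y hY v w => ?_⟩
  · rw [inner_sub_left, inner_sub_right, hG, hX1, hX1, ← hG]
  have hrel : ∀ c : ℝ, 0 ≤ c →
      (inner ℂ (S (ε * c) ((X1 w : D) : Completion D)) (Y (S (ε * c) (v : Completion D))) : ℂ) =
        inner ℂ (S (ε * c) (w : Completion D)) (Y (S (ε * c) ((X v : D) : Completion D))) := by
    intro c hc
    obtain ⟨Y', hY', hYe⟩ := hM c hc Y hY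
    rw [← hYe, ← hYe, hS, hS]
    exact hA Y' hY' v w
  have d1 : ∀ a : D, HasDerivAt (fun c : ℝ => S (ε * c) (a : Completion D))
      (ε • ((Complex.I • G a : D) : Completion D)) 0 := by
    intro a
    have h1 : HasDerivAt (fun c : ℝ => ε * c) ε 0 := by
      simpa using (hasDerivAt_id (0 : ℝ)).const_mul ε
    exact (hder a).scomp_of_eq (0 : ℝ) h1 (by simp)
  have d2 : ∀ a : D, HasDerivAt (fun c : ℝ => Y (S (ε * c) (a : Completion D)))
      (Y (ε • ((Complex.I • G a : D) : Completion D))) 0 := fun a =>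
    (Y.restrictScalars ℝ).hasFDerivAt.comp_hasDerivAt 0 (d1 a)
  have d3 : ∀ a b : D, HasDerivAt (fun c : ℝ =>
      (inner ℂ (S (ε * c) (a : Completion D)) (Y (S (ε * c) (b : Completion D))) : ℂ))
      (inner ℂ (S (ε * 0) (a : Completion D)) (Y (ε • ((Complex.I • G b : D) : Completion D))) +
        inner ℂ (ε • ((Complex.I • G a : D) : Completion D)) (Y (S (ε * 0) (b : Completion D))))
      0 := fun a b => (d1 a).inner ℂ (d2 b)
  have d4 := (uniqueDiffWithinAt_Ici (0 : ℝ)).eq_deriv _ (d3 (X1 w) v).hasDerivWithinAt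
    ((d3 w (X v)).hasDerivWithinAt.congr (fun c hc => hrel c hc) (hrel 0 le_rfl))
  have hsm : ∀ z : Completion D, ε • z = (ε : ℂ) • z := fun z => (Complex.coe_smul ε z).symm
  have r1 := hA Y hY (G v) w
  have r2 := hA Y hY v (G w)
  simp only [mul_zero, h0, hsm, Completion.coe_smul, map_smul, inner_smul_left, inner_smul_right,
    Complex.conj_ofReal, Complex.conj_I] at d4
  rw [r1, ← r2] at d4
  have hε' : (ε : ℂ) ≠ 0 := Complex.ofReal_ne_zero.2 hε
  show (inner ℂ ((X1 (G w) - G (X1 w) : D) : Completion D) (Y (v : Completion D)) : ℂ) =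
    inner ℂ (w : Completion D) (Y ((G (X v) - X (G v) : D) : Completion D))
  rw [Completion.coe_sub, Completion.coe_sub, map_sub, inner_sub_left, inner_sub_right]
  refine mul_left_cancel₀ (mul_ne_zero hε' Complex.I_ne_zero) ?_
  linear_combination d4

end Vale.Agent.P352.BW

end
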