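import Vale.Agent.P352.BW.Spec

/-!
# P352 BW, block J: the generators of the null deformations
-/

set_option linter.all false

noncomputable section

open MeasureTheory Filter Topology
open scoped ComplexConjugate InnerProductSpace BoundedContinuousFunction

namespace Vale.Agent.P352.BW

open Vale.Agent.P132 (ModData expB)
open UniformSpace (Completion)
open GF H246 H496 H755 H15

namespace JB

/-- differentiation of `t ↦ E t (ψ t)` for a strongly continuous family of contractions -/
theorem prod_der {H : Type*} [NormedAddCommGroup H] [InnerProductSpace ℂ H] (E : ℝ → H →L[ℂ] H)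
    (hn : ∀ t z, ‖E t z‖ ≤ ‖z‖) (hc : ∀ z, Continuous fun t => E t z) (h0 : E 0 = 1)
    {ψ : ℝ → H} {ψ' w : H} (hψ : HasDerivAt ψ ψ' 0)
    (hw : HasDerivAt (fun t => E t (ψ 0)) w 0) :
    HasDerivAt (fun t => E t (ψ t)) (w + ψ') 0 := by
  have h1 : HasDerivAt (fun t => E t (ψ t - ψ 0)) ψ' 0 := by
    rw [hasDerivAt_iff_tendsto_slope]
    have h2 := hasDerivAt_iff_tendsto_slope.1 hψ
    have h3 : Tendsto (fun t => E t (slope ψ 0 t)) (𝓝[≠] 0) (𝓝 ψ') := by
      rw [tendsto_iff_norm_sub_tendsto_zero]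
      have h4 : Tendsto (fun t => ‖slope ψ 0 t - ψ'‖ + ‖E t ψ' - ψ'‖) (𝓝[≠] 0) (𝓝 0) := by
        have h5 : Tendsto (fun t => ‖slope ψ 0 t - ψ'‖) (𝓝[≠] 0) (𝓝 0) :=
          tendsto_iff_norm_sub_tendsto_zero.1 h2
        have h6 : Tendsto (fun t => ‖E t ψ' - ψ'‖) (𝓝[≠] 0) (𝓝 0) := by
          have h7 : Tendsto (fun t => E t ψ') (𝓝[≠] 0) (𝓝 (E 0 ψ')) :=
            ((hc ψ').tendsto 0).mono_left nhdsWithin_le_nhds
          rw [h0] at h7
          exact tendsto_iff_norm_sub_tendsto_zero.1 h7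
        simpa using h5.add h6
      refine squeeze_zero (fun _ => norm_nonneg _) (fun t => ?_) h4
      have e : E t (slope ψ 0 t) - ψ' = E t (slope ψ 0 t - ψ') + (E t ψ' - ψ') := by
        rw [map_sub]; abel
      rw [e]
      exact (norm_add_le _ _).trans (add_le_add (hn _ _) le_rfl)
    refine h3.congr fun t => ?_
    simp only [slope_def_module, sub_self, map_zero, sub_zero,
      ContinuousLinearMap.map_smul_of_tower]
  have h8 := hw.add h1
  refine h8.congr_of_eventuallyEq (Eventually.of_forall fun t => ?_)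
  show E t (ψ t) = E t (ψ 0) + E t (ψ t - ψ 0)
  rw [← map_add]
  congr 1
  abel

variable {D : Type*} [NormedAddCommGroup D] [InnerProductSpace ℂ D]

theorem coe_der {f : ℝ → D} {v : D} {t : ℝ} (h : HasDerivAt f v t) :
    HasDerivAt (fun t => (f t : Completion D)) (v : Completion D) t :=
  (UniformSpace.Completion.toComplL (𝕜 := ℝ) (E := D)).hasFDerivAt.comp_hasDerivAt t h

theorem U_zero {H : Type*} [NormedAddCommGroup H] [InnerProductSpace ℂ H] [CompleteSpace H]
    {M : VonNeumannAlgebra H} {ξ : H} (E : ModData M ξ) : E.U 0 = 1 := by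
  have h1 := E.U_mul_U_neg 0
  have h2 := E.U_add 0 0
  rw [neg_zero] at h1
  rw [add_zero, h1] at h2
  exact h2

theorem norm_U {H : Type*} [NormedAddCommGroup H] [InnerProductSpace ℂ H] [CompleteSpace H]
    {M : VonNeumannAlgebra H} {ξ : H} (E : ModData M ξ) (t : ℝ) (z : H) : ‖E.U t z‖ = ‖z‖ := by
  have h := E.inner_U_U t z z
  rw [inner_self_eq_norm_sq_to_K, inner_self_eq_norm_sq_to_K] at h
  have h1 : ‖E.U t z‖ ^ 2 = ‖z‖ ^ 2 := by exact_mod_cast h
  exact (pow_left_inj₀ (norm_nonneg _) (norm_nonneg _) two_ne_zero).1 h1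

/-- the velocity field of the boosts -/
def bX (a b : V) : V → V := fun x => (2 * Real.pi * GF.mdot b x) • a -
  (2 * Real.pi * GF.mdot a x) • b

theorem bst_zero (a b : V) : bst a b 0 0 = GF.one := by
  funext m
  simp [bst, GF.one]

/-- the boosts, differentiated on `D` -/
theorem boost_der {Q : Theory D} {A : (V → V) → D → D} (R : Rep Q A) {a b : V} (ha : IsNull a)
    (hb : IsNull b) (hab : GF.mdot a b = 1) (v : D) :
    HasDerivAt (fun t : ℝ => Q.U 1 (bst a b (Real.exp (-(2 * Real.pi * (-t))) - 1)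
      (Real.exp (2 * Real.pi * (-t)) - 1)) 0 v) (Complex.I • A (bX a b) v) 0 := by
  refine R.der (fun _ => 1) (fun t => bst a b (Real.exp (-(2 * Real.pi * (-t))) - 1)
    (Real.exp (2 * Real.pi * (-t)) - 1)) (fun _ => 0) (bX a b) v rfl ?_ rfl ?_ ?_
  · show bst a b (Real.exp (-(2 * Real.pi * (-0))) - 1) (Real.exp (2 * Real.pi * (-0)) - 1) = GF.one
    rw [neg_zero, mul_zero, neg_zero, Real.exp_zero, sub_self, bst_zero]
  · intro e
    refine ⟨one_pos, isLor_bst ha hb hab ?_ ?_⟩
    · have := Real.exp_pos (-(2 * Real.pi * (-e)))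
      linarith
    · have e1 : 1 + (Real.exp (-(2 * Real.pi * (-e))) - 1) = Real.exp (-(2 * Real.pi * (-e))) := by
        ring
      have e2 : 1 + (Real.exp (2 * Real.pi * (-e)) - 1) = Real.exp (2 * Real.pi * (-e)) := by ring
      rw [e1, e2, ← Real.exp_add]
      simp
  · intro n x
    have e1 : (fun e : ℝ => sim 1 (bst a b (Real.exp (-(2 * Real.pi * (-e))) - 1)
        (Real.exp (2 * Real.pi * (-e)) - 1)) 0 x n) = fun e : ℝ => x n +
          (Real.exp (-(2 * Real.pi * (-e))) - 1) * GF.mdot b x * a n +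
          (Real.exp (2 * Real.pi * (-e)) - 1) * GF.mdot a x * b n := by
      funext e
      rw [sim_bst]
      simp only [Pi.add_apply, Pi.smul_apply, smul_eq_mul]
    rw [e1]
    have h1 : HasDerivAt (fun e : ℝ => Real.exp (-(2 * Real.pi * (-e)))) (2 * Real.pi) 0 := by
      have := ((((hasDerivAt_id (0 : ℝ)).neg).const_mul (2 * Real.pi)).neg).exp
      simpa using this
    have h2 : HasDerivAt (fun e : ℝ => Real.exp (2 * Real.pi * (-e))) (-(2 * Real.pi)) 0 := by
      have := (((hasDerivAt_id (0 : ℝ)).neg).const_mul (2 * Real.pi)).exp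
      simpa using this
    have h3 := ((((h1.sub_const 1).mul_const (GF.mdot b x)).mul_const (a n)).const_add (x n)).add
      (((h2.sub_const 1).mul_const (GF.mdot a x)).mul_const (b n))
    refine h3.congr_deriv ?_
    simp only [bX, Pi.sub_apply, Pi.smul_apply, smul_eq_mul]
    ring

theorem tau_der : HasDerivAt (fun c : ℝ => -(Real.log (1 - c)) / (2 * Real.pi))
    (1 / (2 * Real.pi)) 0 := by
  have h0 : HasDerivAt (fun c : ℝ => 1 - c) (-1) 0 := by
    simpa using (hasDerivAt_id (0 : ℝ)).const_sub 1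
  have h1 := (h0.log (by norm_num)).neg.div_const (2 * Real.pi)
  simpa using h1

/-- the derivative of the null deformations on `D` -/
theorem exists_gen {Q : Theory D} {A : (V → V) → D → D}
    {𝒜 : Set V → VonNeumannAlgebra (Completion D)} (hU : UStmt Q A) (hV : VNet Q A 𝒜) {a b : V}
    {S : ℝ → Completion D →L[ℂ] Completion D} (ha : IsNull a) (hb : IsNull b)
    (hab : GF.mdot a b = 1) (hN : Nd Q 𝒜 a b S) (E : ModData (𝒜 (Wdg a b 0)) (om Q))
    (E' : ModData (𝒜 (HM.Rg a b 1)) (om Q)) (v : D) :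
    ∃ g : D, HasDerivAt (fun c : ℝ => S c (v : Completion D))
      ((Complex.I • g : D) : Completion D) 0 := by
  have hs := hN.hs 1 E E' one_pos
  obtain ⟨w, hw⟩ := hV.reg a b E' v ha hb hab
  have hb0 := boost_der hV.toRep ha hb hab v
  set L : ℝ → Ix → V := fun t => bst a b (Real.exp (-(2 * Real.pi * (-t))) - 1)
      (Real.exp (2 * Real.pi * (-t)) - 1) with hL
  have hLor : ∀ t, IsLor (L t) := by
    intro e
    refine isLor_bst ha hb hab ?_ ?_
    · have := Real.exp_pos (-(2 * Real.pi * (-e)))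
      linarith
    · have e1 : 1 + (Real.exp (-(2 * Real.pi * (-e))) - 1) = Real.exp (-(2 * Real.pi * (-e))) := by
        ring
      have e2 : 1 + (Real.exp (2 * Real.pi * (-e)) - 1) = Real.exp (2 * Real.pi * (-e)) := by ring
      rw [e1, e2, ← Real.exp_add]
      simp
  have hEU : ∀ t : ℝ, E.U (-t) (v : Completion D) = (Q.U 1 (L t) 0 v : D) := by
    intro t
    rw [hV.bw a b (-t) (L t) E v ha hb hab (hLor t) (fun x => sim_bst a b _ _ x),
      hU.coe 1 (L t) 0 v one_pos (hLor t)]
  have hψ : HasDerivAt (fun t : ℝ => E.U (-t) (v : Completion D))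
      ((Complex.I • A (bX a b) v : D) : Completion D) 0 := by
    have h := coe_der hb0
    refine h.congr_of_eventuallyEq (Eventually.of_forall fun t => ?_)
    exact hEU t
  have hφ := prod_der (fun t => E'.U t) (fun t z => (norm_U E' t z).le)
    (fun z => E'.continuous_U_apply z) (U_zero E') (w := ((w : D) : Completion D)) hψ (by
      simp only [neg_zero, U_zero E]
      exact hw)
  have hφS : ∀ c : ℝ, c < 1 → S c (v : Completion D) =
      E'.U (-(Real.log (1 - c)) / (2 * Real.pi))
        (E.U (-(-(Real.log (1 - c)) / (2 * Real.pi))) (v : Completion D)) := by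
    intro c hc
    rw [hs.mod]
    have e1 : (1 : ℝ) * (1 - Real.exp (-(2 * Real.pi * (-(Real.log (1 - c)) / (2 * Real.pi))))) =
        c := by
      have e2 : -(2 * Real.pi * (-(Real.log (1 - c)) / (2 * Real.pi))) = Real.log (1 - c) := by
        field_simp
      rw [e2, Real.exp_log (by linarith)]
      ring
    rw [e1]
    show _ = S c (E.U _ (E.U _ _))
    rw [E.U_apply_neg]
  have h0 : -(Real.log (1 - (0 : ℝ))) / (2 * Real.pi) = 0 := by simp
  have hφ' : HasDerivAt (fun t : ℝ => E'.U t (E.U (-t) (v : Completion D)))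
      (((w : D) : Completion D) + ((Complex.I • A (bX a b) v : D) : Completion D))
      ((fun c : ℝ => -(Real.log (1 - c)) / (2 * Real.pi)) 0) := by
    show HasDerivAt _ _ (-(Real.log (1 - (0 : ℝ))) / (2 * Real.pi))
    rw [h0]
    exact hφ
  have h1 := hφ'.scomp (0 : ℝ) tau_der
  refine ⟨(-Complex.I) • ((1 / (2 * Real.pi) : ℝ) • (w + Complex.I • A (bX a b) v)), ?_⟩
  have e3 : (((Complex.I • ((-Complex.I) • ((1 / (2 * Real.pi) : ℝ) •
      (w + Complex.I • A (bX a b) v)))) : D) : Completion D) = (1 / (2 * Real.pi) : ℝ) •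
      (((w : D) : Completion D) + ((Complex.I • A (bX a b) v : D) : Completion D)) := by
    have e4 : Complex.I • ((-Complex.I) • ((1 / (2 * Real.pi) : ℝ) •
        (w + Complex.I • A (bX a b) v))) = (1 / (2 * Real.pi) : ℝ) •
        (w + Complex.I • A (bX a b) v) := by
      rw [smul_smul]
      simp
    rw [e4, UniformSpace.Completion.coe_smul, UniformSpace.Completion.coe_add]
  rw [e3]
  refine h1.congr_of_eventuallyEq ?_
  filter_upwards [Iio_mem_nhds (show (0 : ℝ) < 1 by norm_num)] with c hc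
  exact hφS c hc

end JB

variable {D : Type*} [NormedAddCommGroup D] [InnerProductSpace ℂ D]

theorem jblock {Q : Theory D} {A : (V → V) → D → D}
    {𝒜 : Set V → VonNeumannAlgebra (Completion D)}
    {S : V → V → ℝ → Completion D →L[ℂ] Completion D} (hU : UStmt Q A) : JStmt Q A 𝒜 S := by
  intro hV hN h3
  have key : ∀ (a : V) (v : D), ∃ g : D, ∀ b, IsNull a → IsNull b → GF.mdot a b = 1 →
      HasDerivAt (fun c : ℝ => S a b c (v : Completion D))
        ((Complex.I • g : D) : Completion D) 0 := by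
    intro a v
    by_cases hb : ∃ b, IsNull a ∧ IsNull b ∧ GF.mdot a b = 1
    · obtain ⟨b, ha, hb, hab⟩ := hb
      obtain ⟨hNd, ⟨E⟩, ⟨E'⟩⟩ := hN a b ha hb hab
      obtain ⟨g, hg⟩ := JB.exists_gen hU hV ha hb hab hNd E E' v
      refine ⟨g, fun b' _ hb' hab' => ?_⟩
      have e : (fun c : ℝ => S a b' c (v : Completion D)) =
          fun c : ℝ => S a b c (v : Completion D) := by
        funext c
        rw [h3.indep a b' b c ha hb' hb hab' hab]
      rw [e]
      exact hg
    · exact ⟨0, fun b h1 h2 h4 => absurd ⟨b, h1, h2, h4⟩ hb⟩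
  choose G hG using key
  exact ⟨G, fun a b v ha hb hab => hG a v b ha hb hab⟩

end Vale.Agent.P352.BW

end
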