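import Vale.Agent.P352.BW.Spec

/-!
# P352 BW: block K, `Δ_M^{1/2} = J_M J_N Δ_N^{1/2}` on the domain of `Δ_N^{1/2}`
-/

noncomputable section

open Filter Topology
open scoped ComplexConjugate InnerProductSpace BoundedContinuousFunction

namespace Vale.Agent.P352.BW

open Vale.Agent.P132 (ModData)

variable {H : Type*} [NormedAddCommGroup H] [InnerProductSpace ℂ H] [CompleteSpace H]
variable {M N : VonNeumannAlgebra H} {ξ : H}

theorem k_ez_half (k : ℝ →ᵇ ℂ) (hk : HasCompactSupport k) :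
    ez k hk (1 / 2) = ModData.gdE k hk := by
  ext h
  show Complex.exp (1 / 2 * (h : ℂ)) * k h = ((Real.exp (h / 2) : ℝ) : ℂ) * k h
  rw [Complex.ofReal_exp]
  congr 2
  push_cast
  ring

/-- block K -/
theorem kblock (DM : ModData M ξ) (DN : ModData N ξ) : KStmt DM DN := by
  intro hle F G k hk v hks hFG
  have hcl : IsClosed {v : H | DM.Th G (DM.J (DN.J (DN.Th (ez k hk (1 / 2)) v))) =
      DM.Th F (DN.Th k v)} := by
    refine isClosed_eq ?_ ?_
    · exact (DM.Th G).continuous.comp (DM.J.continuous.comp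
        (DN.J.continuous.comp (DN.Th (ez k hk (1 / 2))).continuous))
    · exact (DM.Th F).continuous.comp (DN.Th k).continuous
  have hsub : {ζ : H | ∃ a ∈ N, a ξ = ζ} ⊆ {v : H | DM.Th G (DM.J (DN.J
      (DN.Th (ez k hk (1 / 2)) v))) = DM.Th F (DN.Th k v)} := by
    rintro _ ⟨x, hx, rfl⟩
    obtain ⟨b, hb, hbx⟩ := DN.smooth_mem hx k hks hk
    have h1 : DN.J (star b ξ) = DN.Th (ModData.gdE k hk) (x ξ) := DN.gd_J_star hb k hk hbx
    show DM.Th G (DM.J (DN.J (DN.Th (ez k hk (1 / 2)) (x ξ)))) = DM.Th F (DN.Th k (x ξ))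
    rw [k_ez_half, ← h1, DN.J_J, ← hbx]
    exact DM.kms b (hle b hb) F G hFG
  exact closure_minimal hsub hcl (DN.cyc v)

end Vale.Agent.P352.BW

end
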