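import Vale.Agent.P352.BW.I1
import Vale.Agent.P352.BW.I2
import Vale.Agent.P352.NG.Loc1

/-!
# P352 BW: block LO, locality of the generators
-/

set_option linter.all false

noncomputable section

open MeasureTheory Filter Topology
open scoped ComplexConjugate InnerProductSpace

namespace Vale.Agent.P352.BW

open GF (Ix V Fn Fld Theory IsLor bas eta o sim bar)
open H246 H496 H755 H15
open Vale.Agent.P132 (ModData)
open UniformSpace (Completion)

variable {D : Type*} [NormedAddCommGroup D] [InnerProductSpace ℂ D]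

/-! ## geometry -/

lemma lo_null_smul {c : V} {r : ℝ} (hr : 0 < r) (hc : IsNull c) : IsNull (r • c) :=
  ⟨by rw [md_smul, md_smul_l, hc.1]; simp, mul_pos hr hc.2⟩

/-- wedges with edge in `a·z = 0` -/
lemma lo_wdg {a c y : V} (ha : IsNull a) (hac : 0 < GF.mdot a c) (hy : GF.mdot a y = 0) :
    Wdg a c y = Wdg a ((GF.mdot a c)⁻¹ • c) (GF.mdot ((GF.mdot a c)⁻¹ • c) y • a) ∧
    Wdg c a y = Wdg ((GF.mdot a c)⁻¹ • c) a (GF.mdot ((GF.mdot a c)⁻¹ • c) y • a) := by
  set r : ℝ := (GF.mdot a c)⁻¹ with hr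
  have hr0 : 0 < r := inv_pos.2 hac
  have hrc : r * GF.mdot c a = 1 := by
    rw [md_comm c a, hr]
    exact inv_mul_cancel₀ hac.ne'
  have e1 : ∀ x, GF.mdot a (x - y) = GF.mdot a x := fun x => by rw [md_sub, hy, sub_zero]
  have e2 : ∀ x, GF.mdot a (x - GF.mdot (r • c) y • a) = GF.mdot a x := fun x => by
    rw [md_sub, md_smul, ha.1, mul_zero, sub_zero]
  have e3 : ∀ x, GF.mdot (r • c) (x - GF.mdot (r • c) y • a) = r * GF.mdot c (x - y) := by
    intro x
    rw [md_sub, md_smul, md_sub]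
    simp only [md_smul_l]
    rw [hrc]
    ring
  constructor
  · ext x
    simp only [Wdg, Set.mem_setOf_eq, e1, e2, e3]
    exact and_congr_right fun _ => (mul_pos_iff_of_pos_left hr0).symm
  · ext x
    simp only [Wdg, Set.mem_setOf_eq, e1, e2, e3]
    refine and_congr_left fun _ => ?_
    constructor
    · intro h
      exact mul_neg_of_pos_of_neg hr0 h
    · intro h
      by_contra hn
      exact absurd h (not_lt.2 (mul_nonneg hr0.le (not_lt.1 hn)))

section

variable {Q : GF.Theory D} {A : (V → V) → D → D} {𝒜 : Set V → VonNeumannAlgebra (Completion D)}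
  {S : V → V → ℝ → Completion D →L[ℂ] Completion D} {G : V → D → D}

/-- elementary properties of the null deformations -/
lemma lo_S {a b : V} (hN : Nd Q 𝒜 a b (S a b)) (h1 : Nonempty (ModData (𝒜 (Wdg a b 0)) (om Q)))
    (h2 : Nonempty (ModData (𝒜 (HM.Rg a b 1)) (om Q))) :
    (∀ c z, S a b c (S a b (-c) z) = z) ∧ (∀ c z, S a b (-c) (S a b c z) = z) ∧
      (∀ c z w, ⟪S a b c z, S a b c w⟫_ℂ = ⟪z, w⟫_ℂ) ∧ ∀ z, S a b 0 z = z := by
  obtain ⟨E⟩ := h1
  obtain ⟨E'⟩ := h2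
  have h := hN.hs 1 E E' one_pos
  have z0 : S a b 0 = 1 := by have := h.zero; simpa using this
  have ad : ∀ c c', S a b (c + c') = S a b c * S a b c' := fun c c' => by
    have := h.add c c'
    simpa using this
  have st : ∀ c, star (S a b c) = S a b (-c) := fun c => by
    have := h.star c
    simpa using this
  have i1 : ∀ c z, S a b c (S a b (-c) z) = z := fun c z => by
    have : (S a b c * S a b (-c)) z = z := by rw [← ad, add_neg_cancel, z0]; rfl
    exact this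
  have i2 : ∀ c z, S a b (-c) (S a b c z) = z := fun c z => by
    have : (S a b (-c) * S a b c) z = z := by rw [← ad, neg_add_cancel, z0]; rfl
    exact this
  refine ⟨i1, i2, fun c z w => ?_, fun z => by rw [z0]; rfl⟩
  have := ContinuousLinearMap.adjoint_inner_left (S a b c) w (S a b c z)
  rw [← this, ← ContinuousLinearMap.star_eq_adjoint, st, i2]

variable (hN : ∀ a b, IsNull a → IsNull b → GF.mdot a b = 1 → Nd Q 𝒜 a b (S a b) ∧
    Nonempty (ModData (𝒜 (Wdg a b 0)) (om Q)) ∧ Nonempty (ModData (𝒜 (HM.Rg a b 1)) (om Q)))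
  (h : VNet Q A 𝒜) (hk : NF.KS Q A G)
  (hinv : ∀ a b, IsNull a → IsNull b → GF.mdot a b = 1 → ∀ c : ℝ, 0 ≤ c →
    ∀ X ∈ 𝒜 (Wdg a b 0), ∃ Y ∈ 𝒜 (Wdg a b 0), Y * S a b c = S a b c * X)
  (hder : ∀ a b (v : D), IsNull a → IsNull b → GF.mdot a b = 1 →
    HasDerivAt (fun c : ℝ => S a b c (v : Completion D)) ((Complex.I • G a v : D) : Completion D) 0)
include hN h hk hinv hder

/-- the commutator with a field of the wedge `Wdg a b 0` is affiliated to its algebra -/
lemma lo_aff1 {a b : V} (ha : IsNull a) (hb : IsNull b) (hab : GF.mdot a b = 1) {φ : GF.Fld D}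
    (hφ : Q.fld φ) {f : Fn} (hf : In (Wdg a b 0) f) :
    Aff (𝒜 (Wdg a b 0)) (fun v => G a (φ f v) - φ f (G a v)) := by
  obtain ⟨n1, n2, n3⟩ := hN a b ha hb hab
  obtain ⟨i1, i2, i3, i4⟩ := lo_S n1 n2 n3
  have hA := h.fld _ φ f hφ hf
  obtain ⟨X', hX', -⟩ := id hA
  refine i2_core _ (S a b) (G a) (φ f) X' 1 one_ne_zero i3 i4 ?_ (fun v => hder a b v ha hb hab)
    hX' (fun v w => hk.symm a v w ha) hA
  intro c hc Y hY
  have hS : ∀ z, S a b c (S a b (-c) z) = z := i1 c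
  refine ⟨S a b (-c) * Y * S a b c, ?_, ?_⟩
  · rw [VonNeumannAlgebra.mem_commutant_iff]
    intro X hX
    obtain ⟨Z, hZ, hZe⟩ := hinv a b ha hb hab c hc X hX
    have hZY := (VonNeumannAlgebra.mem_commutant_iff.1 hY) Z hZ
    have k1 : ∀ z, Z (S a b c z) = S a b c (X z) := fun z => congrArg (fun T => T z) hZe
    have k2 : ∀ z, Z (Y z) = Y (Z z) := fun z => congrArg (fun T => T z) hZY
    ext z
    show X (S a b (-c) (Y (S a b c z))) = S a b (-c) (Y (S a b c (X z)))
    have k3 : X (S a b (-c) (Y (S a b c z))) =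
        S a b (-c) (S a b c (X (S a b (-c) (Y (S a b c z))))) := (i2 c _).symm
    rw [k3, ← k1, i1, k2, k1]
  · intro z
    rw [one_mul]
    show S a b c (S a b (-c) (Y (S a b c z))) = _
    rw [i1]

/-- the commutator with a field of the wedge `Wdg b a 0` is affiliated to its algebra -/
lemma lo_aff2 {a b : V} (ha : IsNull a) (hb : IsNull b) (hab : GF.mdot a b = 1) {φ : GF.Fld D}
    (hφ : Q.fld φ) {f : Fn} (hf : In (Wdg b a 0) f) :
    Aff (𝒜 (Wdg b a 0)) (fun v => G a (φ f v) - φ f (G a v)) := by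
  obtain ⟨n1, n2, n3⟩ := hN a b ha hb hab
  obtain ⟨i1, i2, i3, i4⟩ := lo_S n1 n2 n3
  have hA := h.fld _ φ f hφ hf
  obtain ⟨X', hX', -⟩ := id hA
  have hd := h.dual a b
  -- the commutant of the algebra of the opposite wedge
  have hcc : ∀ Y, Y ∈ (𝒜 (Wdg b a 0)).commutant → Y ∈ 𝒜 (Wdg a b 0) := by
    intro Y hY
    have hY2 : Y ∈ (𝒜 (Wdg a b 0)).commutant.commutant := by
      rw [VonNeumannAlgebra.mem_commutant_iff]
      intro X hX
      exact (VonNeumannAlgebra.mem_commutant_iff.1 hY) X ((hd X ha hb hab).2 hX)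
    rwa [VonNeumannAlgebra.commutant_commutant] at hY2
  have hcc' : ∀ Y, Y ∈ 𝒜 (Wdg a b 0) → Y ∈ (𝒜 (Wdg b a 0)).commutant := by
    intro Y hY
    rw [VonNeumannAlgebra.mem_commutant_iff]
    intro X hX
    exact ((VonNeumannAlgebra.mem_commutant_iff.1 ((hd X ha hb hab).1 hX)) Y hY).symm
  refine i2_core _ (S a b) (G a) (φ f) X' (-1) (by norm_num) i3 i4 ?_
    (fun v => hder a b v ha hb hab) hX' (fun v w => hk.symm a v w ha) hA
  intro c hc Y hY
  obtain ⟨Z, hZ, hZe⟩ := hinv a b ha hb hab c hc Y (hcc Y hY)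
  refine ⟨Z, hcc' Z hZ, fun z => ?_⟩
  have k1 : ∀ z, Z (S a b c z) = S a b c (Y z) := fun z => congrArg (fun T => T z) hZe
  rw [neg_one_mul]
  have k2 : Z z = S a b c (Y (S a b (-c) z)) := by rw [← k1, i1]
  rw [k2, i2]

/-- both orientations, `y = 0` -/
lemma lo_both {a b : V} (ha : IsNull a) (hb : IsNull b) (hab : GF.mdot a b = 1) {φ B : GF.Fld D}
    (hφ : Q.fld φ) (hB : Q.fld B) {f g : Fn}
    (hs : (In (Wdg a b 0) f ∧ In (Wdg b a 0) g) ∨ (In (Wdg b a 0) f ∧ In (Wdg a b 0) g))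
    (u : D) : G a (φ f (B g u)) - φ f (G a (B g u)) = B g (G a (φ f u) - φ f (G a u)) := by
  have hd := fun Y => h.dual a b Y ha hb hab
  rcases hs with ⟨hf, hg⟩ | ⟨hf, hg⟩
  · exact i1 _ _ _ _ hd (lo_aff1 hN h hk hinv hder ha hb hab hφ hf) (h.fld _ B g hB hg) u
  · exact (i1 _ _ _ _ hd (h.fld _ B g hB hg)
      (lo_aff2 hN h hk hinv hder ha hb hab hφ hf) u).symm

omit hN h hk hinv in
/-- the generators commute with the translations along `a` -/
lemma lo_trans (hU : UStmt Q A) (h3 : G3Stmt Q S) {a b : V} (ha : IsNull a) (hb : IsNull b)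
    (hab : GF.mdot a b = 1) (r : ℝ) (v : D) :
    G a (Q.U 1 GF.one (r • a) v) = Q.U 1 GF.one (r • a) (G a v) := by
  obtain ⟨W, hW⟩ := hU.lin 1 GF.one (r • a) one_pos isLor_one
  have hc : ∀ v : D, W (v : Completion D) = (Q.U 1 GF.one (r • a) v : D) := fun v => by
    rw [hW, hU.coe 1 GF.one (r • a) v one_pos isLor_one]
  have d1 := hder a b (Q.U 1 GF.one (r • a) v) ha hb hab
  have d2 := ((W.toContinuousLinearEquiv.toContinuousLinearMap :
    Completion D →L[ℂ] Completion D).restrictScalars ℝ).hasFDerivAt.comp_hasDerivAt (0 : ℝ)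
      (hder a b v ha hb hab)
  have e : (fun c : ℝ => S a b c ((Q.U 1 GF.one (r • a) v : D) : Completion D)) =
      fun c : ℝ => W (S a b c (v : Completion D)) := by
    funext c
    rw [hW, h3.trans a b r c _ ha hb hab, hU.coe 1 GF.one (r • a) v one_pos isLor_one]
  rw [e] at d1
  have k := d1.unique d2
  have k2 : ((Complex.I • G a (Q.U 1 GF.one (r • a) v) : D) : Completion D) =
      ((Q.U 1 GF.one (r • a) (Complex.I • G a v) : D) : Completion D) := by
    rw [k, ← hc]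
    rfl
  have k3 := Completion.coe_injective D k2
  have hsm : Q.U 1 GF.one (r • a) (Complex.I • G a v) =
      Complex.I • Q.U 1 GF.one (r • a) (G a v) := by
    refine ext_inner_right ℂ fun w => ?_
    rw [H834.nl_move, inner_smul_left, inner_smul_left, H834.nl_move]
  rw [hsm] at k3
  exact smul_right_injective _ Complex.I_ne_zero k3

end

/-- **block LO** -/
theorem loblock {Q : GF.Theory D} {A : (V → V) → D → D}
    {𝒜 : Set V → VonNeumannAlgebra (Completion D)}
    {S : V → V → ℝ → Completion D →L[ℂ] Completion D} {G : V → D → D}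
    (hU : UStmt Q A)
    (hN : ∀ a b, IsNull a → IsNull b → GF.mdot a b = 1 → Nd Q 𝒜 a b (S a b) ∧
      Nonempty (ModData (𝒜 (Wdg a b 0)) (om Q)) ∧
      Nonempty (ModData (𝒜 (HM.Rg a b 1)) (om Q))) : LOStmt Q A 𝒜 S G := by
  intro h hk h3 hinv hder φ hφ B a c y f g u hB ha hc hac hy hs
  -- normalization
  set b : V := (GF.mdot a c)⁻¹ • c with hb'
  have hb : IsNull b := lo_null_smul (inv_pos.2 hac) hc
  have hab : GF.mdot a b = 1 := by
    rw [hb', md_smul]
    exact inv_mul_cancel₀ hac.ne'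
  obtain ⟨hW1, hW2⟩ := lo_wdg ha hac hy
  rw [← hb'] at hW1 hW2
  rw [hW1, hW2] at hs
  set x : V := GF.mdot b y • a with hx
  have hf : GF.IsTest f := by rcases hs with hs | hs; exacts [hs.1.1, hs.1.1]
  have hg : GF.IsTest g := by rcases hs with hs | hs; exacts [hs.2.1, hs.2.1]
  obtain ⟨w, rfl⟩ : ∃ w, u = Q.U 1 GF.one x w := ⟨Q.U 1 GF.one (-x) u, (H834.nl_UU x u).symm⟩
  set f1 : Fn := fun z => f (sim 1 GF.one x z) with hf1
  set g1 : Fn := fun z => g (sim 1 GF.one x z) with hg1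
  have hs1 : (In (Wdg a b 0) f1 ∧ In (Wdg b a 0) g1) ∨ (In (Wdg b a 0) f1 ∧ In (Wdg a b 0) g1) := by
    have e : ∀ {a b z : V}, z + x ∈ Wdg a b x → z ∈ Wdg a b 0 := fun {a b z} hz => by
      have := ND.wdg_tr hz
      rwa [sub_self] at this
    rcases hs with ⟨h1, h2⟩ | ⟨h1, h2⟩
    · exact Or.inl ⟨ND.in_tr x h1 fun z => e, ND.in_tr x h2 fun z => e⟩
    · exact Or.inr ⟨ND.in_tr x h1 fun z => e, ND.in_tr x h2 fun z => e⟩
  have eφ : ∀ w : D, φ f (Q.U 1 GF.one x w) = Q.U 1 GF.one x (φ f1 w) :=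
    fun w => Q.transl φ x f w hφ hf
  have eB : ∀ w : D, B g (Q.U 1 GF.one x w) = Q.U 1 GF.one x (B g1 w) :=
    fun w => Q.transl B x g w hB hg
  have eG : ∀ w : D, G a (Q.U 1 GF.one x w) = Q.U 1 GF.one x (G a w) := fun w =>
    lo_trans hder hU h3 ha hb hab _ w
  have hUs : ∀ u w : D, Q.U 1 GF.one x (u - w) = Q.U 1 GF.one x u - Q.U 1 GF.one x w :=
    fun u w => H834.nl_sub x u w
  have k := lo_both hN h hk hinv hder ha hb hab hφ hB hs1 w
  simp only [eB, eφ, eG, ← hUs]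
  rw [k]

end Vale.Agent.P352.BW

end
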