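import Vale.Agent.P352.BW.Spec

/-! # P352 BW, block R: the boundary relations -/

set_option linter.all false

noncomputable section

open MeasureTheory Filter Topology
open scoped ComplexConjugate InnerProductSpace BoundedContinuousFunction

namespace Vale.Agent.P352.BW

open Vale.Agent.P132 (ModData expB reflB jconj)

namespace RB

variable {H : Type*} [NormedAddCommGroup H] [InnerProductSpace ℂ H] [CompleteSpace H]
variable {M N : VonNeumannAlgebra H} {ξ : H}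

theorem swap {a y : H →L[ℂ] H} (ha : a ∈ N) (hy : y ∈ N.commutant) :
    ⟪y ξ, a ξ⟫_ℂ = ⟪star a ξ, star y ξ⟫_ℂ := by
  have h1 : ⟪star a ξ, star y ξ⟫_ℂ = ⟪y (star a ξ), ξ⟫_ℂ := by
    rw [ContinuousLinearMap.star_eq_adjoint y, ContinuousLinearMap.adjoint_inner_right]
  have h2 : star a (y ξ) = y (star a ξ) := ModData.comm_apply (star_mem ha) hy ξ
  rw [h1, ← h2, ContinuousLinearMap.star_eq_adjoint, ContinuousLinearMap.adjoint_inner_left]

variable (D : ModData N ξ)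

theorem inner_U_neg (s : ℝ) (u v : H) : ⟪D.U (-s) u, v⟫_ℂ = ⟪u, D.U s v⟫_ℂ := by
  rw [← D.star_U, ContinuousLinearMap.star_eq_adjoint, ContinuousLinearMap.adjoint_inner_left]

include D in
theorem ext_dense {u w : H} (h : ∀ a ∈ N, ⟪u, a ξ⟫_ℂ = ⟪w, a ξ⟫_ℂ) : u = w := by
  have key : {ζ : H | ∃ a ∈ N, a ξ = ζ} ⊆ {v : H | ⟪u - w, v⟫_ℂ = 0} := by
    rintro _ ⟨a, ha, rfl⟩
    show ⟪u - w, a ξ⟫_ℂ = 0
    rw [inner_sub_left, h a ha, sub_self]
  have hcl : IsClosed {v : H | ⟪u - w, v⟫_ℂ = 0} := isClosed_eq (by fun_prop) continuous_const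
  have h2 : ⟪u - w, u - w⟫_ℂ = 0 := closure_minimal key hcl (D.cyc (u - w))
  exact sub_eq_zero.1 (inner_self_eq_zero.1 h2)

variable {χ : ℝ →ᵇ ℂ} (hχ : HasCompactSupport χ) (hE : Evn χ)

include hE

theorem star_chi : star χ = χ := by
  ext x
  simp only [BoundedContinuousFunction.star_apply, RCLike.star_def, hE.real]

theorem refl_chi : reflB χ = χ := by
  ext x
  rw [Vale.Agent.P132.reflB_apply, hE.even, hE.real]

theorem inner_chi (u v : H) : ⟪D.Th χ u, v⟫_ℂ = ⟪u, D.Th χ v⟫_ℂ := by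
  rw [D.gd_inner_Th, star_chi hE]

include hχ

/-- smoothing of `x` and of its adjoint -/
theorem smooth {x : H →L[ℂ] H} (hx : x ∈ N) :
    ∃ x' ∈ N, x' ξ = D.Th χ (x ξ) ∧ star x' ξ = D.Th χ (star x ξ) ∧
      D.Th (ez χ hχ (1 / 2)) (x ξ) = D.J (star x' ξ) ∧
      D.Th (ez χ hχ (1 / 2)) (star x ξ) = D.J (x' ξ) := by
  obtain ⟨x', hx', e⟩ := D.smooth_mem hx χ hE.smooth hχ
  have h2 : star x' ξ = D.Th χ (star x ξ) := by
    apply D.J.injective
    rw [D.gd_J_star hx' χ hχ e, D.J_Th, refl_chi hE, D.kms x hx (ModData.gdE χ hχ) χ (fun h => rfl)]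
  have h3 : D.Th (ez χ hχ (1 / 2)) = D.Th (ModData.gdE χ hχ) := by
    apply D.gd_Th_congr
    intro h
    show Complex.exp (1 / 2 * (h : ℂ)) * χ h = ((Real.exp (h / 2) : ℝ) : ℂ) * χ h
    rw [Complex.ofReal_exp]
    congr 2
    push_cast
    ring
  refine ⟨x', hx', e, h2, ?_, ?_⟩
  · rw [h3, D.gd_J_star hx' χ hχ e]
  · have h4 := D.gd_J_star (x := star x) (star_mem hx') χ hχ h2
    rw [star_star] at h4
    rw [h3, h4]

/-- `Δ^{-1/2} y ξ = J y* ξ` for `y` in the commutant -/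
theorem kms' {y : H →L[ℂ] H} (hy : y ∈ N.commutant) :
    D.Th (ez χ hχ (-(1 / 2))) (y ξ) = D.Th χ (D.J (star y ξ)) := by
  apply ext_dense D
  intro a ha
  have hFc : HasCompactSupport (ez χ hχ (-(1 / 2))) := hχ.mul_left
  have hFs : ContDiff ℝ (⊤ : ℕ∞) (ez χ hχ (-(1 / 2))) := by
    show ContDiff ℝ (⊤ : ℕ∞) (fun h : ℝ => Complex.exp (-(1 / 2) * (h : ℂ)) * χ h)
    exact ((contDiff_const.mul Complex.ofRealCLM.contDiff).cexp).mul hE.smooth
  have hFr : star (ez χ hχ (-(1 / 2))) = ez χ hχ (-(1 / 2)) := by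
    ext h
    show conj (Complex.exp (-(1 / 2) * (h : ℂ)) * χ h) = Complex.exp (-(1 / 2) * (h : ℂ)) * χ h
    rw [map_mul, hE.real, ← Complex.exp_conj]
    congr 2
    simp [map_ofNat]
  obtain ⟨a', ha', e⟩ := D.smooth_mem ha _ hFs hFc
  have h1 := D.gd_J_star ha' _ hFc e
  have h2 : D.Th (ModData.gdE (ez χ hχ (-(1 / 2))) hFc) = D.Th χ := by
    apply D.gd_Th_congr
    intro h
    show ((Real.exp (h / 2) : ℝ) : ℂ) * (Complex.exp (-(1 / 2) * (h : ℂ)) * χ h) = χ h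
    rw [← mul_assoc, Complex.ofReal_exp, ← Complex.exp_add]
    have : ((h / 2 : ℝ) : ℂ) + -(1 / 2) * (h : ℂ) = 0 := by push_cast; ring
    rw [this, Complex.exp_zero, one_mul]
  rw [h2] at h1
  rw [D.gd_inner_Th, hFr, ← e, swap ha' hy, inner_chi D hE, ← h1, D.inner_J_J]

theorem low_aux {b y : H →L[ℂ] H} (hb : b ∈ N) (hy : y ∈ N.commutant) :
    ⟪D.Th χ (y ξ), b ξ⟫_ℂ = conj ⟪D.Th χ (star y ξ), star b ξ⟫_ℂ := by
  obtain ⟨b', hb', e1, e2, -, -⟩ := smooth D hχ hE hb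
  rw [inner_chi D hE, ← e1, swap hb' hy, e2, inner_chi D hE, inner_conj_symm]

theorem up_aux {b y : H →L[ℂ] H} (hb : b ∈ N.commutant) (hy : y ∈ N.commutant) :
    ⟪D.Th (ez χ hχ (-(1 / 2))) (y ξ), b ξ⟫_ℂ =
      conj ⟪D.Th (ez χ hχ (-(1 / 2))) (star y ξ), star b ξ⟫_ℂ := by
  have hFr : star (ez χ hχ (-(1 / 2))) = ez χ hχ (-(1 / 2)) := by
    ext h
    show conj (Complex.exp (-(1 / 2) * (h : ℂ)) * χ h) = Complex.exp (-(1 / 2) * (h : ℂ)) * χ h
    rw [map_mul, hE.real, ← Complex.exp_conj]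
    congr 2
    simp [map_ofNat]
  rw [inner_conj_symm, kms' D hχ hE (star_mem hy), star_star, D.gd_inner_Th, hFr,
    kms' D hχ hE hb, ← inner_chi D hE, D.inner_J_right, D.J_Th, refl_chi hE, ← inner_chi D hE]

end RB

variable {H : Type*} [NormedAddCommGroup H] [InnerProductSpace ℂ H] [CompleteSpace H]
variable {M N : VonNeumannAlgebra H} {ξ : H}

/-- block R -/
theorem rblock {DM : ModData M ξ} {DN : ModData N ξ} {χ : ℝ →ᵇ ℂ} (hχ : HasCompactSupport χ)
    (hs : Hsm DM DN) (hE : Evn χ) (c2 : ∀ u v, C2Stmt DM DN χ hχ u v) : RStmt DM DN χ hχ := by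
  have hMN : ∀ y ∈ M.commutant, y ∈ N.commutant := by
    intro y hy
    rw [VonNeumannAlgebra.mem_commutant_iff] at hy ⊢
    exact fun g hg => hy g (hs.le g hg)
  have hpos : ∀ t : ℝ, 0 ≤ t → ∀ c ∈ N.commutant, DM.sg t c ∈ N.commutant := by
    intro t ht c hc
    rw [VonNeumannAlgebra.mem_commutant_iff]
    intro g hg
    have h1 := VonNeumannAlgebra.mem_commutant_iff.1 hc _ (hs.mod (-t) (by linarith) g hg)
    have h2 := congrArg (DM.sg t) h1
    rw [DM.sg_mul, DM.sg_mul, ← DM.sg_add_left, add_neg_cancel, DM.sg_zero] at h2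
    exact h2
  refine ⟨fun x hx y hy s => ?_, fun x hx y hy s hs0 => ?_⟩
  · obtain ⟨x', hx', e1, e2, -, -⟩ := RB.smooth DN hχ hE hx
    rw [(c2 _ _).low, (c2 _ _).low, ← e1, ← e2]
    set t : ℝ := tc (Real.exp (2 * Real.pi * s)) with ht
    have ht0 : t ≤ 0 := by
      rw [ht]
      unfold tc
      have h1 : 0 ≤ Real.log (1 + Real.exp (2 * Real.pi * s)) :=
        Real.log_nonneg (by have := Real.exp_pos (2 * Real.pi * s); linarith)
      rw [neg_div]
      have := div_nonneg h1 (show 0 ≤ 2 * Real.pi by positivity)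
      linarith
    have hb : DN.sg s (DM.sg t (DN.sg (-t) (DN.sg (-s) x'))) ∈ N :=
      DN.sg_mem (hs.mod t ht0 _ (DN.sg_mem (DN.sg_mem hx' _) _)) _
    have h1 := RB.low_aux DN hχ hE hb hy
    rw [DN.star_sg, DM.star_sg, DN.star_sg, DN.star_sg] at h1
    simp only [ModData.sg_xi] at h1
    rw [RB.inner_U_neg, RB.inner_U_neg]
    exact h1
  · obtain ⟨x', hx', e1, e2, e3, e4⟩ := RB.smooth DN hχ hE hx
    rcases lt_or_gt_of_ne hs0 with h0 | h0
    · rw [(c2 _ _).upl s _ h0 rfl, (c2 _ _).upl s _ h0 rfl, e3, e4]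
      set t : ℝ := -(Real.log (1 - Real.exp (2 * Real.pi * s))) / (2 * Real.pi) with ht
      have ht0 : 0 ≤ t := by
        rw [ht]
        have h1 : Real.exp (2 * Real.pi * s) < 1 := by
          rw [← Real.exp_zero]
          exact Real.exp_lt_exp.2 (mul_neg_of_pos_of_neg (by positivity) h0)
        have h2 := Real.exp_pos (2 * Real.pi * s)
        have h3 : Real.log (1 - Real.exp (2 * Real.pi * s)) ≤ 0 :=
          Real.log_nonpos (by linarith) (by linarith)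
        exact div_nonneg (by linarith) (by positivity)
      have hb0 : jconj DN.J (star x') ∈ N.commutant := DN.J_mem _ (star_mem hx')
      have hb : DN.sg s (DM.sg t (DN.sg (-t) (DN.sg (-s) (jconj DN.J (star x'))))) ∈
          N.commutant :=
        DN.sg_mem_commutant (hpos t ht0 _
          (DN.sg_mem_commutant (DN.sg_mem_commutant hb0 _) _)) _
      have h1 := RB.up_aux DN hχ hE hb hy
      rw [DN.star_sg, DM.star_sg, DN.star_sg, DN.star_sg, DN.star_jconj, star_star] at h1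
      simp only [ModData.sg_xi, Vale.Agent.P132.jconj_apply, DN.J_xi] at h1
      rw [RB.inner_U_neg, RB.inner_U_neg]
      exact h1
    · rw [(c2 _ _).upr s _ h0 rfl, (c2 _ _).upr s _ h0 rfl, e3, e4]
      set t : ℝ := -(Real.log (Real.exp (2 * Real.pi * s) - 1)) / (2 * Real.pi) with ht
      rw [← DN.J_U, DN.J_J, ← DN.J_U, DN.J_J]
      have hx1 : DN.sg (-(t + s)) (star x') ∈ M := hs.le _ (DN.sg_mem (star_mem hx') _)
      have hb : DN.sg s (DM.sg t (jconj DM.J (DN.sg (-(t + s)) (star x')))) ∈ N.commutant :=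
        DN.sg_mem_commutant (hMN _ (DM.sg_mem_commutant (DM.J_mem _ hx1) _)) _
      have h1 := RB.up_aux DN hχ hE hb hy
      rw [DN.star_sg, DM.star_sg, DM.star_jconj, DN.star_sg, star_star] at h1
      simp only [ModData.sg_xi, Vale.Agent.P132.jconj_apply, DM.J_xi] at h1
      rw [RB.inner_U_neg, RB.inner_U_neg]
      exact h1

end Vale.Agent.P352.BW

end
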