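import Vale.Agent.P352.BW.Fin0
import Vale.Agent.P352.BW.A
import Vale.Agent.P352.BW.B
import Vale.Agent.P352.BW.K
import Vale.Agent.P352.BW.C
import Vale.Agent.P352.BW.C2
import Vale.Agent.P352.BW.R
import Vale.Agent.P352.BW.D
import Vale.Agent.P352.BW.E
import Vale.Agent.P352.BW.F
import Vale.Agent.P352.BW.I1
import Vale.Agent.P352.BW.I2
import Vale.Agent.P352.BW.U
import Vale.Agent.P352.BW.G1
import Vale.Agent.P352.BW.G2
import Vale.Agent.P352.BW.J
import Vale.Agent.P352.BW.KS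
import Vale.Agent.P352.BW.LO

/-!
# P352 BW: the blocks
-/

set_option linter.all false

noncomputable section

open MeasureTheory Filter Topology

namespace Vale.Agent.P352.BW

open GF H246 H496 H755 H15
open UniformSpace (Completion)
open Vale.Agent.P132 (ModData)

section abstract

variable {H : Type*} [NormedAddCommGroup H] [InnerProductSpace ℂ H] [CompleteSpace H]
variable {M N : VonNeumannAlgebra H} {ξ : H}

/-- block D -/
theorem dS (DM : ModData M ξ) (DN : ModData N ξ) : DStmt DM DN := fun hs =>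
  dblock ablock DM DN (cblock DM DN (bblock DM) (bblock DN))
    (fun χ hχ u v hE => c2block (kblock DM DN) (bblock DM) hs.le hχ hE u v)
    (fun hs χ hχ hE => rblock hχ hs hE fun u v =>
      c2block (kblock DM DN) (bblock DM) hs.le hχ hE u v) hs

/-- block F: half-sided modular inclusions -/
theorem fS (DM : ModData M ξ) (DN : ModData N ξ) : FStmt DM DN := fblock DM DN (dS DM DN)

end abstract

variable {D : Type*} [NormedAddCommGroup D] [InnerProductSpace ℂ D]
variable {Q : Theory D} {T : Ix → Ix → Fld D} {J : Ix → Fld D} {A : (V → V) → D → D}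
  {𝒜 : Set V → VonNeumannAlgebra (Completion D)}

/-- block G1 -/
theorem g1S : G1Stmt Q A 𝒜 := g1 eblock fun _ _ _ DM DN => fS DM DN

/-- **The null generators** of a net with the property of Bisognano and Wichmann. -/
theorem null_bw' (N : VNet Q A 𝒜) (h3 : ∀ S, G3Block Q A 𝒜 S) (hT : Q.IsStress T)
    (hJ : IsVirial Q T J) :
    ∃ (S : V → V → ℝ → Completion D →L[ℂ] Completion D) (G : V → D → D),
      (∀ a b, IsNull a → IsNull b → GF.mdot a b = 1 → Nd Q 𝒜 a b (S a b) ∧
        Nonempty (ModData (𝒜 (Wdg a b 0)) (om Q)) ∧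
        ∀ c : ℝ, 0 < c → Nonempty (ModData (𝒜 (HM.Rg a b c)) (om Q))) ∧
      G3Stmt Q S ∧
      (∀ a b (v : D), IsNull a → IsNull b → GF.mdot a b = 1 →
        HasDerivAt (fun c : ℝ => S a b c (v : Completion D))
          ((Complex.I • G a v : D) : Completion D) 0) ∧ NG.NullGen Q T J A G := by
  have hU : UStmt Q A := ublock N.toRep
  obtain ⟨S, hS⟩ := (g1S (A := A)) N
  have hN : ∀ a b, IsNull a → IsNull b → GF.mdot a b = 1 → Nd Q 𝒜 a b (S a b) ∧
      Nonempty (ModData (𝒜 (Wdg a b 0)) (om Q)) ∧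
      ∀ c : ℝ, 0 < c → Nonempty (ModData (𝒜 (HM.Rg a b c)) (om Q)) := fun a b ha hb hab =>
    ⟨(hS a b ha hb hab).1, (hS a b ha hb hab).2.1, (hS a b ha hb hab).2.2.1⟩
  have hN1 : ∀ a b, IsNull a → IsNull b → GF.mdot a b = 1 → Nd Q 𝒜 a b (S a b) ∧
      Nonempty (ModData (𝒜 (Wdg a b 0)) (om Q)) ∧
      Nonempty (ModData (𝒜 (HM.Rg a b 1)) (om Q)) := fun a b ha hb hab =>
    ⟨(hS a b ha hb hab).1, (hS a b ha hb hab).2.1, (hS a b ha hb hab).2.2.1 1 one_pos⟩
  have hG3 : G3Stmt Q S := h3 S N hN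
  obtain ⟨G, hG⟩ := jblock (S := S) hU N hN1 hG3
  have hG2 : G2Stmt Q A 𝒜 S := g2 eblock hU (fun a b ha hb hab => (hN a b ha hb hab).2) S
  have hKS : NF.KS Q A G := ksblock (S := S) hU hN1 N hG2 hG3
    (fun a b ha hb hab => (hN a b ha hb hab).1) hG
  have hLO : ∀ φ : Fld D, Q.fld φ → NG.LocG Q G φ := loblock hU hN1 N hKS hG3
    (fun a b ha hb hab => (hS a b ha hb hab).2.2.2) hG
  exact ⟨S, G, hN, hG3, hG, ⟨hKS, fun m n => hLO _ (Q.bose_fld _ (hT.bose m n)),
    fun m => hLO _ (Q.bose_fld _ (hJ.bose m))⟩⟩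

end Vale.Agent.P352.BW

end
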