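import Vale.Agent.P352.BW.B

/-!
# P352 BW: the modular objects of Tomita-Takesaki theory satisfy `IsMod`
-/

set_option linter.all false

noncomputable section

open MeasureTheory Filter Topology
open scoped ComplexConjugate InnerProductSpace BoundedContinuousFunction

namespace Vale.Agent.P352.BW

open Vale.Agent.P132 (ModData expB)

variable {H : Type*} [NormedAddCommGroup H] [InnerProductSpace ℂ H] [CompleteSpace H]
variable {M : VonNeumannAlgebra H} {ξ : H}

/-- the modular objects -/
theorem isMod (E : ModData M ξ) : IsMod M ξ (fun t x => E.U t x) (fun x => E.J x) := by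
  have B : BStmt E := bblock E
  have hat : ∀ t h : ℝ, Real.exp (h / 2) * At (t : ℂ) h = (expB t - At (t : ℂ)) h := by
    intro t h
    have h1 := B.at_apply (t : ℂ) h (by norm_num) (by simp)
    rw [BoundedContinuousFunction.coe_sub, Pi.sub_apply, h1, Vale.Agent.P132.expB_apply]
    have h2 : ((1 + Real.exp (h / 2) : ℝ) : ℂ) ≠ 0 := Complex.ofReal_ne_zero.2 (by positivity)
    field_simp
    push_cast
    ring_nf
  have hat2 : ∀ t : ℝ, At ((t : ℂ) - Complex.I / 2) = expB t - At (t : ℂ) := by
    intro t
    ext h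
    rw [← hat]
    have h1 := B.at_apply (t : ℂ) h (by norm_num) (by simp)
    have h3 := B.at_apply ((t : ℂ) - Complex.I / 2) h (by norm_num) (by norm_num)
    rw [h3, h1]
    have h2 : ((1 + Real.exp (h / 2) : ℝ) : ℂ) ≠ 0 := Complex.ofReal_ne_zero.2 (by positivity)
    rw [mul_div_assoc', Complex.ofReal_exp, ← Complex.exp_add]
    congr 2
    push_cast
    ring_nf
    rw [Complex.I_sq]
    ring
  have hk : ∀ X ∈ M, ∀ t : ℝ, E.Th (At (t : ℂ)) (E.J (star X ξ)) =
      E.Th (expB t - At (t : ℂ)) (X ξ) := fun X hX t => E.kms X hX _ _ (fun h => (hat t h).symm)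
  refine
    { inn := fun t x y => E.inner_U_U t x y
      add := fun s t x => E.U_add_apply s t x
      cont := fun x => E.continuous_U x
      vac := fun t => E.U_xi t
      inv := fun t X hX => ⟨E.sg t X, E.sg_mem hX t, fun x => ?_⟩
      jinn := fun x y => E.inner_J_J x y
      jj := fun x => E.J_J x
      jv := fun t x => E.J_U t x
      kms := fun X hX y => ?_ }
  · rw [E.sg_apply, E.U_neg_apply]
  · refine ⟨fun z => inner ℂ y (E.Th (At z) (X ξ + E.J (star X ξ))), ⟨?_, ?_⟩,
      ⟨‖y‖ * ‖X ξ + E.J (star X ξ)‖, fun z _ _ => ?_⟩, fun t => ⟨?_, ?_⟩⟩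
    · intro z hz
      have h1 := B.at_diff z hz
      have h2 : DifferentiableWithinAt ℂ (fun τ => E.Th (At τ) (X ξ + E.J (star X ξ)))
          {τ | -(1 / 2) < τ.im ∧ τ.im < 0} z :=
        (ContinuousLinearMap.apply ℂ H (X ξ + E.J (star X ξ))).differentiableAt.comp_differentiableWithinAt z h1
      exact ((innerSL ℂ y).differentiableAt.comp_differentiableWithinAt z h2)
    · have hcl : closure {z : ℂ | -(1 / 2) < z.im ∧ z.im < 0} ⊆
          {τ | -(1 / 2) ≤ τ.im ∧ τ.im ≤ 0} := by
        refine closure_minimal (fun z hz => ⟨hz.1.le, hz.2.le⟩) ?_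
        exact (isClosed_le continuous_const Complex.continuous_im).inter
          (isClosed_le Complex.continuous_im continuous_const)
      exact (((innerSL ℂ y).continuous.comp_continuousOn (B.at_cont _))).mono hcl
    · refine (norm_inner_le_norm _ _).trans ?_
      gcongr
      have h1 : ‖E.Th (At z)‖ ≤ 1 := (E.norm_Th_le _).trans (B.at_norm z)
      calc ‖E.Th (At z) (X ξ + E.J (star X ξ))‖ ≤ ‖E.Th (At z)‖ * ‖X ξ + E.J (star X ξ)‖ :=
            ContinuousLinearMap.le_opNorm _ _
        _ ≤ 1 * ‖X ξ + E.J (star X ξ)‖ := by gcongr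
        _ = _ := one_mul _
    · have e1 : E.Th (At (t : ℂ)) (X ξ + E.J (star X ξ)) = E.U t (X ξ) := by
        rw [map_add, hk X hX t, ← ContinuousLinearMap.add_apply, ← map_add, add_sub_cancel]
        rfl
      exact congrArg (fun w => inner ℂ y w) e1
    · have e1 : E.Th (At ((t : ℂ) - Complex.I / 2)) (X ξ + E.J (star X ξ)) =
          E.U t (E.J (star X ξ)) := by
        rw [hat2 t, map_add, ← hk X hX t, ← ContinuousLinearMap.add_apply, ← map_add,
          add_sub_cancel]
        rfl
      exact congrArg (fun w => inner ℂ y w) e1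

end Vale.Agent.P352.BW

end
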