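import Vale.Agent.P352.BW.Fin1
import Vale.Agent.P352.BW.Spec2
import Vale.Agent.P352.BW.H820.Tk
import Vale.Agent.P352.BW.W1
import Vale.Agent.P352.BW.W2
import Vale.Agent.P352.BW.W3
import Vale.Agent.P352.BW.MH
import Vale.Agent.P352.BW.Mb

/-!
# P352 BW: local nets, up to block G3
-/

set_option linter.all false

noncomputable section

open MeasureTheory Filter Topology

namespace Vale.Agent.P352.BW

open GF H246 H496 H755 H15
open UniformSpace (Completion)
open Vale.Agent.P132 (ModData)

variable {D : Type*} [NormedAddCommGroup D] [InnerProductSpace ℂ D]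
variable {Q : Theory D} {T : Ix → Ix → Fld D} {J : Ix → Fld D} {A : (V → V) → D → D}
  {𝒜 : Set V → VonNeumannAlgebra (Completion D)}

/-- Wedge duality, the Reeh-Schlieder property and the inner regularity of the wedge algebras are
theorems. -/
theorem vnet (N : LNet Q A 𝒜) : VNet Q A 𝒜 := vnet_of N w1 (w2 w1 tk) (w3 w1 tk)

/-- the hand-in form of the hypotheses -/
theorem lnet (N : VNt Q A 𝒜) : LNet Q A 𝒜 :=
  { N.toRep with
    fld := N.fld
    mono := N.mono
    cov := N.cov
    loc := fun a b ha hb hab X hX => N.loc a b X ha hb hab hX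
    bw := fun a b t L E z ha hb hab hL h =>
      N.bw a b t L (fun t x => E.U t x) (fun x => E.J x) z ha hb hab hL (isMod E) h
    reg := fun a b E v ha hb hab =>
      N.reg a b (fun t x => E.U t x) (fun x => E.J x) v ha hb hab (isMod E) }

/-- **The null generators**, in the hand-in form, from block G3 -/
theorem gen_bw' (N : LNet Q A 𝒜) (h3 : ∀ S, G3Block Q A 𝒜 S) (hT : Q.IsStress T)
    (hJ : IsVirial Q T J) :
    ∃ G : V → D → D, NG.NullGen Q T J A G ∧
      ∀ a b c, IsNull a → IsNull b → GF.mdot a b = 1 → 0 < c →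
        ∃ E : ModData (𝒜 (HM.Rg a b c)) (om Q), ∀ v : D,
          HasDerivAt (fun t : ℝ => E.U t (v : Completion D))
            ((Complex.I • (A (fun z => (2 * Real.pi) • (GF.mdot a z • b - GF.mdot b z • a)) v +
              ((2 * Real.pi * c : ℝ) : ℂ) • G a v) : D) : Completion D) 0 := by
  obtain ⟨S, G, hN, -, hG, h⟩ := null_bw' (T := T) (J := J) (vnet N) h3 hT hJ
  refine ⟨G, h, fun a b c ha hb hab hc => ?_⟩
  obtain ⟨hNd, ⟨E⟩, hR⟩ := hN a b ha hb hab
  obtain ⟨E1⟩ := hR 1 one_pos
  obtain ⟨E'⟩ := hR c hc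
  exact ⟨E', fun v => MB.modham (ublock N.toRep) N.toRep N.bw ha hb hab hc hNd E E1 E'
    (hG a b v ha hb hab)⟩

end Vale.Agent.P352.BW

end
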