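import Vale.Agent.P352.BW.Md

open MeasureTheory Filter Topology

namespace Vale.Agent.P352.BW

open GF H246 H496 H755 H15
open UniformSpace (Completion)

noncomputable section

variable {D : Type*} [NormedAddCommGroup D] [InnerProductSpace ℂ D]

/-- **Local nets of von Neumann algebras.** The von Neumann algebras `𝒜 O`, `O` a region, on the
completion of `D`, are isotonic and covariant under the similitudes, the fields smeared in `O` are
affiliated to `𝒜 O`, and the algebras of opposite wedges commute. -/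
structure LNm (Q : Theory D) (A : (V → V) → D → D)
    (𝒜 : Set V → VonNeumannAlgebra (Completion D)) : Prop extends Rep Q A where
  fld : ∀ O B f, Q.fld B → In O f → Aff (𝒜 O) (B f)
  mono : ∀ O O', O ⊆ O' → ∀ X ∈ 𝒜 O, X ∈ 𝒜 O'
  cov : ∀ s L y O, ∀ X ∈ 𝒜 O, 0 < s → IsLor L →
    ∃ Y ∈ 𝒜 (sim s L y '' O), ∀ z, Y (Ue Q s L y z) = Ue Q s L y (X z)
  loc : ∀ a b X, IsNull a → IsNull b → GF.mdot a b = 1 →
    X ∈ 𝒜 (Wdg b a 0) → X ∈ (𝒜 (Wdg a b 0)).commutant

/-- The vectors of `D` are differentiable, with derivatives in `D`, under the modular unitaries of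
the algebra of one of the regions `Rg a b 1` and the vacuum. -/
def Smo (Q : Theory D) (𝒜 : Set V → VonNeumannAlgebra (Completion D)) : Prop :=
  ∃ a b, IsNull a ∧ IsNull b ∧ GF.mdot a b = 1 ∧ ∀ V J (v : D),
    IsMod (𝒜 (HM.Rg a b 1)) (om Q) V J → ∃ w : D,
      HasDerivAt (fun t : ℝ => V t (v : Completion D)) ((w : D) : Completion D) 0

end

end Vale.Agent.P352.BW
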