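import Vale.Agent.P352.BW.Uq
import Vale.Agent.P352.BW.Ps2
import Vale.Agent.P352.BW.S0.Fin
import Vale.Agent.P352.BW.H234.ModU
import Vale.Agent.P352.BW.H284.InvS

/-!
# P352 BW: null deformations, domains and conformal invariance
-/

set_option linter.all false

noncomputable section

open MeasureTheory Filter Topology

namespace Vale.Agent.P352.BW

open Vale.Agent.P132 (ModData)
open UniformSpace (Completion)
open GF H246 H496 H755 H15

variable {D : Type*} [NormedAddCommGroup D] [InnerProductSpace ℂ D]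
  {Q : Theory D} {A : (V → V) → D → D} {𝒜 : Set V → VonNeumannAlgebra (Completion D)}
  {T : Ix → Ix → Fld D} {J : Ix → Fld D}

/-- uniqueness of the modular unitaries -/
theorem uqS (H : Type*) [NormedAddCommGroup H] [InnerProductSpace ℂ H] [CompleteSpace H] :
    UqStmt H := fun _ _ E _ _ h => isMod_unique E h

/-- the null deformations without the modular unitaries -/
theorem Grp0.toGr {S : V → ℝ → Completion D →L[ℂ] Completion D} (h : Grp0 Q 𝒜 S) : Gr0 Q 𝒜 S :=
  { zero := h.zero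
    add := h.add
    inn := h.inn
    cont := h.cont
    vac := h.vac
    cov := h.cov
    geo := h.geo }

/-- **Null deformations, domains and conformal invariance** -/
theorem main_z (hT : Q.IsStress T) (hJ : IsVirial Q T J) (hP : ND.PCh Q T A) (hG : TfGen Q)
    (N : LNm Q A 𝒜) :
    ∃ S : V → ℝ → Completion D →L[ℂ] Completion D, Grp0 Q 𝒜 S ∧
      (∀ S', Grp0 Q 𝒜 S' → ∀ a c, IsNull a → S' a c = S a c) ∧
      (∀ a (z w : Completion D), IsNull a →
        HasDerivAt (fun c : ℝ => S a c z) (Complex.I • w) 0 → 0 ≤ (inner ℂ z w).re) ∧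
      (Inv Q 𝒜 ∨ Smo Q 𝒜 → N86.ConfInv Q T ∧ ∃ G : V → D → D, Dif S G ∧
        (∃ C : D → D, NG.Neutral Q T J A C ∧ NG.ConfC Q A G C) ∧
        (∀ m n, NG.LocF Q G (T m n)) ∧ (∀ m, NG.LocF Q G (J m)) ∧
        (NG.Cyc Q T J → ConfGen Q A G)) ∧
      (Inv Q 𝒜 ↔ ∀ a c (x : D), IsNull a → ∃ y : D, S a c (x : Completion D) = y) ∧
      (Smo Q 𝒜 ↔ ∃ G : V → D → D, Dif S G) := by
  obtain ⟨S, hS⟩ := S0.grp0 (H284.s0 N hG)
  obtain ⟨h1, h2⟩ := main_g (uqS _) hT hJ hP hG N hS.toGr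
  refine ⟨S, hS, fun S' hS' a c ha => hS'.toGr.unique hG N hS.toGr ha c,
    fun a z w ha hz => hS.toGr.pos hG N a z w ha hz, fun h => ?_,
    inv_iff (uqS _) hG N hS.toGr, h1⟩
  have hs : Smo Q 𝒜 := h.elim (inv_smo (uqS _) hG N) id
  obtain ⟨G, hD⟩ := h1.1 hs
  obtain ⟨k0, -, k2, k3, k4, k5, k6⟩ := h2 G hD
  exact ⟨k0, G, hD, k3, k4, k5, k6⟩

end Vale.Agent.P352.BW

end
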