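import Vale.Agent.P352.BW.K
import Vale.Agent.P352.BW.D

/-!
# P352 BW: monotonicity of modular Hamiltonians. If `N ⊆ M` then `log Δ_M ≤ log Δ_N`.
-/

set_option linter.all false

noncomputable section

open MeasureTheory Filter Topology
open scoped ComplexConjugate InnerProductSpace BoundedContinuousFunction

namespace Vale.Agent.P352.BW

open Vale.Agent.P132 (ModData expB)

namespace Mon

/-- `h ↦ 1 / (e^h + s)` -/
def fs (s : ℝ) (hs : 0 < s) : ℝ →ᵇ ℂ :=
  BoundedContinuousFunction.ofNormedAddCommGroup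
    (fun h : ℝ => ((1 / (Real.exp h + s) : ℝ) : ℂ))
    (by
      refine Complex.continuous_ofReal.comp (Continuous.div (by fun_prop) (by fun_prop) fun h => ?_)
      have := Real.exp_pos h
      linarith) (1 / s)
    (fun h => by
      have := Real.exp_pos h
      rw [Complex.norm_real, Real.norm_of_nonneg (by positivity)]
      exact one_div_le_one_div_of_le hs (by linarith))

/-- `h ↦ e^{h/2} / (e^h + s)` -/
def gs (s : ℝ) (hs : 0 < s) : ℝ →ᵇ ℂ :=
  BoundedContinuousFunction.ofNormedAddCommGroup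
    (fun h : ℝ => ((Real.exp (h / 2) / (Real.exp h + s) : ℝ) : ℂ))
    (by
      refine Complex.continuous_ofReal.comp (Continuous.div (by fun_prop) (by fun_prop) fun h => ?_)
      have := Real.exp_pos h
      linarith) (1 / s + 1)
    (fun h => by
      have h0 := Real.exp_pos h
      have h1 := Real.exp_pos (h / 2)
      rw [Complex.norm_real, Real.norm_of_nonneg (by positivity), div_le_iff₀ (by linarith)]
      have h2 : Real.exp h = Real.exp (h / 2) * Real.exp (h / 2) := by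
        rw [← Real.exp_add]; congr 1; ring
      have h3 : (1 / s + 1) * (Real.exp h + s) = Real.exp h / s + 1 + Real.exp h + s := by
        field_simp
        ring
      rw [h3]
      have h4 : 0 < Real.exp h / s := by positivity
      nlinarith [sq_nonneg (Real.exp (h / 2) - 1 / 2)])

/-- `h ↦ e^h / (e^h + s)` -/
def es (s : ℝ) (hs : 0 < s) : ℝ →ᵇ ℂ :=
  BoundedContinuousFunction.ofNormedAddCommGroup
    (fun h : ℝ => ((Real.exp h / (Real.exp h + s) : ℝ) : ℂ))
    (by
      refine Complex.continuous_ofReal.comp (Continuous.div (by fun_prop) (by fun_prop) fun h => ?_)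
      have := Real.exp_pos h
      linarith) 1
    (fun h => by
      have h0 := Real.exp_pos h
      rw [Complex.norm_real, Real.norm_of_nonneg (by positivity), div_le_iff₀ (by linarith)]
      linarith)

theorem fs_apply (s : ℝ) (hs : 0 < s) (h : ℝ) : fs s hs h = ((1 / (Real.exp h + s) : ℝ) : ℂ) := rfl
theorem gs_apply (s : ℝ) (hs : 0 < s) (h : ℝ) :
    gs s hs h = ((Real.exp (h / 2) / (Real.exp h + s) : ℝ) : ℂ) := rfl
theorem es_apply (s : ℝ) (hs : 0 < s) (h : ℝ) :
    es s hs h = ((Real.exp h / (Real.exp h + s) : ℝ) : ℂ) := rfl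

theorem star_fs (s : ℝ) (hs : 0 < s) : star (fs s hs) = fs s hs := by
  ext h
  exact Complex.conj_ofReal _

theorem star_gs (s : ℝ) (hs : 0 < s) : star (gs s hs) = gs s hs := by
  ext h
  exact Complex.conj_ofReal _

theorem sum_sq (s : ℝ) (hs : 0 < s) :
    star (gs s hs) * gs s hs + (s : ℂ) • (star (fs s hs) * fs s hs) = fs s hs := by
  rw [star_fs, star_gs]
  ext h
  simp only [BoundedContinuousFunction.coe_add, BoundedContinuousFunction.coe_mul,
    BoundedContinuousFunction.coe_smul, Pi.add_apply, Pi.mul_apply, smul_eq_mul, fs_apply, gs_apply]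
  have h0 := Real.exp_pos h
  have h2 : Real.exp h = Real.exp (h / 2) * Real.exp (h / 2) := by
    rw [← Real.exp_add]; congr 1; ring
  have h3 : Real.exp (h / 2) / (Real.exp h + s) * (Real.exp (h / 2) / (Real.exp h + s)) +
      s * (1 / (Real.exp h + s) * (1 / (Real.exp h + s))) = 1 / (Real.exp h + s) := by
    have h4 : Real.exp h + s ≠ 0 := by positivity
    rw [div_mul_div_comm, ← h2]
    field_simp
  rw [← Complex.ofReal_mul, ← Complex.ofReal_mul, ← Complex.ofReal_mul, ← Complex.ofReal_add, h3]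

theorem sum_one (s : ℝ) (hs : 0 < s) : (s : ℂ) • fs s hs + es s hs = 1 := by
  ext h
  simp only [BoundedContinuousFunction.coe_add,
    BoundedContinuousFunction.coe_smul, Pi.add_apply, smul_eq_mul, fs_apply, es_apply,
    BoundedContinuousFunction.coe_one, Pi.one_apply]
  have h0 := Real.exp_pos h
  have h3 : s * (1 / (Real.exp h + s)) + Real.exp h / (Real.exp h + s) = 1 := by
    have h4 : Real.exp h + s ≠ 0 := by positivity
    field_simp
    ring
  rw [← Complex.ofReal_mul, ← Complex.ofReal_add, h3, Complex.ofReal_one]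

variable {H : Type*} [NormedAddCommGroup H] [InnerProductSpace ℂ H] [CompleteSpace H]
variable {M N : VonNeumannAlgebra H} {ξ : H}

theorem inner_of_star (E : ModData M ξ) {F : ℝ →ᵇ ℂ} (hF : star F = F) (u v : H) :
    ⟪E.Th F u, v⟫_ℂ = ⟪u, E.Th F v⟫_ℂ := by
  have h2 : star (E.Th F) = E.Th F := by rw [← map_star, hF]
  have h3 := ContinuousLinearMap.adjoint_inner_left (E.Th F) v u
  rw [← ContinuousLinearMap.star_eq_adjoint, h2] at h3
  exact h3

theorem norm_split (E : ModData M ξ) (s : ℝ) (hs : 0 < s) (v : H) :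
    ‖E.Th (gs s hs) v‖ ^ 2 + s * ‖E.Th (fs s hs) v‖ ^ 2 = (⟪v, E.Th (fs s hs) v⟫_ℂ).re := by
  have h1 := P132.Th_norm_sq E.Th (gs s hs) v
  have h2 := P132.Th_norm_sq E.Th (fs s hs) v
  have h3 : ⟪v, E.Th (fs s hs) v⟫_ℂ = ⟪v, E.Th (star (gs s hs) * gs s hs) v⟫_ℂ +
      (s : ℂ) * ⟪v, E.Th (star (fs s hs) * fs s hs) v⟫_ℂ := by
    conv_lhs => rw [← sum_sq s hs]
    rw [map_add, map_smul, ContinuousLinearMap.add_apply, ContinuousLinearMap.smul_apply,
      inner_add_right, inner_smul_right]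
  rw [h3, h1, h2, Complex.add_re, Complex.ofReal_re, Complex.re_ofReal_mul, Complex.ofReal_re]

/-- resolvents are decreasing, on vectors with cutoff -/
theorem res_cut (DM : ModData M ξ) (DN : ModData N ξ) (hle : ∀ x ∈ N, x ∈ M) (s : ℝ) (hs : 0 < s)
    {χ : ℝ →ᵇ ℂ} (hχ : HasCompactSupport χ) (hχs : ContDiff ℝ (⊤ : ℕ∞) χ) (w : H) :
    (⟪DN.Th χ w, DN.Th (fs s hs) (DN.Th χ w)⟫_ℂ).re ≤
      (⟪DN.Th χ w, DM.Th (fs s hs) (DN.Th χ w)⟫_ℂ).re := by
  have hk : HasCompactSupport (fs s hs * χ : ℝ →ᵇ ℂ) := by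
    rw [BoundedContinuousFunction.coe_mul]
    exact hχ.mul_left
  have hfs : ContDiff ℝ (⊤ : ℕ∞) (fs s hs) := by
    change ContDiff ℝ (⊤ : ℕ∞) fun h : ℝ => ((1 / (Real.exp h + s) : ℝ) : ℂ)
    refine Complex.ofRealCLM.contDiff.comp (contDiff_const.div (Real.contDiff_exp.add
      contDiff_const) fun h => ?_)
    have := Real.exp_pos h
    linarith
  have hks : ContDiff ℝ (⊤ : ℕ∞) (fs s hs * χ : ℝ →ᵇ ℂ) := by
    rw [BoundedContinuousFunction.coe_mul]
    exact hfs.mul hχs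
  have hez : ez (fs s hs * χ) hk (1 / 2) = gs s hs * χ := by
    ext h
    show Complex.exp (1 / 2 * (h : ℂ)) * (fs s hs * χ) h = (gs s hs * χ) h
    simp only [BoundedContinuousFunction.coe_mul, Pi.mul_apply, fs_apply, gs_apply]
    rw [← mul_assoc]
    congr 1
    have e : (1 / 2 : ℂ) * (h : ℂ) = ((h / 2 : ℝ) : ℂ) := by push_cast; ring
    rw [e, ← Complex.ofReal_exp, ← Complex.ofReal_mul]
    congr 1
    ring
  set v := DN.Th χ w with hv
  set z := DM.J (DN.J (DN.Th (ez (fs s hs * χ) hk (1 / 2)) w)) with hz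
  have hy : DN.Th (fs s hs * χ) w = DN.Th (fs s hs) v := by rw [map_mul]; rfl
  have hz' : ‖z‖ = ‖DN.Th (gs s hs) v‖ := by
    rw [hz, LinearIsometryEquiv.norm_map, LinearIsometryEquiv.norm_map, hez, map_mul]
    rfl
  have hK := kblock DM DN hle (es s hs) (gs s hs) (fs s hs * χ) hk w hks (fun h => by
    rw [es_apply, gs_apply, ← Complex.ofReal_mul]
    congr 1
    have h2 : Real.exp h = Real.exp (h / 2) * Real.exp (h / 2) := by
      rw [← Real.exp_add]; congr 1; ring
    rw [← mul_div_assoc, ← h2])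
  rw [← hz, hy] at hK
  set y := DN.Th (fs s hs) v with hyd
  have h1 : ⟪v, y⟫_ℂ = (s : ℂ) * ⟪DM.Th (fs s hs) v, y⟫_ℂ + ⟪DM.Th (gs s hs) v, z⟫_ℂ := by
    have e : y = (s : ℂ) • DM.Th (fs s hs) y + DM.Th (es s hs) y := by
      have e1 : DM.Th (((s : ℂ) • fs s hs) + es s hs) y = y := by
        rw [sum_one, map_one]; rfl
      rw [map_add, map_smul] at e1
      exact e1.symm
    conv_lhs => rw [e]
    rw [← hK, inner_add_right, inner_smul_right, inner_of_star DM (star_fs s hs),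
      inner_of_star DM (star_gs s hs)]
  have h2 := norm_split DM s hs v
  have h3 := norm_split DN s hs v
  rw [← hz', ← hyd] at h3
  have h4 : 2 * (⟪DM.Th (fs s hs) v, y⟫_ℂ).re ≤ ‖DM.Th (fs s hs) v‖ ^ 2 + ‖y‖ ^ 2 := by
    have := re_inner_le_norm (𝕜 := ℂ) (DM.Th (fs s hs) v) y
    simp only [RCLike.re_to_complex] at this
    nlinarith [sq_nonneg (‖DM.Th (fs s hs) v‖ - ‖y‖)]
  have h5 : 2 * (⟪DM.Th (gs s hs) v, z⟫_ℂ).re ≤ ‖DM.Th (gs s hs) v‖ ^ 2 + ‖z‖ ^ 2 := by
    have := re_inner_le_norm (𝕜 := ℂ) (DM.Th (gs s hs) v) z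
    simp only [RCLike.re_to_complex] at this
    nlinarith [sq_nonneg (‖DM.Th (gs s hs) v‖ - ‖z‖)]
  have h6 : (⟪v, y⟫_ℂ).re = s * (⟪DM.Th (fs s hs) v, y⟫_ℂ).re +
      (⟪DM.Th (gs s hs) v, z⟫_ℂ).re := by
    rw [h1, Complex.add_re, Complex.re_ofReal_mul]
  nlinarith [mul_le_mul_of_nonneg_left h4 hs.le]

/-- **Resolvents of modular operators are decreasing**: `N ⊆ M` implies
`(Δ_N + s)⁻¹ ≤ (Δ_M + s)⁻¹`. -/
theorem res_le (DM : ModData M ξ) (DN : ModData N ξ) (hle : ∀ x ∈ N, x ∈ M) (s : ℝ) (hs : 0 < s)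
    (v : H) : (⟪v, DN.Th (fs s hs) v⟫_ℂ).re ≤ (⟪v, DM.Th (fs s hs) v⟫_ℂ).re := by
  obtain ⟨χ, hc, hE, hb, hl⟩ := exists_cut
  have ht : Tendsto (fun n => DN.Th (χ n) v) atTop (𝓝 v) := by
    have := DN.tendsto_Th v χ 1 1 (Eventually.of_forall fun n x => hb n x) (fun x => by
      simpa using hl x)
    simpa using this
  have t1 : Tendsto (fun n => (⟪DN.Th (χ n) v, DN.Th (fs s hs) (DN.Th (χ n) v)⟫_ℂ).re) atTop
      (𝓝 (⟪v, DN.Th (fs s hs) v⟫_ℂ).re) :=
    (Complex.continuous_re.tendsto _).comp (ht.inner (((DN.Th (fs s hs)).continuous.tendsto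
      _).comp ht))
  have t2 : Tendsto (fun n => (⟪DN.Th (χ n) v, DM.Th (fs s hs) (DN.Th (χ n) v)⟫_ℂ).re) atTop
      (𝓝 (⟪v, DM.Th (fs s hs) v⟫_ℂ).re) :=
    (Complex.continuous_re.tendsto _).comp (ht.inner (((DM.Th (fs s hs)).continuous.tendsto
      _).comp ht))
  exact le_of_tendsto_of_tendsto' t1 t2 fun n => res_cut DM DN hle s hs (hc n) (hE n).smooth v

end Mon

end Vale.Agent.P352.BW

end
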