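import Vale.Agent.P352.BW.H649.LcDefs
import Vale.Agent.P352.BW.H268.Grp1
import Vale.Agent.P352.BW.H49.Or1Defs

open MeasureTheory Filter Topology

namespace Vale.Agent.P352.BW

open GF H246 H496 H755 H15
open UniformSpace (Completion)

noncomputable section

variable {D : Type*} [NormedAddCommGroup D] [InnerProductSpace ℂ D]

/-- **Bisognano-Wichmann property of the light cone.** The modular unitaries of the algebra of the
forward light cone and the vacuum are the dilations. -/
def LC (Q : Theory D) (𝒜 : Set V → VonNeumannAlgebra (Completion D)) : Prop :=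
  ∃ J, IsMod (𝒜 Fc) (om Q) (fun t z => Ue Q (Real.exp (-(2 * Real.pi * t))) GF.one 0 z) J

/-- The null deformations `S a c` and the translations satisfy the relations of the special
conformal transformations `x ↦ (x - c (x·x) a) / (1 - 2c a·x)` and the translations. -/
def Law (Q : Theory D) (S : V → ℝ → Completion D →L[ℂ] Completion D) : Prop :=
  ∀ a b t c (L : Ix → V) z, IsNull a → IsNull b → GF.mdot a b = 1 → 0 < 1 + 2 * c * t →
    (∀ x, sim 1 L 0 x = x + (((1 + 2 * c * t)⁻¹ - 1) * GF.mdot b x) • a +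
      (2 * c * t * GF.mdot a x) • b) →
    Ue Q 1 GF.one (-(t • b)) (S a c z) =
      S a (c / (1 + 2 * c * t)) (Ue Q (1 + 2 * c * t) L (-(t * (1 + 2 * c * t)) • b) z)

/-- Conjugation by the null deformations `S a (-c)`, `0 < c`, maps the algebra of the forward light
cone onto the algebras of its parts `2c a·z < 1`. -/
def GeoC (𝒜 : Set V → VonNeumannAlgebra (Completion D))
    (S : V → ℝ → Completion D →L[ℂ] Completion D) : Prop :=
  ∀ a c X, IsNull a → 0 < c →
    (X ∈ 𝒜 Fc ↔ S a (-c) * X * S a c ∈ 𝒜 (Ct a (1 / (2 * c))))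

/-- The vacuum is separating for the algebra of the forward light cone. -/
def SepF (Q : Theory D) (𝒜 : Set V → VonNeumannAlgebra (Completion D)) : Prop :=
  ∀ X ∈ 𝒜 Fc, X (om Q) = 0 → X = 0

/-- The backward light cone. -/
def Bc : Set V := {x | 0 < GF.mdot x x ∧ x o < 0}

/-- The field `B` has the real scaling dimension `d`. -/
def Hd (Q : Theory D) (d : ℝ) (B : Fld D) : Prop :=
  Q.fld B ∧ ∀ s f v, 0 < s → GF.IsTest f → B f (Q.U s GF.one 0 v) =
    ((s ^ (4 - d) : ℝ) : ℂ) • Q.U s GF.one 0 (B (fun x => f (sim s GF.one 0 x)) v)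

/-- The operator `Z` multiplies the vectors `B f Ω` by a phase. -/
def Ph (Q : Theory D) (Z : Completion D → Completion D) (B : Fld D) : Prop :=
  ∃ ζ : ℂ, ‖ζ‖ = 1 ∧ ∀ f, GF.IsTest f →
    Z ((B f Q.vac : D) : Completion D) = ζ • ((B f Q.vac : D) : Completion D)

/-- The field `B` and its adjoint have a real scaling dimension, and the operator `Z` multiplies the
vectors `B f Ω` by a phase and the vectors `(B f)* Ω` by a phase. -/
def Zd (Q : Theory D) (Z : Completion D → Completion D) (B : Fld D) : Prop :=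
  ∃ (B' : Fld D) (d : ℝ), Hd Q d B ∧ Hd Q d B' ∧ Ph Q Z B ∧ Ph Q Z B' ∧
    ∀ f v w, GF.IsTest f → inner ℂ (B f v) w = inner ℂ v (B' (GF.bar f) w)

/-- **Locality of opposite light cones, up to a unitary operator** (Huygens' principle). There is a
unitary operator `Z` such that `Z X Z⁻¹` commutes with the algebra of the forward light cone, for
`X` in the algebra of the backward light cone. `Z` fixes the vacuum, and multiplies the vectors
`B f Ω`, `B` in a generating class of fields, by a phase that depends on `B` only. -/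
def Huy (Q : Theory D) (𝒜 : Set V → VonNeumannAlgebra (Completion D)) : Prop :=
  ∃ Z : Completion D ≃ₗᵢ[ℂ] Completion D, Z (om Q) = om Q ∧
    (∀ X ∈ 𝒜 Bc, ∃ Y ∈ (𝒜 Fc).commutant, ∀ z, Y (Z z) = Z (X z)) ∧
    ∀ S : Submodule ℂ D, Q.vac ∈ S →
      (∀ B f v, Zd Q Z B → GF.IsTest f → v ∈ S → B f v ∈ S) → Dense (S : Set D)

end

end Vale.Agent.P352.BW
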