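import Vale.Agent.P352.BW.J
import Vale.Agent.P352.H746.Nrt

/-!
# P352 BW, block KS: covariance of the generators of the null deformations
-/

set_option linter.all false

noncomputable section

open MeasureTheory Filter Topology
open scoped ComplexConjugate InnerProductSpace BoundedContinuousFunction

namespace Vale.Agent.P352.BW

open Vale.Agent.P132 (ModData expB)
open UniformSpace (Completion)
open GF H246 H496 H755 H15

namespace KB

theorem lin_der {H : Type*} [NormedAddCommGroup H] [InnerProductSpace ℂ H] (W : H ≃ₗᵢ[ℂ] H)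
    {f : ℝ → H} {f' : H} {t : ℝ} (h : HasDerivAt f f' t) :
    HasDerivAt (fun t => W (f t)) (W f') t :=
  ((W.toContinuousLinearEquiv : H →L[ℂ] H).restrictScalars ℝ).hasFDerivAt.comp_hasDerivAt t h

variable {D : Type*} [NormedAddCommGroup D] [InnerProductSpace ℂ D]
  {Q : Theory D} {A : (V → V) → D → D} {𝒜 : Set V → VonNeumannAlgebra (Completion D)}
  {S : V → V → ℝ → Completion D →L[ℂ] Completion D} {G : V → D → D}

/-- `S a b c` is unitary. -/
structure Uni (S : ℝ → Completion D →L[ℂ] Completion D) : Prop where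
  zero : S 0 = 1
  inn : ∀ c z w, ⟪S c z, S c w⟫_ℂ = ⟪z, w⟫_ℂ
  cont : ∀ z, Continuous fun c => S c z

theorem uni {a b : V} {S : ℝ → Completion D →L[ℂ] Completion D} (h : Nd Q 𝒜 a b S)
    (E : ModData (𝒜 (Wdg a b 0)) (om Q)) (E' : ModData (𝒜 (HM.Rg a b 1)) (om Q)) : Uni S := by
  have hs := h.hs 1 E E' one_pos
  have hS : ∀ c, S c = (fun r => S (1 * r)) c := fun c => by simp only [one_mul]
  have h0 : S 0 = 1 := by rw [hS]; exact hs.zero
  refine ⟨h0, fun c z w => ?_, fun z => ?_⟩
  · have h1 : star (S c) = S (-c) := by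
      have := hs.star c
      simpa only [one_mul] using this
    have h2 : S (-c) * S c = 1 := by
      have := hs.add (-c) c
      simp only [one_mul, neg_add_cancel] at this
      rw [← this, h0]
    have h3 : ⟪S c z, S c w⟫_ℂ = ⟪(star (S c)) (S c z), w⟫_ℂ := by
      rw [ContinuousLinearMap.star_eq_adjoint, ContinuousLinearMap.adjoint_inner_left]
    rw [h3, h1]
    have h4 : S (-c) (S c z) = z := by
      have := congrArg (fun T : Completion D →L[ℂ] Completion D => T z) h2
      exact this
    rw [h4]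
  · have := hs.cont z
    simpa only [one_mul] using this

theorem norm_le {S : ℝ → Completion D →L[ℂ] Completion D} (h : Uni S) (c : ℝ)
    (z : Completion D) : ‖S c z‖ ≤ ‖z‖ := by
  have h1 := h.inn c z z
  rw [inner_self_eq_norm_sq_to_K, inner_self_eq_norm_sq_to_K] at h1
  have h2 : ‖S c z‖ ^ 2 = ‖z‖ ^ 2 := by exact_mod_cast h1
  exact ((pow_left_inj₀ (norm_nonneg _) (norm_nonneg _) two_ne_zero).1 h2).le

theorem coe_inj {x y : D} (h : (x : Completion D) = (y : Completion D)) : x = y :=
  UniformSpace.Completion.coe_injective D h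

theorem cancel_I {x y : D} (h : ((Complex.I • x : D) : Completion D) =
    ((Complex.I • y : D) : Completion D)) : x = y := by
  have h1 := coe_inj h
  have h2 := congrArg (fun z => (-Complex.I) • z) h1
  simpa [smul_smul] using h2

theorem symm {S : ℝ → Completion D →L[ℂ] Completion D} {G : D → D} (h : Uni S)
    (hG : ∀ v : D, HasDerivAt (fun c : ℝ => S c (v : Completion D))
      ((Complex.I • G v : D) : Completion D) 0) (v w : D) :
    inner ℂ (G v) w = inner ℂ v (G w) := by
  have h1 : HasDerivAt (fun c : ℝ => ⟪S c (v : Completion D), S c (w : Completion D)⟫_ℂ)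
      (⟪S 0 (v : Completion D), ((Complex.I • G w : D) : Completion D)⟫_ℂ +
        ⟪((Complex.I • G v : D) : Completion D), S 0 (w : Completion D)⟫_ℂ) 0 :=
    HasDerivAt.inner ℂ (hG v) (hG w)
  have h2 : HasDerivAt (fun c : ℝ => ⟪S c (v : Completion D), S c (w : Completion D)⟫_ℂ) 0 0 := by
    have e : (fun c : ℝ => ⟪S c (v : Completion D), S c (w : Completion D)⟫_ℂ) =
        fun _ => ⟪(v : Completion D), (w : Completion D)⟫_ℂ := by
      funext c
      exact h.inn c _ _
    rw [e]
    exact hasDerivAt_const _ _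
  have h3 := h1.unique h2
  rw [h.zero] at h3
  have h4 : ⟪(v : Completion D), ((Complex.I • G w : D) : Completion D)⟫_ℂ +
      ⟪((Complex.I • G v : D) : Completion D), (w : Completion D)⟫_ℂ = 0 := h3
  rw [UniformSpace.Completion.inner_coe, UniformSpace.Completion.inner_coe, inner_smul_right,
    inner_smul_left, Complex.conj_I] at h4
  have h5 : Complex.I * (inner ℂ v (G w) - inner ℂ (G v) w) = 0 := by linear_combination h4
  have h6 := (mul_eq_zero.1 h5).resolve_left Complex.I_ne_zero
  exact (sub_eq_zero.1 h6).symm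

/-- the velocity of the curve of similitudes in the translation law -/
theorem tra_der (R : Rep Q A) {a x : V} (ha : IsNull a) (hx : GF.mdot a x = 0) (v : D) :
    HasDerivAt (fun c : ℝ => Q.U 1 (H746.nrt a (c • (-x))) (-(c * GF.mdot (-x) (-x)) • a) v)
      (Complex.I • A (XX a x) v) 0 := by
  have hw : ∀ c : ℝ, GF.mdot a (c • (-x)) = 0 := by
    intro c
    rw [gm_smul]
    have : GF.mdot a (-x) = 0 := by
      have := gm_smul a x (-1)
      rw [neg_one_smul] at this
      rw [this, hx]; ring
    rw [this, mul_zero]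
  refine R.der (fun _ => 1) (fun c => H746.nrt a (c • (-x)))
    (fun c => -(c * GF.mdot (-x) (-x)) • a) (XX a x) v rfl ?_ ?_ ?_ ?_
  · funext m
    show H746.nrt a ((0 : ℝ) • (-x)) m = GF.one m
    simp [H746.nrt, GF.one, GF.mdot]
  · show -((0 : ℝ) * GF.mdot (-x) (-x)) • a = 0
    simp
  · exact fun e => ⟨one_pos, H746.isLor_nrt ha (hw e)⟩
  · intro n z
    have hmd : GF.mdot (-x) (-x) = GF.mdot x x := by
      simp only [GF.mdot, Pi.neg_apply]
      exact Finset.sum_congr rfl fun m _ => by ring
    have e1 : (fun c : ℝ => sim 1 (H746.nrt a (c • (-x))) (-(c * GF.mdot (-x) (-x)) • a) z n) =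
        fun c : ℝ => z n + (c * (2 * GF.mdot x z * a n - 2 * GF.mdot a z * x n -
          GF.mdot x x * a n) - c ^ 2 * (2 * GF.mdot x x * GF.mdot a z * a n)) := by
      funext c
      have h1 : sim 1 (H746.nrt a (c • (-x))) (-(c * GF.mdot (-x) (-x)) • a) z n =
          (-(c * GF.mdot (-x) (-x)) • a) n + sim 1 (H746.nrt a (c • (-x))) 0 z n := by
        simp [sim]
      have h2 : GF.mdot (c • (-x)) (c • (-x)) = c ^ 2 * GF.mdot x x := by
        simp only [GF.mdot, Pi.neg_apply, Pi.smul_apply, smul_eq_mul, Finset.mul_sum]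
        exact Finset.sum_congr rfl fun m _ => by ring
      have h3 : GF.mdot (c • (-x)) z = -(c * GF.mdot x z) := by
        simp only [GF.mdot, Pi.neg_apply, Pi.smul_apply, smul_eq_mul, Finset.mul_sum,
          ← Finset.sum_neg_distrib]
        exact Finset.sum_congr rfl fun m _ => by ring
      rw [h1, H746.sim_nrt, hmd, h2, h3]
      simp only [Pi.add_apply, Pi.sub_apply, Pi.smul_apply, Pi.neg_apply, smul_eq_mul]
      ring
    rw [e1]
    have h4 : HasDerivAt (fun c : ℝ => c * (2 * GF.mdot x z * a n - 2 * GF.mdot a z * x n -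
        GF.mdot x x * a n)) (2 * GF.mdot x z * a n - 2 * GF.mdot a z * x n -
        GF.mdot x x * a n) 0 := by
      simpa using (hasDerivAt_id (0 : ℝ)).mul_const (2 * GF.mdot x z * a n -
        2 * GF.mdot a z * x n - GF.mdot x x * a n)
    have h5 : HasDerivAt (fun c : ℝ => c ^ 2 * (2 * GF.mdot x x * GF.mdot a z * a n)) 0 0 := by
      have := (hasDerivAt_pow 2 (0 : ℝ)).mul_const (2 * GF.mdot x x * GF.mdot a z * a n)
      simpa using this
    refine ((h4.sub h5).const_add (z n)).congr_deriv ?_
    simp only [XX, cK, Pi.add_apply, Pi.sub_apply, Pi.smul_apply, Pi.neg_apply, smul_eq_mul, hx]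
    ring

end KB

open KB

variable {D : Type*} [NormedAddCommGroup D] [InnerProductSpace ℂ D]

theorem ksblock {Q : Theory D} {A : (V → V) → D → D}
    {𝒜 : Set V → VonNeumannAlgebra (Completion D)}
    {S : V → V → ℝ → Completion D →L[ℂ] Completion D} {G : V → D → D} (hU : UStmt Q A)
    (hN : ∀ a b, IsNull a → IsNull b → GF.mdot a b = 1 → Nd Q 𝒜 a b (S a b) ∧
      Nonempty (ModData (𝒜 (Wdg a b 0)) (om Q)) ∧
      Nonempty (ModData (𝒜 (HM.Rg a b 1)) (om Q))) : KSStmt Q A 𝒜 S G := by
  intro hV h2 h3 hNd hG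
  have hS : ∀ a b, IsNull a → IsNull b → GF.mdot a b = 1 → Uni (S a b) := by
    intro a b ha hb hab
    obtain ⟨h, ⟨E⟩, ⟨E'⟩⟩ := hN a b ha hb hab
    exact uni h E E'
  refine { hV.toRep with symm := ?_, cov := ?_, tra := ?_ }
  · intro a v w ha
    obtain ⟨b, hb, hab⟩ := exists_dual ha
    exact KB.symm (hS a b ha hb hab) (fun v => hG a b v ha hb hab) v w
  · intro s L r a b v hs hr hL ha hb hab
    obtain ⟨b0, hb0, hab0⟩ := exists_dual ha
    have hm : GF.mdot b (r • sim 1 L 0 b0) = 1 := by
      have h1 := mdot_sim hL a b0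
      rw [hab, hab0, gm_comm, gm_smul] at h1
      rw [gm_smul, gm_comm]
      exact h1
    have hn : IsNull (r • sim 1 L 0 b0) := by
      have h1 := isNull_lor hL hb0
      refine ⟨?_, mul_pos hr h1.2⟩
      rw [gm_smul, gm_comm, gm_smul, h1.1, mul_zero, mul_zero]
    obtain ⟨W, hW⟩ := hU.lin s L 0 hs hL
    have e1 : (fun c : ℝ => W (S a b0 c (v : Completion D))) =
        fun c : ℝ => S b (r • sim 1 L 0 b0) (r / s * c) ((Q.U s L 0 v : D) : Completion D) := by
      funext c
      rw [hW, h2 hV hNd s L r a b0 b (r • sim 1 L 0 b0) c _ hs hr hL ha hb0 hb hn hab0 hm hab rfl,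
        hU.coe s L 0 v hs hL]
    have d1 := lin_der W (hG a b0 v ha hb0 hab0)
    have d2 : HasDerivAt (fun c : ℝ => S b (r • sim 1 L 0 b0) (r / s * c)
        ((Q.U s L 0 v : D) : Completion D))
        ((r / s : ℝ) • ((Complex.I • G b (Q.U s L 0 v) : D) : Completion D)) 0 := by
      have h4 : HasDerivAt (fun c : ℝ => S b (r • sim 1 L 0 b0) c
          ((Q.U s L 0 v : D) : Completion D))
          ((Complex.I • G b (Q.U s L 0 v) : D) : Completion D) ((fun c : ℝ => r / s * c) 0) := by
        show HasDerivAt _ _ (r / s * 0)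
        rw [mul_zero]
        exact hG b _ _ hb hn hm
      have h5 : HasDerivAt (fun c : ℝ => r / s * c) (r / s) 0 := by
        simpa using (hasDerivAt_id (0 : ℝ)).const_mul (r / s)
      exact h4.scomp (0 : ℝ) h5
    rw [e1] at d1
    have h6 := d1.unique d2
    rw [hW, hU.coe s L 0 _ hs hL] at h6
    have h7 : (Q.U s L 0 (Complex.I • G a v) : D) =
        (r / s : ℝ) • (Complex.I • G b (Q.U s L 0 v)) := by
      exact coe_inj (h6.trans (UniformSpace.Completion.coe_smul _ _).symm)
    have h8 : (Q.U s L 0 (Complex.I • G a v) : D) = Complex.I • Q.U s L 0 (G a v) := by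
      refine coe_inj ?_
      rw [← hU.coe s L 0 _ hs hL, ← hW, UniformSpace.Completion.coe_smul, map_smul, hW,
        hU.coe s L 0 _ hs hL, UniformSpace.Completion.coe_smul]
    refine cancel_I ?_
    rw [← h8, h7]
    congr 1
    rw [smul_comm, Complex.coe_smul, smul_comm]
  · intro a x v ha hx
    obtain ⟨b, hb, hab⟩ := exists_dual ha
    have hSu := hS a b ha hb hab
    have hx' : GF.mdot a (-x) = 0 := by
      have := gm_smul a x (-1)
      rw [neg_one_smul] at this
      rw [this, hx]; ring
    obtain ⟨W, hW⟩ := hU.lin 1 GF.one (-x) one_pos isLor_one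
    have hw : ∀ c : ℝ, GF.mdot a (c • (-x)) = 0 := by
      intro c
      rw [gm_smul, hx', mul_zero]
    have e1 : (fun c : ℝ => S a b c ((Q.U 1 GF.one (-x) v : D) : Completion D)) =
        fun c : ℝ => W (S a b c ((Q.U 1 (H746.nrt a (c • (-x)))
          (-(c * GF.mdot (-x) (-x)) • a) v : D) : Completion D)) := by
      funext c
      rw [hW, ← hU.coe 1 GF.one (-x) v one_pos isLor_one, h3.ptr a b (-x) c _ ha hb hab hx',
        hU.coe _ _ _ _ one_pos (H746.isLor_nrt ha (hw c))]
    have h0 : Q.U 1 (H746.nrt a ((0 : ℝ) • (-x))) (-((0 : ℝ) * GF.mdot (-x) (-x)) • a) v = v := by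
      have h4 : H746.nrt a ((0 : ℝ) • (-x)) = GF.one := by
        funext m
        simp [H746.nrt, GF.one, GF.mdot]
      rw [h4, zero_mul, neg_zero, zero_smul]
      exact Uone v
    have d1 := hG a b (Q.U 1 GF.one (-x) v) ha hb hab
    have d2 := lin_der W (JB.prod_der (fun c => S a b c) (norm_le hSu) hSu.cont hSu.zero
      (JB.coe_der (tra_der hV.toRep ha hx v)) (w := ((Complex.I • G a v : D) : Completion D)) (by
        simp only [h0]
        exact hG a b v ha hb hab))
    rw [e1] at d1
    have h6 := d1.unique d2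
    have h7 : Complex.I • G a (Q.U 1 GF.one (-x) v) =
        Q.U 1 GF.one (-x) (Complex.I • (G a v + A (XX a x) v)) := by
      refine coe_inj ?_
      rw [h6, ← hU.coe 1 GF.one (-x) _ one_pos isLor_one, ← hW, smul_add,
        UniformSpace.Completion.coe_add]
    have h8 : ∀ y : D, Q.U 1 GF.one (-x) (Complex.I • y) = Complex.I • Q.U 1 GF.one (-x) y := by
      intro y
      refine coe_inj ?_
      rw [← hU.coe 1 GF.one (-x) _ one_pos isLor_one, ← hW, UniformSpace.Completion.coe_smul,
        map_smul, hW, hU.coe 1 GF.one (-x) _ one_pos isLor_one, UniformSpace.Completion.coe_smul]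
    rw [h8] at h7
    have h9 : G a (Q.U 1 GF.one (-x) v) = Q.U 1 GF.one (-x) (G a v + A (XX a x) v) :=
      cancel_I (by rw [h7])
    rw [h9, Uadd1, add_neg_cancel, Uone]

end Vale.Agent.P352.BW

end
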