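import Vale.Agent.P352.BW.Mon

/-!
# P352 BW: monotonicity of modular Hamiltonians, from resolvents to the logarithm
-/

set_option linter.all false

noncomputable section

open MeasureTheory Filter Topology
open scoped ComplexConjugate InnerProductSpace BoundedContinuousFunction

namespace Vale.Agent.P352.BW

open Vale.Agent.P132 (ModData expB)

namespace Mon

variable {H : Type*} [NormedAddCommGroup H] [InnerProductSpace ℂ H] [CompleteSpace H]
variable {M N : VonNeumannAlgebra H} {ξ : H}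

/-- difference quotients -/
def Df (t : ℝ) : ℝ →ᵇ ℂ := ((t⁻¹ : ℝ) : ℂ) • (expB t - 1)

theorem Df_apply (t h : ℝ) : Df t h = t⁻¹ • (Complex.exp (Complex.I * ((t * h : ℝ) : ℂ)) - 1) := by
  rw [Complex.real_smul]
  rfl

theorem Df_norm (t h : ℝ) : ‖Df t h‖ ≤ |h| := by
  rw [Df_apply, norm_smul, Real.norm_eq_abs, abs_inv]
  have h1 := Real.norm_exp_I_mul_ofReal_sub_one_le (x := t * h)
  rcases eq_or_ne t 0 with ht | ht
  · rw [ht]
    simp
  · rw [inv_mul_le_iff₀ (abs_pos.2 ht), ← abs_mul]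
    simpa using h1

theorem Df_lim (h : ℝ) : Tendsto (fun t => Df t h) (𝓝[≠] 0) (𝓝 (Complex.I * h)) := by
  have h1 : HasDerivAt (fun t : ℝ => Complex.exp (Complex.I * ((t * h : ℝ) : ℂ))) (Complex.I * h)
      0 := by
    have h2 : HasDerivAt (fun t : ℝ => Complex.I * ((t * h : ℝ) : ℂ)) (Complex.I * h) 0 := by
      have h3 : HasDerivAt (fun t : ℝ => t * h) h 0 := by
        simpa using (hasDerivAt_id (0 : ℝ)).mul_const h
      exact h3.ofReal_comp.const_mul Complex.I
    have h4 := h2.cexp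
    simpa using h4
  have h5 := hasDerivAt_iff_tendsto_slope_zero.1 h1
  refine h5.congr fun t => ?_
  rw [Df_apply]
  simp

theorem Th_Df (E : ModData M ξ) {v k : H} (hk : HasDerivAt (fun t : ℝ => E.U t v) k 0) :
    Tendsto (fun t => E.Th (Df t) v) (𝓝[≠] 0) (𝓝 k) := by
  have h5 := hasDerivAt_iff_tendsto_slope_zero.1 hk
  refine h5.congr fun t => ?_
  have h0 : E.U 0 v = v := by
    have : expB 0 = 1 := by
      ext h
      simp
    show E.Th (expB 0) v = v
    rw [this, map_one]
    rfl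
  show t⁻¹ • (E.U (0 + t) v - E.U 0 v) = E.Th (Df t) v
  rw [zero_add, h0, Df, map_smul, map_sub, map_one]
  show _ = ((t⁻¹ : ℝ) : ℂ) • (E.U t v - v)
  rw [Complex.coe_smul]

theorem seq_lim : Tendsto (fun n : ℕ => 1 / ((n : ℝ) + 1)) atTop (𝓝[≠] 0) := by
  refine tendsto_nhdsWithin_iff.2 ⟨tendsto_one_div_add_atTop_nhds_zero_nat, ?_⟩
  refine Eventually.of_forall fun n => ?_
  have : (0 : ℝ) < 1 / ((n : ℝ) + 1) := by positivity
  exact this.ne'

/-- the mean of the spectral measure -/
theorem mean (E : ModData M ξ) {v k : H} (hk : HasDerivAt (fun t : ℝ => E.U t v) (Complex.I • k) 0)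
    {μ : Measure ℝ} [IsFiniteMeasure μ] (hμ : ∀ F : ℝ →ᵇ ℂ, ⟪v, E.Th F v⟫_ℂ = ∫ h, F h ∂μ) :
    Integrable (fun h : ℝ => h) μ ∧ ∫ h, h ∂μ = (⟪v, k⟫_ℂ).re := by
  have hlim := (Th_Df E hk).comp seq_lim
  have hn : ∀ t : ℝ, ‖E.Th (Df t) v‖ ^ 2 = ∫ h, ‖Df t h‖ ^ 2 ∂μ := fun t =>
    P132.norm_sq_of_spec E.Th hμ (Df t)
  have hsq : Integrable (fun h : ℝ => h ^ 2) μ := by
    refine integrable_of_tendsto (G := fun n h => ‖Df (1 / ((n : ℝ) + 1)) h‖ ^ 2) ?_ ?_ ?_
    · refine Eventually.of_forall fun h => ?_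
      have h1 := (((Df_lim h).comp seq_lim).norm).pow 2
      have h2 : ‖Complex.I * (h : ℂ)‖ ^ 2 = h ^ 2 := by
        rw [norm_mul, Complex.norm_I, one_mul, Complex.norm_real, Real.norm_eq_abs, sq_abs]
      rw [h2] at h1
      exact h1
    · intro n
      exact ((Df (1 / ((n : ℝ) + 1))).continuous.norm.pow 2).aestronglyMeasurable
    · have h1 : ∀ n : ℕ, ∫⁻ h, ‖‖Df (1 / ((n : ℝ) + 1)) h‖ ^ 2‖ₑ ∂μ =
          ENNReal.ofReal (‖E.Th (Df (1 / ((n : ℝ) + 1))) v‖ ^ 2) := by
        intro n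
        rw [hn, ← ofReal_integral_norm_eq_lintegral_enorm]
        · congr 1
          refine integral_congr_ae (Eventually.of_forall fun h => ?_)
          exact Real.norm_of_nonneg (by positivity)
        · refine Integrable.mono' (integrable_const (‖Df (1 / ((n : ℝ) + 1))‖ ^ 2))
            ((Df (1 / ((n : ℝ) + 1))).continuous.norm.pow 2).aestronglyMeasurable ?_
          refine Eventually.of_forall fun h => ?_
          rw [Real.norm_of_nonneg (by positivity)]
          exact pow_le_pow_left₀ (norm_nonneg _) ((Df _).norm_coe_le_norm h) 2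
      have h2 : Tendsto (fun n : ℕ => ∫⁻ h, ‖‖Df (1 / ((n : ℝ) + 1)) h‖ ^ 2‖ₑ ∂μ) atTop
          (𝓝 (ENNReal.ofReal (‖Complex.I • k‖ ^ 2))) := by
        simp_rw [h1]
        exact (ENNReal.continuous_ofReal.tendsto _).comp (hlim.norm.pow 2)
      rw [h2.liminf_eq]
      exact ENNReal.ofReal_ne_top
  have hid : Integrable (fun h : ℝ => h) μ := by
    refine Integrable.mono' ((integrable_const (1 : ℝ)).add hsq)
      continuous_id.aestronglyMeasurable (Eventually.of_forall fun h => ?_)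
    show ‖h‖ ≤ 1 + h ^ 2
    rw [Real.norm_eq_abs]
    rcases abs_cases h with ⟨e, _⟩ | ⟨e, _⟩ <;> rw [e] <;> nlinarith [sq_nonneg (h - 1), sq_nonneg (h + 1)]
  refine ⟨hid, ?_⟩
  have h1 : Tendsto (fun n : ℕ => ∫ h, Df (1 / ((n : ℝ) + 1)) h ∂μ) atTop
      (𝓝 (∫ h, Complex.I * (h : ℂ) ∂μ)) := by
    refine tendsto_integral_of_dominated_convergence (fun h => |h|) (fun n =>
      (Df _).continuous.aestronglyMeasurable) hid.abs (fun n =>
      Eventually.of_forall fun h => Df_norm _ h) (Eventually.of_forall fun h => ?_)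
    exact (Df_lim h).comp seq_lim
  have h2 : Tendsto (fun n : ℕ => ∫ h, Df (1 / ((n : ℝ) + 1)) h ∂μ) atTop
      (𝓝 (⟪v, Complex.I • k⟫_ℂ)) := by
    refine ((tendsto_const_nhds (x := v)).inner hlim).congr fun n => ?_
    exact hμ _
  have h3 := tendsto_nhds_unique h1 h2
  rw [integral_const_mul, inner_smul_right] at h3
  have h4 := mul_left_cancel₀ Complex.I_ne_zero h3
  rw [integral_complex_ofReal] at h4
  rw [← h4, Complex.ofReal_re]

/-- `∫_{-n}^n e^r / (e^h + e^r) dr = n - Ln n h` -/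
def Ln (n h : ℝ) : ℝ := Real.log (Real.exp h + Real.exp (-n)) - Real.log (1 + Real.exp (h - n))

theorem Ln_int (n h : ℝ) :
    ∫ r in (-n)..n, Real.exp r / (Real.exp h + Real.exp r) = n - Ln n h := by
  have h1 : ∀ r ∈ Set.uIcc (-n) n, HasDerivAt (fun r => Real.log (Real.exp h + Real.exp r))
      (Real.exp r / (Real.exp h + Real.exp r)) r := by
    intro r _
    have h2 : HasDerivAt (fun r => Real.exp h + Real.exp r) (Real.exp r) r :=
      (Real.hasDerivAt_exp r).const_add _
    exact h2.log (by positivity)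
  rw [intervalIntegral.integral_eq_sub_of_hasDerivAt h1]
  · have h3 : Real.log (Real.exp h + Real.exp n) = n + Real.log (1 + Real.exp (h - n)) := by
      have h4 : Real.exp h + Real.exp n = Real.exp n * (1 + Real.exp (h - n)) := by
        rw [mul_add, mul_one, ← Real.exp_add]
        have : n + (h - n) = h := by ring
        rw [this]
        ring
      rw [h4, Real.log_mul (by positivity) (by positivity), Real.log_exp]
    rw [h3, Ln]
    ring
  · apply Continuous.intervalIntegrable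
    exact Continuous.div (by fun_prop) (by fun_prop) fun r => by positivity

theorem log_le (h : ℝ) : Real.log (1 + Real.exp |h|) ≤ Real.log 2 + |h| := by
  have h1 : Real.log 2 + |h| = Real.log (2 * Real.exp |h|) := by
    rw [Real.log_mul (by norm_num) (by positivity), Real.log_exp]
  rw [h1]
  apply Real.log_le_log (by positivity)
  have := Real.one_le_exp (abs_nonneg h)
  linarith

theorem Ln_bd (n h : ℝ) (hn : 0 ≤ n) : |Ln n h| ≤ 2 * Real.log 2 + 2 * |h| := by
  have e1 := Real.exp_pos h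
  have e2 := Real.exp_pos (-n)
  have e3 := Real.exp_pos (h - n)
  have l2 : 0 ≤ Real.log 2 := Real.log_nonneg (by norm_num)
  have a1 : Real.log (Real.exp h + Real.exp (-n)) ≤ Real.log 2 + |h| := by
    refine le_trans (Real.log_le_log (by positivity) ?_) (log_le h)
    have h1 : Real.exp h ≤ Real.exp |h| := Real.exp_le_exp.2 (le_abs_self h)
    have h2 : Real.exp (-n) ≤ 1 := Real.exp_le_one_iff.2 (by linarith)
    linarith
  have a2 : -|h| ≤ Real.log (Real.exp h + Real.exp (-n)) := by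
    refine (neg_abs_le h).trans ?_
    have : h = Real.log (Real.exp h) := (Real.log_exp h).symm
    conv_lhs => rw [this]
    exact Real.log_le_log e1 (by linarith)
  have b1 : Real.log (1 + Real.exp (h - n)) ≤ Real.log 2 + |h| := by
    refine le_trans (Real.log_le_log (by positivity) ?_) (log_le h)
    have h1 : Real.exp (h - n) ≤ Real.exp |h| := Real.exp_le_exp.2 (by
      have := le_abs_self h
      linarith)
    linarith
  have b2 : 0 ≤ Real.log (1 + Real.exp (h - n)) := Real.log_nonneg (by linarith)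
  have hh := abs_nonneg h
  rw [Ln, abs_le]
  constructor <;> linarith

theorem Ln_lim (h : ℝ) : Tendsto (fun n : ℕ => Ln n h) atTop (𝓝 h) := by
  have h1 : Tendsto (fun n : ℕ => Real.exp (-(n : ℝ))) atTop (𝓝 0) :=
    Real.tendsto_exp_neg_atTop_nhds_zero.comp tendsto_natCast_atTop_atTop
  have h2 : Tendsto (fun n : ℕ => Real.log (Real.exp h + Real.exp (-(n : ℝ)))) atTop
      (𝓝 (Real.log (Real.exp h + 0))) :=
    (tendsto_const_nhds.add h1).log (by rw [add_zero]; exact (Real.exp_pos h).ne')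
  have h3 : Tendsto (fun n : ℕ => Real.log (1 + Real.exp (h - (n : ℝ)))) atTop
      (𝓝 (Real.log (1 + Real.exp h * 0))) := by
    have h4 : Tendsto (fun n : ℕ => 1 + Real.exp (h - (n : ℝ))) atTop
        (𝓝 (1 + Real.exp h * 0)) := by
      refine tendsto_const_nhds.add ((h1.const_mul (Real.exp h)).congr fun n => ?_)
      rw [← Real.exp_add]
      congr 1
    exact h4.log (by simp)
  have h5 := h2.sub h3
  rw [add_zero, Real.log_exp, mul_zero, add_zero, Real.log_one, sub_zero] at h5
  exact h5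

theorem Ln_cont (n : ℝ) : Continuous (Ln n) := by
  refine Continuous.sub ?_ ?_
  · exact Continuous.log (by fun_prop) fun h => by positivity
  · exact Continuous.log (by fun_prop) fun h => by positivity

theorem swap (μ : Measure ℝ) [IsFiniteMeasure μ] (n : ℝ) :
    IntervalIntegrable (fun r => ∫ h, Real.exp r / (Real.exp h + Real.exp r) ∂μ) volume (-n) n ∧
    ∫ r in (-n)..n, ∫ h, Real.exp r / (Real.exp h + Real.exp r) ∂μ = ∫ h, (n - Ln n h) ∂μ := by
  have hi : Integrable (Function.uncurry fun r h : ℝ => Real.exp r / (Real.exp h + Real.exp r))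
      ((volume.restrict (Set.uIoc (-n) n)).prod μ) := by
    haveI : IsFiniteMeasure (volume.restrict (Set.uIoc (-n) n)) := ⟨by
      rw [Measure.restrict_apply_univ, Set.uIoc]
      exact measure_Ioc_lt_top⟩
    refine Integrable.mono' (integrable_const (1 : ℝ)) ?_ (Eventually.of_forall fun p => ?_)
    · refine Continuous.aestronglyMeasurable ?_
      exact Continuous.div (by fun_prop) (by fun_prop) fun p => by positivity
    · show ‖Real.exp p.1 / (Real.exp p.2 + Real.exp p.1)‖ ≤ 1
      have := Real.exp_pos p.2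
      rw [Real.norm_of_nonneg (by positivity), div_le_one (by positivity)]
      linarith
  constructor
  · rw [intervalIntegrable_iff]
    exact hi.integral_prod_left
  · rw [intervalIntegral_integral_swap hi]
    refine integral_congr_ae (Eventually.of_forall fun h => ?_)
    exact Ln_int n h

/-- **Monotonicity of the modular Hamiltonians.** -/
theorem gen_le (DM : ModData M ξ) (DN : ModData N ξ) (hle : ∀ x ∈ N, x ∈ M) {v k k' : H}
    (hM : HasDerivAt (fun t : ℝ => DM.U t v) (Complex.I • k) 0)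
    (hN : HasDerivAt (fun t : ℝ => DN.U t v) (Complex.I • k') 0) :
    (⟪v, k⟫_ℂ).re ≤ (⟪v, k'⟫_ℂ).re := by
  obtain ⟨μ, hμf, hμ⟩ := DM.spec v
  obtain ⟨ν, hνf, hν⟩ := DN.spec v
  obtain ⟨iμ, mμ⟩ := mean DM hM hμ
  obtain ⟨iν, mν⟩ := mean DN hN hν
  have hmass : ∫ h, (1 : ℝ) ∂μ = ∫ h, (1 : ℝ) ∂ν := by
    have h1 := hμ 1
    have h2 := hν 1
    rw [map_one] at h1 h2
    have h3 := h1.symm.trans h2
    simp only [BoundedContinuousFunction.coe_one, Pi.one_apply] at h3
    have e : ∀ ρ : Measure ℝ, ∫ h : ℝ, (1 : ℂ) ∂ρ = ((∫ h : ℝ, (1 : ℝ) ∂ρ : ℝ) : ℂ) := by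
      intro ρ
      rw [← integral_complex_ofReal]
      simp
    rw [e, e] at h3
    exact_mod_cast h3
  have hres : ∀ r : ℝ, ∫ h, Real.exp r / (Real.exp h + Real.exp r) ∂ν ≤
      ∫ h, Real.exp r / (Real.exp h + Real.exp r) ∂μ := by
    intro r
    have h1 := res_le DM DN hle (Real.exp r) (Real.exp_pos r) v
    rw [hμ, hν] at h1
    have e : ∀ ρ : Measure ℝ, (∫ h, fs (Real.exp r) (Real.exp_pos r) h ∂ρ).re =
        ∫ h, 1 / (Real.exp h + Real.exp r) ∂ρ := by
      intro ρ
      have : ∫ h, fs (Real.exp r) (Real.exp_pos r) h ∂ρ =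
          ((∫ h, 1 / (Real.exp h + Real.exp r) ∂ρ : ℝ) : ℂ) := by
        rw [← integral_complex_ofReal]
        rfl
      rw [this, Complex.ofReal_re]
    rw [e, e] at h1
    have e2 : ∀ ρ : Measure ℝ, ∫ h, Real.exp r / (Real.exp h + Real.exp r) ∂ρ =
        Real.exp r * ∫ h, 1 / (Real.exp h + Real.exp r) ∂ρ := by
      intro ρ
      rw [← integral_const_mul]
      refine integral_congr_ae (Eventually.of_forall fun h => ?_)
      show _ = Real.exp r * (1 / (Real.exp h + Real.exp r))
      rw [mul_one_div]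
    rw [e2, e2]
    exact mul_le_mul_of_nonneg_left h1 (Real.exp_pos r).le
  have hL : ∀ n : ℕ, ∫ h, Ln n h ∂μ ≤ ∫ h, Ln n h ∂ν := by
    intro n
    obtain ⟨i1, e1⟩ := swap μ n
    obtain ⟨i2, e2⟩ := swap ν n
    have h1 := intervalIntegral.integral_mono_on (a := -(n : ℝ)) (b := n) (by
      have : (0 : ℝ) ≤ n := n.cast_nonneg
      linarith) i2 i1 fun r _ => hres r
    rw [e1, e2] at h1
    have hLi : ∀ ρ : Measure ℝ, IsFiniteMeasure ρ → Integrable (fun h : ℝ => h) ρ →
        Integrable (Ln n) ρ := by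
      intro ρ _ hρ
      refine Integrable.mono' ((integrable_const (2 * Real.log 2)).add (hρ.abs.const_mul 2))
        (Ln_cont n).aestronglyMeasurable (Eventually.of_forall fun h => ?_)
      exact Ln_bd n h n.cast_nonneg
    have e3 : ∀ ρ : Measure ℝ, IsFiniteMeasure ρ → Integrable (fun h : ℝ => h) ρ →
        ∫ h, ((n : ℝ) - Ln n h) ∂ρ = n * (∫ h, (1 : ℝ) ∂ρ) - ∫ h, Ln n h ∂ρ := by
      intro ρ h1 h2
      rw [integral_sub (integrable_const _) (hLi ρ h1 h2), ← integral_const_mul]
      simp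
    rw [e3 μ hμf iμ, e3 ν hνf iν, hmass] at h1
    linarith
  have hlim : ∀ ρ : Measure ℝ, IsFiniteMeasure ρ → Integrable (fun h : ℝ => h) ρ →
      Tendsto (fun n : ℕ => ∫ h, Ln n h ∂ρ) atTop (𝓝 (∫ h, h ∂ρ)) := by
    intro ρ _ hρ
    refine tendsto_integral_of_dominated_convergence (fun h => 2 * Real.log 2 + 2 * |h|)
      (fun n => (Ln_cont n).aestronglyMeasurable)
      ((integrable_const (2 * Real.log 2)).add (hρ.abs.const_mul 2)) (fun n =>
      Eventually.of_forall fun h => Ln_bd n h n.cast_nonneg)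
      (Eventually.of_forall fun h => Ln_lim h)
  rw [← mμ, ← mν]
  exact le_of_tendsto_of_tendsto' (hlim μ hμf iμ) (hlim ν hνf iν) hL

end Mon

end Vale.Agent.P352.BW

end
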