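import Vale.Agent.P352.BW.Mon2
import Vale.Agent.P352.BW.Fe
import Vale.Agent.P352.H755.R7b

/-!
# P352 BW: the null generators are positive

`𝒜 (Rg a b 1) ⊆ 𝒜 (Wdg a b 0)`, so `log Δ` of the first algebra is at least `log Δ` of the second
(`Mon.gen_le`), and the difference is `2π G a`.
-/

set_option linter.all false

noncomputable section

open MeasureTheory Filter Topology

namespace Vale.Agent.P352.BW

open GF H246 H496 H755 H15
open UniformSpace (Completion)
open Vale.Agent.P132 (ModData)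

variable {D : Type*} [NormedAddCommGroup D] [InnerProductSpace ℂ D]
variable {Q : Theory D} {T : Ix → Ix → Fld D} {J : Ix → Fld D} {A : (V → V) → D → D}
  {𝒜 : Set V → VonNeumannAlgebra (Completion D)}

namespace MB

/-- comparison of the modular Hamiltonians of two nested algebras on `D` -/
theorem pos_of {M N : VonNeumannAlgebra (Completion D)} {ξ : Completion D} (E : ModData M ξ)
    (E' : ModData N ξ) (hle : ∀ X ∈ N, X ∈ M) {x k g : D} {r : ℝ} (hr : 0 < r)
    (h0 : HasDerivAt (fun t : ℝ => E.U t (x : Completion D))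
      ((Complex.I • k : D) : Completion D) 0)
    (h1 : HasDerivAt (fun t : ℝ => E'.U t (x : Completion D))
      ((Complex.I • (k + ((r : ℝ) : ℂ) • g) : D) : Completion D) 0) :
    0 ≤ (inner ℂ x g).re := by
  rw [UniformSpace.Completion.coe_smul] at h0 h1
  have h := Mon.gen_le E E' hle h0 h1
  rw [UniformSpace.Completion.inner_coe, UniformSpace.Completion.inner_coe, inner_add_right,
    inner_smul_right, Complex.add_re, Complex.re_ofReal_mul] at h
  have h2 : 0 ≤ r * (inner ℂ x g).re := by linarith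
  exact nonneg_of_mul_nonneg_right h2 hr

/-- **The null generators are positive.** -/
theorem pos (hU : UStmt Q A) (hR : Rep Q A) (mono : ∀ O O', O ⊆ O' → ∀ X ∈ 𝒜 O, X ∈ 𝒜 O')
    (bw : ∀ a b t L (E : ModData (𝒜 (Wdg a b 0)) (om Q)) z, IsNull a → IsNull b →
      GF.mdot a b = 1 → IsLor L →
      (∀ x, sim 1 L 0 x = x + ((Real.exp (-(2 * Real.pi * t)) - 1) * GF.mdot b x) • a +
        ((Real.exp (2 * Real.pi * t) - 1) * GF.mdot a x) • b) → E.U t z = Ue Q 1 L 0 z)
    {S : V → V → ℝ → Completion D →L[ℂ] Completion D} {G : V → D → D}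
    (hN : ∀ a b, IsNull a → IsNull b → GF.mdot a b = 1 → Nd Q 𝒜 a b (S a b) ∧
      Nonempty (ModData (𝒜 (Wdg a b 0)) (om Q)) ∧
      ∀ c : ℝ, 0 < c → Nonempty (ModData (𝒜 (HM.Rg a b c)) (om Q)))
    (hG : ∀ a b (v : D), IsNull a → IsNull b → GF.mdot a b = 1 →
      HasDerivAt (fun c : ℝ => S a b c (v : Completion D))
        ((Complex.I • G a v : D) : Completion D) 0) :
    ∀ a x, IsNull a → 0 ≤ (inner ℂ x (G a x)).re := by
  intro a x ha
  obtain ⟨b, hb, hab⟩ := H755.exists_dual ha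
  obtain ⟨hNd, ⟨E⟩, hE⟩ := hN a b ha hb hab
  obtain ⟨E1⟩ := hE 1 one_pos
  have hEU : ∀ t : ℝ, E.U t (x : Completion D) =
      (Q.U 1 (bst a b (Real.exp (-(2 * Real.pi * t)) - 1)
        (Real.exp (2 * Real.pi * t) - 1)) 0 x : D) := by
    intro t
    rw [bw a b t _ E x ha hb hab (isLor_b ha hb hab t) (fun x => sim_bst a b _ _ x),
      hU.coe 1 _ 0 x one_pos (isLor_b ha hb hab t)]
  have h0 : HasDerivAt (fun t : ℝ => E.U t (x : Completion D))
      ((Complex.I • A (fun z => (2 * Real.pi) • (GF.mdot a z • b - GF.mdot b z • a)) x : D) :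
        Completion D) 0 := by
    have h := JB.coe_der (boost_der hR ha hb hab x)
    exact h.congr_of_eventuallyEq (Eventually.of_forall fun t => hEU t)
  have h1 := modham hU hR bw ha hb hab one_pos hNd E E1 E1 (hG a b x ha hb hab)
  have hsub : HM.Rg a b 1 ⊆ Wdg a b 0 := by
    rw [← HM.H584.Rg_zero]
    exact HM.H584.Rg_mono ha hb hab le_rfl zero_le_one
  exact pos_of E E1 (mono _ _ hsub) (by positivity) h0 h1

end MB

/-- **The null generators** with positivity -/
theorem null_p (N : LNet Q A 𝒜) (hT : Q.IsStress T) (hJ : IsVirial Q T J) :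
    ∃ (S : V → V → ℝ → Completion D →L[ℂ] Completion D) (G : V → D → D),
      (∀ a b, IsNull a → IsNull b → GF.mdot a b = 1 → Nd Q 𝒜 a b (S a b) ∧
        Nonempty (ModData (𝒜 (Wdg a b 0)) (om Q)) ∧
        ∀ c : ℝ, 0 < c → Nonempty (ModData (𝒜 (HM.Rg a b c)) (om Q))) ∧
      (∀ a b (v : D), IsNull a → IsNull b → GF.mdot a b = 1 →
        HasDerivAt (fun c : ℝ => S a b c (v : Completion D))
          ((Complex.I • G a v : D) : Completion D) 0) ∧ NG.NullGen Q T J A G ∧
      MHam Q A 𝒜 G ∧ ∀ a x, IsNull a → 0 ≤ (inner ℂ x (G a x)).re := by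
  obtain ⟨S, G, hN, hG, hn, hm⟩ := null_l N hT hJ
  exact ⟨S, G, hN, hG, hn, hm, MB.pos (ublock N.toRep) N.toRep N.mono N.bw hN hG⟩

/-- **The main theorem** for local nets with the property of Bisognano and Wichmann, with
positivity -/
theorem main_lp (hT : Q.IsStress T) (hJ : IsVirial Q T J) (hP : ND.PCh Q T A)
    (N : LNet Q A 𝒜) :
    N86.ConfInv Q T ∧ ∃ G : V → D → D, MHam Q A 𝒜 G ∧
      (∀ a x, IsNull a → 0 ≤ (inner ℂ x (G a x)).re) ∧
      (∃ C : D → D, NG.Neutral Q T J A C ∧ NG.ConfC Q A G C) ∧ (∀ m n, NG.LocF Q G (T m n)) ∧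
      (∀ m, NG.LocF Q G (J m)) ∧ (NG.Cyc Q T J → ConfGen Q A G) := by
  obtain ⟨S, G, hN, hG, hn, hm, hp⟩ := null_p N hT hJ
  obtain ⟨h1, h2, h3⟩ := (NG.nullGen_iff hT hJ hP).1 hn
  exact ⟨NG.confL hT hJ hn hP, G, hm, hp, h1, h2, h3, fun hc => NG.confGen_of hT hJ hn hP hc⟩

/-- **The main theorem** for local nets, with positivity -/
theorem main_np (hT : Q.IsStress T) (hJ : IsVirial Q T J) (hP : ND.PCh Q T A)
    (hG : H846.TGen Q) (N : LNt Q A 𝒜) :
    N86.ConfInv Q T ∧ ∃ G : V → D → D, MHam Q A 𝒜 G ∧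
      (∀ a x, IsNull a → 0 ≤ (inner ℂ x (G a x)).re) ∧
      (∃ C : D → D, NG.Neutral Q T J A C ∧ NG.ConfC Q A G C) ∧ (∀ m n, NG.LocF Q G (T m n)) ∧
      (∀ m, NG.LocF Q G (J m)) ∧ (NG.Cyc Q T J → ConfGen Q A G) :=
  main_lp hT hJ hP (Vale.Agent.P352.BW.T.net hG N.lnet0)

end Vale.Agent.P352.BW

end
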