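import Vale.Agent.P352.BW.Mon2
import Vale.Agent.P352.BW.J

/-!
# P352 BW: the unitary group of a half-sided modular inclusion has a positive generator
-/

set_option linter.all false

noncomputable section

open MeasureTheory Filter Topology
open scoped ComplexConjugate InnerProductSpace BoundedContinuousFunction

namespace Vale.Agent.P352.BW

open Vale.Agent.P132 (ModData expB)

namespace Ps

variable {H : Type*} [NormedAddCommGroup H] [InnerProductSpace ℂ H] [CompleteSpace H]
variable {M N : VonNeumannAlgebra H} {ξ : H}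

theorem avg_lim {f : ℝ → H} (hf : Continuous f) :
    Tendsto (fun ε : ℝ => ε⁻¹ • ∫ t in (0 : ℝ)..ε, f t) (𝓝[≠] 0) (𝓝 (f 0)) := by
  have h1 : HasDerivAt (fun ε => ∫ t in (0 : ℝ)..ε, f t) (f 0) 0 :=
    (hf.integral_hasStrictDerivAt 0 0).hasDerivAt
  have h2 := hasDerivAt_iff_tendsto_slope_zero.1 h1
  refine h2.congr fun ε => ?_
  simp

/-- averages of an orbit are differentiable -/
theorem U_avg (E : ModData M ξ) (z : H) (ε : ℝ) :
    HasDerivAt (fun s => E.U s (∫ t in (0 : ℝ)..ε, E.U t z)) (E.U ε z - z) 0 := by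
  have hc : Continuous fun t => E.U t z := E.continuous_U z
  have e : ∀ s, E.U s (∫ t in (0 : ℝ)..ε, E.U t z) =
      (∫ t in (0 : ℝ)..(s + ε), E.U t z) - ∫ t in (0 : ℝ)..s, E.U t z := by
    intro s
    rw [← ContinuousLinearMap.intervalIntegral_comp_comm _ (hc.intervalIntegrable _ _)]
    simp_rw [← E.U_add_apply]
    rw [intervalIntegral.integral_comp_add_left (fun t => E.U t z) s, add_zero,
      intervalIntegral.integral_interval_sub_left (hc.intervalIntegrable _ _)
        (hc.intervalIntegrable _ _)]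
  have h1 : HasDerivAt (fun s => ∫ t in (0 : ℝ)..(s + ε), E.U t z) (E.U ε z) 0 := by
    have h2 : HasDerivAt (fun s => ∫ t in (0 : ℝ)..s, E.U t z) (E.U ε z) (0 + ε) := by
      rw [zero_add]
      exact (hc.integral_hasStrictDerivAt 0 ε).hasDerivAt
    exact h2.comp_add_const 0 ε
  have h3 : HasDerivAt (fun s => ∫ t in (0 : ℝ)..s, E.U t z) z 0 := by
    have h4 := (hc.integral_hasStrictDerivAt 0 0).hasDerivAt
    have h5 : E.U 0 z = z := by
      rw [E.U_zero]
      rfl
    rwa [h5] at h4
  refine (h1.sub h3).congr_of_eventuallyEq (Eventually.of_forall fun s => ?_)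
  exact e s

theorem S_der {S : ℝ → H →L[ℂ] H} (add : ∀ c c', S (c + c') = S c * S c') {z g : H}
    (hz : HasDerivAt (fun c => S c z) g 0) (c : ℝ) : HasDerivAt (fun c => S c z) (S c g) c := by
  have h1 : HasDerivAt (fun h => S c (S h z)) (S c g) 0 :=
    ((S c).restrictScalars ℝ).hasFDerivAt.comp_hasDerivAt 0 hz
  have h2 : HasDerivAt (fun h => S c (S h z)) (S c g) (c - c) := by
    rw [sub_self]
    exact h1
  refine (h2.comp_sub_const c c).congr_of_eventuallyEq (Eventually.of_forall fun x => ?_)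
  show S x z = S c (S (x - c) z)
  have : x = c + (x - c) := by ring
  conv_lhs => rw [this, add]
  rfl

/-- the group on averages of an orbit -/
theorem S_avg (E : ModData M ξ) {S : ℝ → H →L[ℂ] H} (zero : S 0 = 1)
    (add : ∀ c c', S (c + c') = S c * S c') (hn : ∀ c z, ‖S c z‖ ≤ ‖z‖)
    (hc : ∀ z, Continuous fun c => S c z)
    (cov : ∀ s c z, E.U s (S c z) = S (Real.exp (-(2 * Real.pi * s)) * c) (E.U s z))
    {z w : H} (hz : HasDerivAt (fun c => S c z) (Complex.I • w) 0) (ε : ℝ) :
    HasDerivAt (fun c => S c (∫ t in (0 : ℝ)..ε, E.U t z))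
      (Complex.I • ∫ t in (0 : ℝ)..ε, Real.exp (2 * Real.pi * t) • E.U t w) 0 := by
  have hcU : ∀ z, Continuous fun t => E.U t z := fun z => E.continuous_U z
  have e : ∀ c, S c (∫ t in (0 : ℝ)..ε, E.U t z) =
      ∫ t in (0 : ℝ)..ε, E.U t (S (Real.exp (2 * Real.pi * t) * c) z) := by
    intro c
    rw [← ContinuousLinearMap.intervalIntegral_comp_comm _ ((hcU z).intervalIntegrable _ _)]
    refine intervalIntegral.integral_congr fun t _ => ?_
    show S c (E.U t z) = E.U t (S (Real.exp (2 * Real.pi * t) * c) z)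
    rw [cov, ← mul_assoc, ← Real.exp_add]
    congr 2
    have : -(2 * Real.pi * t) + 2 * Real.pi * t = 0 := by ring
    rw [this, Real.exp_zero, one_mul]
  have hd : ∀ t x : ℝ, HasDerivAt (fun x => E.U t (S (Real.exp (2 * Real.pi * t) * x) z))
      (E.U t (Real.exp (2 * Real.pi * t) • S (Real.exp (2 * Real.pi * t) * x)
        (Complex.I • w))) x := by
    intro t x
    have h1 : HasDerivAt (fun x : ℝ => Real.exp (2 * Real.pi * t) * x)
        (Real.exp (2 * Real.pi * t)) x := by
      simpa using (hasDerivAt_id x).const_mul (Real.exp (2 * Real.pi * t))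
    have h2 := (S_der add hz (Real.exp (2 * Real.pi * t) * x)).scomp x h1
    exact ((E.U t).restrictScalars ℝ).hasFDerivAt.comp_hasDerivAt x h2
  have hcF : ∀ x : ℝ, Continuous fun t : ℝ => E.U t (S (Real.exp (2 * Real.pi * t) * x) z) :=
    fun x => E.continuous_U_comp (φ := fun t : ℝ => S (Real.exp (2 * Real.pi * t) * x) z)
      ((hc z).comp (by fun_prop)) continuous_id
  have hcF' : ∀ x : ℝ, Continuous fun t : ℝ => E.U t (Real.exp (2 * Real.pi * t) •
      S (Real.exp (2 * Real.pi * t) * x) (Complex.I • w)) :=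
    fun x => E.continuous_U_comp (φ := fun t : ℝ => Real.exp (2 * Real.pi * t) •
      S (Real.exp (2 * Real.pi * t) * x) (Complex.I • w))
      ((by fun_prop : Continuous fun t : ℝ => Real.exp (2 * Real.pi * t)).smul
        ((hc _).comp (by fun_prop))) continuous_id
  have hbc : Continuous fun t : ℝ => Real.exp (2 * Real.pi * t) * ‖Complex.I • w‖ := by fun_prop
  have h := (intervalIntegral.hasDerivAt_integral_of_dominated_loc_of_deriv_le (μ := volume)
    (a := 0) (b := ε) (x₀ := (0 : ℝ)) (s := Set.univ)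
    (F := fun x t => E.U t (S (Real.exp (2 * Real.pi * t) * x) z))
    (F' := fun x t => E.U t (Real.exp (2 * Real.pi * t) • S (Real.exp (2 * Real.pi * t) * x)
      (Complex.I • w)))
    (bound := fun t => Real.exp (2 * Real.pi * t) * ‖Complex.I • w‖) univ_mem
    (Eventually.of_forall fun x => (hcF x).aestronglyMeasurable)
    ((hcF 0).intervalIntegrable _ _) (hcF' 0).aestronglyMeasurable
    (Eventually.of_forall fun t _ x _ => by
      rw [E.norm_U, norm_smul, Real.norm_of_nonneg (Real.exp_pos _).le]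
      exact mul_le_mul_of_nonneg_left (hn _ _) (Real.exp_pos _).le)
    (hbc.intervalIntegrable _ _)
    (Eventually.of_forall fun t _ x _ => hd t x)).2
  have e2 : ∫ t in (0 : ℝ)..ε, E.U t (Real.exp (2 * Real.pi * t) •
      S (Real.exp (2 * Real.pi * t) * 0) (Complex.I • w)) =
      Complex.I • ∫ t in (0 : ℝ)..ε, Real.exp (2 * Real.pi * t) • E.U t w := by
    rw [← intervalIntegral.integral_smul]
    refine intervalIntegral.integral_congr fun t _ => ?_
    show E.U t (Real.exp (2 * Real.pi * t) • S (Real.exp (2 * Real.pi * t) * 0)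
      (Complex.I • w)) = Complex.I • Real.exp (2 * Real.pi * t) • E.U t w
    rw [mul_zero, zero]
    show E.U t (Real.exp (2 * Real.pi * t) • (Complex.I • w)) = _
    rw [ContinuousLinearMap.map_smul_of_tower, map_smul, smul_comm]
  rw [e2] at h
  refine h.congr_of_eventuallyEq (Eventually.of_forall fun c => ?_)
  exact e c

/-- **Positivity of the generator**: if `w = -i d/dc S c z` at `c = 0` then `0 ≤ <z, w>`. -/
theorem pos (E : ModData M ξ) (E' : ModData N ξ) (hle : ∀ X ∈ N, X ∈ M) {S : ℝ → H →L[ℂ] H}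
    (zero : S 0 = 1) (add : ∀ c c', S (c + c') = S c * S c') (hn : ∀ c z, ‖S c z‖ ≤ ‖z‖)
    (hc : ∀ z, Continuous fun c => S c z)
    (mod : ∀ t z, E'.U t z = S (1 - Real.exp (-(2 * Real.pi * t))) (E.U t z))
    (cov : ∀ s c z, E.U s (S c z) = S (Real.exp (-(2 * Real.pi * s)) * c) (E.U s z))
    {z w : H} (hz : HasDerivAt (fun c => S c z) (Complex.I • w) 0) : 0 ≤ (⟪z, w⟫_ℂ).re := by
  have hcU : ∀ z, Continuous fun t => E.U t z := fun z => E.continuous_U z
  have hcw : Continuous fun t : ℝ => Real.exp (2 * Real.pi * t) • E.U t w :=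
    (by fun_prop : Continuous fun t : ℝ => Real.exp (2 * Real.pi * t)).smul (hcU w)
  -- the averages
  have key : ∀ ε : ℝ, 0 ≤ (⟪∫ t in (0 : ℝ)..ε, E.U t z,
      ∫ t in (0 : ℝ)..ε, Real.exp (2 * Real.pi * t) • E.U t w⟫_ℂ).re := by
    intro ε
    set zε := ∫ t in (0 : ℝ)..ε, E.U t z with hzε
    set wε := ∫ t in (0 : ℝ)..ε, Real.exp (2 * Real.pi * t) • E.U t w with hwε
    have h1 : HasDerivAt (fun s => E.U s zε) (E.U ε z - z) 0 := U_avg E z ε
    have h2 : HasDerivAt (fun c => S c zε) (Complex.I • wε) 0 :=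
      S_avg E zero add hn hc cov hz ε
    have hτ : HasDerivAt (fun t : ℝ => 1 - Real.exp (-(2 * Real.pi * t))) (2 * Real.pi) 0 := by
      have h3 : HasDerivAt (fun e : ℝ => Real.exp (-(2 * Real.pi * e))) (-(2 * Real.pi)) 0 := by
        have := (((hasDerivAt_id (0 : ℝ)).const_mul (2 * Real.pi)).neg).exp
        simpa using this
      refine (h3.const_sub 1).congr_deriv ?_
      ring
    have h0' : (1 : ℝ) - Real.exp (-(2 * Real.pi * 0)) = 0 := by
      rw [mul_zero, neg_zero, Real.exp_zero, sub_self]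
    have h4 : HasDerivAt (fun t : ℝ => S (1 - Real.exp (-(2 * Real.pi * t))) zε)
        ((2 * Real.pi) • (Complex.I • wε)) 0 := by
      have h5 : HasDerivAt (fun c => S c zε) (Complex.I • wε)
          ((fun t : ℝ => 1 - Real.exp (-(2 * Real.pi * t))) 0) := by
        show HasDerivAt _ _ (1 - Real.exp (-(2 * Real.pi * 0)))
        rw [h0']
        exact h2
      exact h5.scomp (0 : ℝ) hτ
    have h6 := JB.prod_der (fun t : ℝ => S (1 - Real.exp (-(2 * Real.pi * t))))
      (fun t z => hn _ z) (fun z => (hc z).comp (by fun_prop)) (by rw [h0', zero])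
      (w := (2 * Real.pi) • (Complex.I • wε)) h1 (by
        have : E.U 0 zε = zε := by rw [E.U_zero]; rfl
        simp only [this]
        exact h4)
    have h7 : HasDerivAt (fun t => E'.U t zε)
        (Complex.I • (-(Complex.I • (E.U ε z - z)) + ((2 * Real.pi : ℝ) : ℂ) • wε)) 0 := by
      have e1 : (fun t => E'.U t zε) = fun t : ℝ => S (1 - Real.exp (-(2 * Real.pi * t)))
          (E.U t zε) := by
        funext t
        exact mod t zε
      rw [e1]
      refine h6.congr_deriv ?_
      rw [smul_add, smul_neg, smul_smul, Complex.I_mul_I, neg_smul, one_smul, neg_neg,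
        ← Complex.coe_smul, smul_comm, add_comm]
    have h8 : HasDerivAt (fun s => E.U s zε) (Complex.I • (-(Complex.I • (E.U ε z - z)))) 0 := by
      refine h1.congr_deriv ?_
      rw [smul_neg, smul_smul, Complex.I_mul_I, neg_smul, one_smul, neg_neg]
    have h9 := Mon.gen_le E E' hle h8 h7
    rw [inner_add_right, inner_smul_right, Complex.add_re, Complex.re_ofReal_mul] at h9
    have h10 : 0 ≤ 2 * Real.pi * (⟪zε, wε⟫_ℂ).re := by linarith
    exact nonneg_of_mul_nonneg_right h10 (by positivity)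
  have l1 := (avg_lim (hcU z)).comp Mon.seq_lim
  have l2 := (avg_lim hcw).comp Mon.seq_lim
  have e1 : E.U 0 z = z := by rw [E.U_zero]; rfl
  have e2 : Real.exp (2 * Real.pi * 0) • E.U 0 w = w := by
    rw [mul_zero, Real.exp_zero, one_smul, E.U_zero]; rfl
  rw [e1] at l1
  rw [e2] at l2
  have l3 : Tendsto (fun n : ℕ => (⟪(1 / ((n : ℝ) + 1))⁻¹ • ∫ t in (0 : ℝ)..(1 / ((n : ℝ) + 1)),
      E.U t z, (1 / ((n : ℝ) + 1))⁻¹ • ∫ t in (0 : ℝ)..(1 / ((n : ℝ) + 1)),
        Real.exp (2 * Real.pi * t) • E.U t w⟫_ℂ).re) atTop (𝓝 (⟪z, w⟫_ℂ).re) :=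
    (Complex.continuous_re.tendsto _).comp (l1.inner l2)
  refine ge_of_tendsto' l3 fun n => ?_
  rw [← Complex.coe_smul, ← Complex.coe_smul, inner_smul_left, inner_smul_right,
    Complex.conj_ofReal, Complex.re_ofReal_mul, Complex.re_ofReal_mul]
  have hpos : (0 : ℝ) ≤ (1 / ((n : ℝ) + 1))⁻¹ := by positivity
  exact mul_nonneg hpos (mul_nonneg hpos (key _))

end Ps

end Vale.Agent.P352.BW

end
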