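import Vale.Agent.P352.BW.Fe4

/-!
# P352 BW: the null deformations are unique
-/

set_option linter.all false

noncomputable section

open MeasureTheory Filter Topology

namespace Vale.Agent.P352.BW

open Vale.Agent.P132 (ModData)
open UniformSpace (Completion)
open GF H246 H496 H755 H15

variable {D : Type*} [NormedAddCommGroup D] [InnerProductSpace ℂ D]
  {Q : Theory D} {A : (V → V) → D → D} {𝒜 : Set V → VonNeumannAlgebra (Completion D)}
  {S S' : V → ℝ → Completion D →L[ℂ] Completion D}

theorem Gr0.nsmul (h : Gr0 Q 𝒜 S) {a : V} (ha : IsNull a) (x : ℝ) (n : ℕ) :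
    S a (n * x) = S a x ^ n := by
  induction n with
  | zero => rw [Nat.cast_zero, zero_mul, h.zero a ha, pow_zero]
  | succ n ih => rw [Nat.cast_succ, add_mul, one_mul, h.add a _ _ ha, ih, pow_succ]

/-- **Uniqueness of the null deformations** -/
theorem Gr0.unique (hG : TfGen Q) (N : LNm Q A 𝒜) (h : Gr0 Q 𝒜 S) (h' : Gr0 Q 𝒜 S') {a : V}
    (ha : IsNull a) (c : ℝ) : S a c = S' a c := by
  obtain ⟨n, hn⟩ := exists_nat_gt |c|
  have hn0 : (0 : ℝ) < n := (abs_nonneg c).trans_lt hn
  have hc : c / n < 1 := by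
    rw [div_lt_one hn0]
    exact (le_abs_self c).trans_lt hn
  have h1 : S a (c / n) = S' a (c / n) := by
    ext z
    exact h.uniq hG N h' ha hc z
  have h2 : (n : ℝ) * (c / n) = c := by field_simp
  rw [← h2, h.nsmul ha, h'.nsmul ha, h1]

end Vale.Agent.P352.BW

end
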